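import Vale.Agent.P106.K.Blocks

/-!
# P106 / K : the blocks `PBij` and `PLoc` (helper364)

* `pBij : PBij` : the thin plank, its cell and the time block determine the node and the index of the thin plank;
* `pLoc : PLoc` : the cell of a ray of a strict box takes at most `325` values.
-/

set_option autoImplicit false

namespace Vale.Agent.P106.K

open Vale.Agent.P127 Vale.Agent.P127.Stk Vale.Agent.P127.U
open Vale.Agent.P106.W (Cbx hh)
open Vale.Agent.P122.C2 (fn Z2)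
open Vale.Agent.P106.R.C2 (Nd Sl)
open Vale.Agent.P106.R.E (Flg py pz)

theorem floor_grid (m : ℕ) (z : ℤ) : ⌊(2 : ℝ) ^ m * ((z : ℝ) / 2 ^ m)⌋ = z := by
  rw [mul_div_cancel₀ _ (by positivity : (2 : ℝ) ^ m ≠ 0), Int.floor_intCast]

theorem floor_grid_sub (m : ℕ) (z b : ℤ) :
    ⌊(2 : ℝ) ^ m * ((z : ℝ) / 2 ^ m - b)⌋ = z - 2 ^ m * b := by
  rw [mul_sub, mul_div_cancel₀ _ (by positivity : (2 : ℝ) ^ m ≠ 0)]
  have : (z : ℝ) - 2 ^ m * (b : ℝ) = ((z - 2 ^ m * b : ℤ) : ℝ) := by push_cast; ring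
  rw [this, Int.floor_intCast]

theorem nd_ext {S S' : Nd} (h1 : S.τ = S'.τ) (h2 : S.o = S'.o) (h3 : S.T = S'.T) (h4 : S.w = S'.w) : S = S' := by
  cases S; cases S'; simp_all

/-- **bijection** -/
theorem pBij : PBij := by
  intro n h d S S' f f' hf hf' l l' hT hcell hpl
  have hp : (0 : ℝ) < 2 ^ (d * n) := by positivity
  have hc1 : ∀ k, l.cell.1 k = l'.cell.1 k := fun k => by rw [hcell]
  have hc2 : l.cell.2 = l'.cell.2 := by rw [hcell]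
  have e1 : fl (d * n) l.loc.s = fl (d * n) l'.loc.s := congrArg Prod.fst hpl
  have e2 : fl (d * n) l.loc.y = fl (d * n) l'.loc.y := congrArg (fun p => p.2.1) hpl
  have e3 : fl1 (2 * (d * n)) (l.loc.z + ∑ k, l.loc.y k * (l.loc.s k - (fl (d * n) l.loc.s k : ℝ) / 2 ^ (d * n))) =
      fl1 (2 * (d * n)) (l'.loc.z + ∑ k, l'.loc.y k * (l'.loc.s k - (fl (d * n) l'.loc.s k : ℝ) / 2 ^ (d * n))) :=
    congrArg (fun p => p.2.2) hpl
  have hs : ∀ k, l.loc.s k = (S.τ k : ℝ) / 2 ^ (d * n) := fun k => rfl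
  have hs' : ∀ k, l'.loc.s k = (S'.τ k : ℝ) / 2 ^ (d * n) := fun k => rfl
  have hy : ∀ k, l.loc.y k = (S.o k : ℝ) / 2 ^ (d * n) - (l.cell.1 k : ℝ) := fun k => rfl
  have hy' : ∀ k, l'.loc.y k = (S'.o k : ℝ) / 2 ^ (d * n) - (l'.cell.1 k : ℝ) := fun k => rfl
  have f1 : ∀ k, fl (d * n) l.loc.s k = S.τ k := fun k => by
    unfold fl
    rw [hs k]
    exact floor_grid _ _
  have f1' : ∀ k, fl (d * n) l'.loc.s k = S'.τ k := fun k => by
    unfold fl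
    rw [hs' k]
    exact floor_grid _ _
  have hτ : S.τ = S'.τ := by
    funext k
    rw [← f1 k, ← f1' k, e1]
  have ho : S.o = S'.o := by
    funext k
    have g1 : fl (d * n) l.loc.y k = S.o k - 2 ^ (d * n) * l.cell.1 k := by
      unfold fl
      rw [hy k]
      exact floor_grid_sub _ _ _
    have g1' : fl (d * n) l'.loc.y k = S'.o k - 2 ^ (d * n) * l'.cell.1 k := by
      unfold fl
      rw [hy' k]
      exact floor_grid_sub _ _ _
    have g2 : fl (d * n) l.loc.y k = fl (d * n) l'.loc.y k := by rw [e2]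
    rw [g1, g1', hc1 k] at g2
    linarith
  have z1 : l.loc.z + ∑ k, l.loc.y k * (l.loc.s k - (fl (d * n) l.loc.s k : ℝ) / 2 ^ (d * n)) = l.loc.z := by
    have : ∑ k, l.loc.y k * (l.loc.s k - (fl (d * n) l.loc.s k : ℝ) / 2 ^ (d * n)) = 0 :=
      Finset.sum_eq_zero fun k _ => by rw [f1 k, hs k, sub_self, mul_zero]
    rw [this, add_zero]
  have z1' : l'.loc.z + ∑ k, l'.loc.y k * (l'.loc.s k - (fl (d * n) l'.loc.s k : ℝ) / 2 ^ (d * n)) = l'.loc.z := by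
    have : ∑ k, l'.loc.y k * (l'.loc.s k - (fl (d * n) l'.loc.s k : ℝ) / 2 ^ (d * n)) = 0 :=
      Finset.sum_eq_zero fun k _ => by rw [f1' k, hs' k, sub_self, mul_zero]
    rw [this, add_zero]
  rw [z1, z1'] at e3
  -- the common real number
  have hpow : (2 : ℝ) ^ (2 * (d * n)) = 2 ^ (2 * d * n) := by rw [← mul_assoc]
  have hq : (0 : ℝ) < 2 ^ (2 * d * n) := by positivity
  set c : ℝ := 2 ^ (2 * d * n) * (-((S.T : ℝ) * (∑ k, ((S.τ k : ℝ) / 2 ^ (d * n)) ^ 2) / 2) +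
    ∑ k, (l.cell.1 k : ℝ) * ((S.τ k : ℝ) / 2 ^ (d * n)) - (l.cell.2 : ℝ)) with hc
  have w1 : (2 : ℝ) ^ (2 * (d * n)) * l.loc.z = ((S.w * 2 ^ (h * n) + f : ℤ) : ℝ) + c := by
    have : l.loc.z = ((S.w : ℝ) * 2 ^ (h * n) / 2 ^ (2 * d * n) -
        (S.T : ℝ) * (∑ k, ((S.τ k : ℝ) / 2 ^ (d * n)) ^ 2) / 2 + (f : ℝ) / 2 ^ (2 * (d * n))) +
        ∑ k, (l.cell.1 k : ℝ) * ((S.τ k : ℝ) / 2 ^ (d * n)) - (l.cell.2 : ℝ) := rfl
    rw [this, hpow, hc]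
    push_cast
    field_simp
    ring
  have w1' : (2 : ℝ) ^ (2 * (d * n)) * l'.loc.z = ((S'.w * 2 ^ (h * n) + f' : ℤ) : ℝ) + c := by
    have : l'.loc.z = ((S'.w : ℝ) * 2 ^ (h * n) / 2 ^ (2 * d * n) -
        (S'.T : ℝ) * (∑ k, ((S'.τ k : ℝ) / 2 ^ (d * n)) ^ 2) / 2 + (f' : ℝ) / 2 ^ (2 * (d * n))) +
        ∑ k, (l'.cell.1 k : ℝ) * ((S'.τ k : ℝ) / 2 ^ (d * n)) - (l'.cell.2 : ℝ) := rfl
    rw [this, hpow, hc, hτ, hT, hcell]
    push_cast
    field_simp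
    ring
  unfold fl1 at e3
  rw [w1, w1', Int.floor_intCast_add, Int.floor_intCast_add] at e3
  have e4 : S.w * 2 ^ (h * n) + (f : ℤ) = S'.w * 2 ^ (h * n) + (f' : ℤ) := by linarith
  have hb : (0 : ℤ) < 2 ^ (h * n) := by positivity
  have hfz : (f : ℤ) < 2 ^ (h * n) := by exact_mod_cast hf
  have hfz' : (f' : ℤ) < 2 ^ (h * n) := by exact_mod_cast hf'
  have hw : S.w = S'.w := by
    have g1 : (S.w * 2 ^ (h * n) + (f : ℤ)) / 2 ^ (h * n) = S.w := by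
      rw [add_comm, Int.add_mul_ediv_right _ _ hb.ne', Int.ediv_eq_zero_of_lt (by positivity) hfz, zero_add]
    have g2 : (S'.w * 2 ^ (h * n) + (f' : ℤ)) / 2 ^ (h * n) = S'.w := by
      rw [add_comm, Int.add_mul_ediv_right _ _ hb.ne', Int.ediv_eq_zero_of_lt (by positivity) hfz', zero_add]
    rw [← g1, ← g2, e4]
  refine ⟨nd_ext hτ ho hT hw, ?_⟩
  rw [hw] at e4
  have : (f : ℤ) = f' := by linarith
  exact_mod_cast this

theorem floor_mem_Icc {x c r : ℝ} (h : |x - c| ≤ r) : ⌊x⌋ ∈ Finset.Icc ⌊c - r⌋ ⌊c + r⌋ := by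
  rw [abs_le] at h
  rw [Finset.mem_Icc]
  exact ⟨Int.floor_le_floor (by linarith [h.1]), Int.floor_le_floor (by linarith [h.2])⟩

theorem card_Icc_floor (c : ℝ) (m : ℕ) : (Finset.Icc ⌊c - m⌋ ⌊c + m⌋).card = 2 * m + 1 := by
  rw [Int.card_Icc, Int.floor_sub_natCast, Int.floor_add_natCast]
  omega

/-- **cells** -/
theorem pLoc : PLoc := by
  refine ⟨325, fun a B H T hu2 hH => ?_⟩
  refine ⟨(Fintype.piFinset fun k => Finset.Icc ⌊B.p k / 2 ^ a - (2 : ℕ)⌋ ⌊B.p k / 2 ^ a + (2 : ℕ)⌋) ×ˢ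
    Finset.Icc ⌊(B.ω + ∑ k, B.p k * B.v k) / 2 ^ a - (6 : ℕ)⌋ ⌊(B.ω + ∑ k, B.p k * B.v k) / 2 ^ a + (6 : ℕ)⌋, ?_, ?_⟩
  · rw [Finset.card_product, Fintype.card_piFinset, card_Icc_floor]
    simp only [card_Icc_floor, Finset.prod_const, Finset.card_univ, Fintype.card_fin]
    norm_num
  · intro l hs hIn
    obtain ⟨i1, i2, i3, -, -⟩ := hIn
    have hA : (1 : ℝ) ≤ 2 ^ a := one_le_pow₀ (by norm_num)
    have hA0 : (0 : ℝ) < 2 ^ a := by positivity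
    have h2a : (0 : ℤ) < 2 ^ a := by positivity
    set t : ℝ := qa a (tb a T) with ht
    have htb0 : 0 ≤ tb a T := div_nonneg (by exact_mod_cast Int.emod_nonneg T h2a.ne') hA0.le
    have htb1 : tb a T ≤ 1 := by
      unfold tb
      rw [div_le_one hA0]
      have := (Int.emod_lt_of_pos T h2a).le
      exact_mod_cast this
    have ht0 : 0 ≤ t := by
      rw [ht]
      unfold qa fl1
      refine div_nonneg ?_ hA0.le
      have : (0 : ℤ) ≤ ⌊(2 : ℝ) ^ a * tb a T⌋ := Int.floor_nonneg.2 (by positivity)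
      exact_mod_cast this
    have ht1 : t ≤ 1 := by
      rw [ht]
      unfold qa fl1
      rw [div_le_one hA0]
      refine (Int.floor_le _).trans ?_
      nlinarith
    have hmax : max (B.u2 ^ 2) H ≤ 1 ∨ 1 < max (B.u2 ^ 2) H := le_or_gt _ _
    have hu0 : 0 ≤ B.u2 := (abs_nonneg _).trans (i1 0)
    have hm1 : max (B.u2 ^ 2) H ≤ 1 := max_le (by nlinarith) hH
    have y1 : ∀ k, |(2 : ℝ) ^ a * (l.y k + t * l.s k) - B.p k| ≤ 1 := fun k => (i1 k).trans hu2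
    have v1 : ∀ k, |l.s k - B.v k| ≤ 1 := fun k => (i2 k).trans hu2
    have w1 : |2 ^ a * (l.z - t * (∑ k, l.s k ^ 2) / 2) +
        ∑ k, 2 ^ a * (l.y k + t * l.s k) * (l.s k - B.v k) - B.ω| ≤ 1 := i3.trans hm1
    have ymem : ∀ k, |l.y k - B.p k / 2 ^ a| ≤ (2 : ℕ) := by
      intro k
      have e1 : l.y k - B.p k / 2 ^ a = ((2 : ℝ) ^ a * (l.y k + t * l.s k) - B.p k) / 2 ^ a - t * l.s k := by
        field_simp
        ring
      rw [e1]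
      have e2 : |((2 : ℝ) ^ a * (l.y k + t * l.s k) - B.p k) / 2 ^ a| ≤ 1 := by
        rw [abs_div, abs_of_pos hA0, div_le_one hA0]
        exact (y1 k).trans hA
      have e3 : |t * l.s k| ≤ 1 := by
        rw [abs_mul, abs_of_nonneg ht0]
        nlinarith [hs k, abs_nonneg (l.s k)]
      have := abs_sub ((((2 : ℝ) ^ a * (l.y k + t * l.s k) - B.p k) / 2 ^ a)) (t * l.s k)
      push_cast
      linarith
    have zmem : |(l.z + ∑ k, l.y k * l.s k) - (B.ω + ∑ k, B.p k * B.v k) / 2 ^ a| ≤ (6 : ℕ) := by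
      simp only [Fin.sum_univ_two] at w1 ⊢
      have hv : ∀ k, |B.v k| ≤ 2 := fun k => by
        have := abs_sub_abs_le_abs_sub (B.v k) (l.s k)
        rw [abs_sub_comm] at this
        linarith [v1 k, hs k]
      have g : ∀ k, |((2 : ℝ) ^ a * (l.y k + t * l.s k) - B.p k) * B.v k| ≤ 2 := fun k => by
        rw [abs_mul]
        nlinarith [y1 k, hv k, abs_nonneg ((2 : ℝ) ^ a * (l.y k + t * l.s k) - B.p k), abs_nonneg (B.v k)]
      have g0 := abs_le.1 (g 0)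
      have g1 := abs_le.1 (g 1)
      have w2 := abs_le.1 w1
      have q : |(2 : ℝ) ^ a * ((l.z + (l.y 0 * l.s 0 + l.y 1 * l.s 1)) + t * (l.s 0 ^ 2 + l.s 1 ^ 2) / 2) -
          (B.ω + (B.p 0 * B.v 0 + B.p 1 * B.v 1))| ≤ 5 := by
        have e0 : (2 : ℝ) ^ a * ((l.z + (l.y 0 * l.s 0 + l.y 1 * l.s 1)) + t * (l.s 0 ^ 2 + l.s 1 ^ 2) / 2) -
          (B.ω + (B.p 0 * B.v 0 + B.p 1 * B.v 1)) = (2 ^ a * (l.z - t * (l.s 0 ^ 2 + l.s 1 ^ 2) / 2) +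
            (2 ^ a * (l.y 0 + t * l.s 0) * (l.s 0 - B.v 0) + 2 ^ a * (l.y 1 + t * l.s 1) * (l.s 1 - B.v 1)) - B.ω) +
            ((2 : ℝ) ^ a * (l.y 0 + t * l.s 0) - B.p 0) * B.v 0 +
            ((2 : ℝ) ^ a * (l.y 1 + t * l.s 1) - B.p 1) * B.v 1 := by ring
        rw [e0, abs_le]
        exact ⟨by linarith [g0.1, g1.1, w2.1], by linarith [g0.2, g1.2, w2.2]⟩
      have e1 : (l.z + (l.y 0 * l.s 0 + l.y 1 * l.s 1)) - (B.ω + (B.p 0 * B.v 0 + B.p 1 * B.v 1)) / 2 ^ a =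
          ((2 : ℝ) ^ a * ((l.z + (l.y 0 * l.s 0 + l.y 1 * l.s 1)) + t * (l.s 0 ^ 2 + l.s 1 ^ 2) / 2) -
          (B.ω + (B.p 0 * B.v 0 + B.p 1 * B.v 1))) / 2 ^ a - t * (l.s 0 ^ 2 + l.s 1 ^ 2) / 2 := by
        field_simp
        ring
      rw [e1]
      have e2 : |((2 : ℝ) ^ a * ((l.z + (l.y 0 * l.s 0 + l.y 1 * l.s 1)) + t * (l.s 0 ^ 2 + l.s 1 ^ 2) / 2) -
          (B.ω + (B.p 0 * B.v 0 + B.p 1 * B.v 1))) / 2 ^ a| ≤ 5 := by
        rw [abs_div, abs_of_pos hA0, div_le_iff₀ hA0]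
        linarith
      have e3 : |t * (l.s 0 ^ 2 + l.s 1 ^ 2) / 2| ≤ 1 := by
        have s0 := abs_le.1 (hs 0)
        have s1 := abs_le.1 (hs 1)
        have q0 : l.s 0 ^ 2 ≤ 1 := by nlinarith [s0.1, s0.2]
        have q1 : l.s 1 ^ 2 ≤ 1 := by nlinarith [s1.1, s1.2]
        have q2 : 0 ≤ l.s 0 ^ 2 + l.s 1 ^ 2 := by positivity
        rw [abs_of_nonneg (by positivity)]
        nlinarith
      have e4 := abs_sub (((2 : ℝ) ^ a * ((l.z + (l.y 0 * l.s 0 + l.y 1 * l.s 1)) +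
          t * (l.s 0 ^ 2 + l.s 1 ^ 2) / 2) -
          (B.ω + (B.p 0 * B.v 0 + B.p 1 * B.v 1))) / 2 ^ a) (t * (l.s 0 ^ 2 + l.s 1 ^ 2) / 2)
      push_cast
      linarith
    rw [Finset.mem_product]
    refine ⟨?_, floor_mem_Icc zmem⟩
    rw [Fintype.mem_piFinset]
    intro k
    exact floor_mem_Icc (ymem k)

end Vale.Agent.P106.K
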