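import Vale.Agent.P106.K.Defs
import Vale.Agent.P106.R.E.Defs

/-!
# P106 / K : from `StK106 N` to `R.E.E4 N`, exact Props of the blocks (helper357)

* `PCst` constants of the classes of boxes; `PCnd` conditional form of `JK`; `PThk` thick planks; `PGeo`, `PBij`, `PLoc` nodes and
  rays.
* composition: `E4 N` (file `K/E4.lean`).
-/

set_option autoImplicit false

namespace Vale.Agent.P106.K

open Vale.Agent.P127 Vale.Agent.P127.Stk Vale.Agent.P127.U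
open Vale.Agent.P106.W (Cbx hh)
open Vale.Agent.P122.C2 (fn Z2)
open Vale.Agent.P106.R.C2 (Nd Sl)
open Vale.Agent.P106.R.E (Flg py pz)

/-- boxes of class `A` which contain whole planks of thickness `H`, up to the constant `A` -/
def Boh (A : ℝ) (B : Cbx) (r H : ℝ) : Prop := Bok A B r ∧ |B.α| * H ≤ A * B.u1 ∧ |B.κ| * H ≤ A * B.u1

/-- **constants** : a ray of a box of class `A` is in one of `m` boxes of the strict class, of volume `≤ C vol B` -/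
def PCst : Prop := ∀ A : ℝ, 1 ≤ A → ∃ (m : ℕ) (C : ℝ), 1 ≤ m ∧ 1 ≤ C ∧ ∀ r H : ℝ, 0 < r → r ≤ 1 → 0 < H →
  ∃ (idx : Cbx → Ry → Fin m) (ref : Cbx → Fin m → Cbx), ∀ (B : Cbx) (l : Ry), Boh A B r H → Bin A B H l →
    (ref B (idx B l)).ok (1 / 8) r H ∧ (ref B (idx B l)).In H l.y l.s l.z ∧ (ref B (idx B l)).vol r H ≤ C * B.vol r H

/-- **conditional form** of `JK`, with an almost optimal random box of the level `0` -/
def PCnd : Prop := ∀ c N β : ℝ, 1 ≤ c → 0 ≤ N → JK c N β → ∀ ε : ℝ, 0 < ε → ∃ K : ℝ,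
  ∀ (Ω : Type) [Fintype Ω] (γ : Type) (P : Law Ω) (l : Ω → Ry) (t : Ω → ℝ) (W : Ω → Cbx) (C : Ω → γ) (a n : ℕ), a ≤ n →
    (∀ ω, 0 < P.w ω → RyOk (l ω) ∧ 0 ≤ t ω ∧ t ω ≤ 1 ∧ (W ω).ok (1 / 8) (2 ^ a / 2 ^ n) (2 ^ a / 2 ^ (2 * n)) ∧
      (W ω).In (2 ^ a / 2 ^ (2 * n)) (bl a (l ω) (t ω)).y (bl a (l ω) (t ω)).s (bl a (l ω) (t ω)).z) →
    ∃ (Ω' : Type) (_ : Fintype Ω') (P' : Law Ω') (π : Ω' → Ω) (W₁ : Ω' → Cbx),
      (∀ ω, P'.pr π ω = P.w ω) ∧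
      (∀ ω, 0 < P'.w ω → Bok c (W₁ ω) ((1 / 2 : ℝ) ^ n) ∧ Bin c (W₁ ω) ((1 / 2 : ℝ) ^ (2 * n)) (l (π ω))) ∧
      Stk.hc P (fun ω => pl n (l ω)) (fun ω => ((W ω, fl1 a (t ω)), C ω)) -
          P.ex (fun ω => Real.log ((W ω).vol (2 ^ a / 2 ^ n) (2 ^ a / 2 ^ (2 * n)))) ≤
        (β + ε) * n * Real.log 2 + K +
        (Stk.hc P' (fun ω => pl n (l (π ω))) (fun ω => (W₁ ω, C (π ω))) -
          P'.ex fun ω => Real.log ((W₁ ω).vol ((1 / 2 : ℝ) ^ n) ((1 / 2 : ℝ) ^ (2 * n)))) +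
        N * (a * Real.log 2 - Stk.hc P (fun ω => fl1 a (t ω)) (fun ω => (pl n (l ω), C ω)))

/-- the ray with the adapted coordinate increased by `x` -/
def Ry.up (l : Ry) (x : ℝ) : Ry := ⟨l.y, l.s, l.z + x⟩

/-- **thick planks** : `X` the thick plank (thickness `2^q` thin planks), `l` its ray, `f < 2^q` the index of the thin plank.
A random box of class `c` for the thin planks gives a random box of the strict class for the thick planks -/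
def PThk : Prop := ∀ c : ℝ, 1 ≤ c → ∃ C : ℝ, ∀ (Ω : Type) [Fintype Ω] (α γ : Type) (P : Law Ω) (X : Ω → α) (Z : Ω → γ)
    (l : Ω → Ry) (f : Ω → ℕ) (n q : ℕ) (W : Ω → Cbx),
  (∀ ω, 0 < P.w ω → f ω < 2 ^ q ∧ Bok c (W ω) ((1 / 2 : ℝ) ^ n) ∧
    Bin c (W ω) ((1 / 2 : ℝ) ^ (2 * n)) ((l ω).up (f ω / 2 ^ (2 * n)))) →
  (∀ ω ω', 0 < P.w ω → 0 < P.w ω' → X ω = X ω' → l ω = l ω') →
  ∃ W₂ : Ω → Cbx,
    (∀ ω, 0 < P.w ω → (W₂ ω).ok (1 / 8) ((1 / 2 : ℝ) ^ n) (2 ^ q / 2 ^ (2 * n)) ∧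
      (W₂ ω).In (2 ^ q / 2 ^ (2 * n)) (l ω).y (l ω).s (l ω).z) ∧
    Stk.hc P (fun ω => (X ω, f ω)) (fun ω => (W ω, Z ω)) -
        P.ex (fun ω => Real.log ((W ω).vol ((1 / 2 : ℝ) ^ n) ((1 / 2 : ℝ) ^ (2 * n)))) ≤
      Stk.hc P X (fun ω => (W₂ ω, Z ω)) -
        P.ex (fun ω => Real.log ((W₂ ω).vol ((1 / 2 : ℝ) ^ n) (2 ^ q / 2 ^ (2 * n)))) + C

/-! ### nodes and rays -/

/-- the ray of the plank `S` of level `d`, absolute position divided by `2^(2 d n)`, time from the beginning of its block -/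
noncomputable def ray (s : Sl) (n d : ℕ) (S : Nd) : Ry := ⟨py n d S, s d S.τ, pz s n d S⟩

/-- translation of a ray -/
def Ry.tr (l : Ry) (b : Fin 2 → ℝ) (b₀ : ℝ) : Ry := ⟨fun k => l.y k - b k, l.s, l.z + ∑ k, b k * l.s k - b₀⟩

/-- translation of a box -/
def trB (B : Cbx) (b : Fin 2 → ℝ) (b₀ : ℝ) : Cbx :=
  { B with p := fun k => B.p k - b k, ω := B.ω + ∑ k, b k * B.v k - b₀ }

/-- the cell of the ball (radius `1`) of a ray, at the time `0` -/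
noncomputable def Ry.cell (l : Ry) : Z2 × ℤ := (fun k => ⌊l.y k⌋, ⌊l.z + ∑ k, l.y k * l.s k⌋)

/-- the ray in the coordinates of its cell -/
noncomputable def Ry.loc (l : Ry) : Ry := l.tr (fun k => (l.cell.1 k : ℝ)) l.cell.2

/-- the time of the block `T` of level `c` in the block of level `d` above it, `a = 2 (d - c) n` -/
noncomputable def tb (a : ℕ) (T : ℤ) : ℝ := ((T % 2 ^ a : ℤ) : ℝ) / 2 ^ a

/-- **geometry** : two flags with the same piece `sig c d` : the ray of the plank of level `d` of the first (and the rays at height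
at most the thickness above it), seen in the block `T c`, is close to the ray of the plank of level `c` of the second -/
def PGeo : Prop := ∀ {K : ℕ} (F : Flg K) (c d : ℕ), 1 ≤ K → 1 ≤ c → c ≤ d → d ≤ 2 * c → d ≤ K → 2 * (d - c) ≤ F.h →
  ∃ A : ℝ, 1 ≤ A ∧ ∀ i ω ω', 0 < (F.S.P i).w ω → 0 < (F.S.P i).w ω' → F.sig c d i ω = F.sig c d i ω' →
    F.T d i ω = F.T c i ω / 2 ^ (2 * (d - c) * F.n i) ∧
    ∀ x : ℝ, 0 ≤ x → x ≤ hh (F.n i) F.h d →
    let l := bl (2 * (d - c) * F.n i) ((ray (F.s i) (F.n i) d (F.N d i ω)).up x) (tb (2 * (d - c) * F.n i) (F.T c i ω))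
    let l' := ray (F.s i) (F.n i) c (F.N c i ω')
    (∀ k, |l.y k - l'.y k| ≤ A * (2 ^ (d * F.n i) / 2 ^ (2 * c * F.n i))) ∧
    (∀ k, |l.s k - l'.s k| ≤ A * (2 ^ (d * F.n i) / 2 ^ (2 * c * F.n i))) ∧
    |l.z + ∑ k, l.y k * (l.s k - l'.s k) - l'.z| ≤ A * hh (F.n i) F.h c

/-- **bijection** : the thin plank, its cell and the time block determine the node and the index of the thin plank -/
def PBij : Prop := ∀ (n h d : ℕ) (S S' : Nd) (f f' : ℕ), f < 2 ^ (h * n) → f' < 2 ^ (h * n) →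
  let l := (ray (R.C2.coneSl n h) n d S).up (f / 2 ^ (2 * (d * n)))
  let l' := (ray (R.C2.coneSl n h) n d S').up (f' / 2 ^ (2 * (d * n)))
  S.T = S'.T → l.cell = l'.cell → pl (d * n) l.loc = pl (d * n) l'.loc → S = S' ∧ f = f'

/-- **cells** : the cell of a ray of the strict box `B` (seen in a time block of length `2^-a`) takes at most `M` values -/
def PLoc : Prop := ∃ M : ℕ, ∀ (a : ℕ) (B : Cbx) (H : ℝ) (T : ℤ), B.u2 ≤ 1 → H ≤ 1 → ∃ U : Finset (Z2 × ℤ), U.card ≤ M ∧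
  ∀ l : Ry, (∀ k, |l.s k| ≤ 1) → B.In H (bl a l (tb a T)).y (bl a l (tb a T)).s (bl a l (tb a T)).z → l.cell ∈ U

end Vale.Agent.P106.K
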