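import Vale.Agent.P106.K.Blocks

/-!
# P106 / K : finite step of the composition `StK106 N → R.E.E4 N`, exact Prop (helper357)

* `PFin N` : one finite law; `S` = plank of level `d`, `T` = time block of level `c`, `sg` = piece `sig c d`, `W'` = box of level `c`
  of the piece with its ray `l'` (ray of the plank of level `c`), `m` = digits per level.
* `fin_of` (file `K/E4Fin.lean`, helper357) : `StK106 N → PFin N`;
* `e4_of_fin` (file `K/E4.lean`) : `PFin N → R.E.E4 N`.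
-/

set_option autoImplicit false

namespace Vale.Agent.P106.K

open Vale.Agent.P127 Vale.Agent.P127.Stk Vale.Agent.P127.U
open Vale.Agent.P106.W (Cbx hh)
open Vale.Agent.P122.C2 (fn Z2 Cap)
open Vale.Agent.P106.R.C2 (Nd Sl coneSl)

/-- **finite step** -/
def PFin (N : ℝ) : Prop := ∀ A ε : ℝ, 1 ≤ A → 0 < ε → ∃ Kc : ℝ,
  ∀ (Ω : Type) [Fintype Ω] (P : Law Ω) (m h c d : ℕ) (S : Ω → Nd) (T : Ω → ℤ) (sg : Ω → Nd) (W' : Ω → Cbx) (l' : Ω → Ry),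
    c ≤ d → d ≤ 2 * c → 2 * (d - c) ≤ h →
    (∀ ω, 0 < P.w ω → Cap m d (S ω).τ) →
    (∀ ω, 0 < P.w ω → (S ω).T = T ω / 2 ^ (2 * (d - c) * m)) →
    (∀ ω ω', 0 < P.w ω → 0 < P.w ω' → sg ω = sg ω' → T ω = T ω') →
    (∀ ω ω', 0 < P.w ω → 0 < P.w ω' → sg ω = sg ω' → ∀ x : ℝ, 0 ≤ x → x ≤ hh m h d →
      let l := bl (2 * (d - c) * m) ((ray (coneSl m h) m d (S ω)).up x) (tb (2 * (d - c) * m) (T ω))
      (∀ k, |l.y k - (l' ω').y k| ≤ A * (2 ^ (d * m) / 2 ^ (2 * c * m))) ∧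
      (∀ k, |l.s k - (l' ω').s k| ≤ A * (2 ^ (d * m) / 2 ^ (2 * c * m))) ∧
      |l.z + ∑ k, l.y k * (l.s k - (l' ω').s k) - (l' ω').z| ≤ A * hh m h c) →
    (∀ ω, 0 < P.w ω → (W' ω).ok (1 / 8) (2 ^ (d * m) / 2 ^ (2 * c * m)) (hh m h c) ∧
      (W' ω).In (hh m h c) (l' ω).y (l' ω).s (l' ω).z) →
    ∃ (Ω' : Type) (_ : Fintype Ω') (P' : Law Ω') (π : Ω' → Ω) (W₂ : Ω' → Cbx),
      (∀ ω, P'.pr π ω = P.w ω) ∧
      (∀ ω, 0 < P'.w ω → (W₂ ω).ok (1 / 8) (2 ^ (d * m) / 2 ^ (2 * d * m)) (hh m h d) ∧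
        (W₂ ω).In (hh m h d) (ray (coneSl m h) m d (S (π ω))).y (ray (coneSl m h) m d (S (π ω))).s
          (ray (coneSl m h) m d (S (π ω))).z) ∧
      Stk.hc P S sg + Stk.hc P sg (fun ω => (W' ω, T ω)) - Stk.hc P sg (fun ω => (T ω, S ω)) +
          ((2 * (d - c) * m : ℕ) : ℝ) * Real.log 2 -
          P.ex (fun ω => Real.log ((W' ω).vol ((1 / 2 : ℝ) ^ (c * m)) (hh m h c))) ≤
        ε * ((d * m : ℕ) : ℝ) * Real.log 2 + Kc +
        (Stk.hc P' (fun ω => S (π ω)) (fun ω => (W₂ ω, (S (π ω)).T)) -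
          P'.ex (fun ω => Real.log ((W₂ ω).vol ((1 / 2 : ℝ) ^ (d * m)) (hh m h d)))) +
        N * (((2 * (d - c) * m : ℕ) : ℝ) * Real.log 2 - Stk.hc P T S)

end Vale.Agent.P106.K
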