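import Vale.Agent.P106.K.Defs
import Vale.Agent.P127.U.JS

/-!
# P106 / K : conditional form of `JK` (helper931)

* `exF_bdd`, `exF_mem` : the set of the values of the boxes is bounded above and nonempty.
* `exF_cond_sum` : the excess given `C` is at least the average of the excesses given the values of `C`.
* `jk_cond` : the inequality of `JK c N β` with side information `C`.
-/

set_option autoImplicit false

namespace Vale.Agent.P106.K

open Vale.Agent.P127 Vale.Agent.P127.Stk Vale.Agent.P127.U Vale.Agent.P106.W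
open Vale.Agent.P127.U.JSB (hc_cond_sum cond_avg cond_supp cond_supp' sumL sumL_ex sumL_pr sumL_hc)

/-- lower bound of the volume of a box -/
theorem vol_ge {c : ℝ} (hc : 1 ≤ c) {B : Cbx} {r H : ℝ} (hr : 0 < r) (h : Bok c B r) :
    1 / c ^ 3 ≤ B.vol r H := by
  obtain ⟨h1, h2, h3, -, -, -⟩ := h
  have hc0 : 0 < c := by linarith
  have a1 : r / c ≤ B.u1 := by rw [div_le_iff₀ hc0]; linarith
  have a2 : r / c ^ 2 ≤ B.u2 := by
    rw [div_le_iff₀ (by positivity)]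
    calc r ≤ c * B.u1 := h2
      _ ≤ c * (c * B.u2) := mul_le_mul_of_nonneg_left h3 hc0.le
      _ = B.u2 * c ^ 2 := by ring
  have a3 : 1 / c ^ 3 ≤ B.u1 * B.u2 / r ^ 2 := by
    have a4 : r / c * (r / c ^ 2) ≤ B.u1 * B.u2 :=
      mul_le_mul a1 a2 (by positivity) h1.le
    rw [le_div_iff₀ (by positivity)]
    refine le_trans (le_of_eq ?_) a4
    field_simp
  unfold Cbx.vol
  have a5 : (0:ℝ) ≤ B.u1 * B.u2 / r ^ 2 := le_trans (by positivity) a3
  calc 1 / c ^ 3 ≤ B.u1 * B.u2 / r ^ 2 * 1 := by rw [mul_one]; exact a3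
    _ ≤ _ := mul_le_mul_of_nonneg_left (le_max_left _ _) a5

section fin

variable {Ω : Type} [Fintype Ω] {α γ : Type*}

theorem exF_bdd {c : ℝ} (hc : 1 ≤ c) {r H : ℝ} (hr : 0 < r) (P : Law Ω) (A : Ω → α) (l : Ω → Ry)
    (C : Ω → γ) {v : ℝ} (hv : v ∈ exSet c P A l r H C) : v ≤ P.H A + 3 * Real.log c := by
  obtain ⟨Ω', _, P', π, W, h1, h2, rfl⟩ := hv
  have h3 : Stk.hc P' (fun ω => A (π ω)) (fun ω => (W ω, C (π ω))) ≤ P'.H fun ω => A (π ω) :=
    hc_le_H _ _ _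
  have h4 : P'.H (fun ω => A (π ω)) = P.H A := H_law_aux P' P π h1 A
  have h5 : P'.ex (fun _ => -(3 * Real.log c)) ≤ P'.ex fun ω => Real.log ((W ω).vol r H) := by
    refine P'.ex_mono fun ω hω => ?_
    have h6 := vol_ge (H := H) hc hr (h2 ω hω).1
    have hc0 : 0 < c := by linarith
    have h7 := Real.log_le_log (by positivity) h6
    rw [Real.log_div one_ne_zero (by positivity), Real.log_one, Real.log_pow] at h7
    push_cast at h7
    linarith
  rw [P'.ex_const] at h5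
  linarith

/-- the smallest box around a ray -/
noncomputable def own (r : ℝ) (l : Ry) : Cbx := ⟨0, r, r, 0, 0, l.y, l.s, l.z⟩

theorem own_ok {c : ℝ} (hc : 1 ≤ c) {r : ℝ} (hr : 0 < r) (hr1 : r ≤ 1) (l : Ry) : Bok c (own r l) r := by
  refine ⟨hr, ?_, ?_, ?_, ?_, ?_⟩
  · show r ≤ c * r
    nlinarith
  · show r ≤ c * r
    nlinarith
  · show r ≤ c
    linarith
  · show |(0:ℝ)| * r ≤ c
    rw [abs_zero, zero_mul]
    linarith
  · show |(0:ℝ)| * r ≤ c
    rw [abs_zero, zero_mul]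
    linarith

theorem own_in {c : ℝ} (hc : 1 ≤ c) {r H : ℝ} (hr : 0 < r) (l : Ry) : Bin c (own r l) H l := by
  have hc0 : 0 < c := by linarith
  have e1 : l.z + ∑ k, l.y k * (l.s k - (own r l).v k) - (own r l).ω = 0 := by
    simp [own]
  refine ⟨fun k => ?_, fun k => ?_, ?_, ?_, ?_⟩
  · show |l.y k - l.y k| ≤ c * r
    rw [sub_self, abs_zero]
    positivity
  · show |l.s k - l.s k| ≤ c * r
    rw [sub_self, abs_zero]
    positivity
  · rw [e1, abs_zero]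
    have : (0:ℝ) ≤ max ((own r l).u2 ^ 2) H := le_trans (sq_nonneg _) (le_max_left _ _)
    positivity
  · rw [e1]
    have e2 : l.y - (own r l).p = 0 := by simp [own]
    have e3 : (own r l).α = 0 := rfl
    rw [e2, e3]
    have e4 : Vale.Agent.P122.C2.fn (own r l).θ (0 : Fin 2 → ℝ) = 0 := by
      simp [Vale.Agent.P122.C2.fn]
    rw [e4]
    simp only [mul_zero, zero_mul, add_zero, sub_zero, abs_zero]
    show 0 ≤ c * r
    positivity
  · have e2 : l.s - (own r l).v = 0 := by simp [own]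
    have e3 : (own r l).α = 0 := rfl
    have e5 : (own r l).κ = 0 := rfl
    rw [e2, e3, e5]
    have e4 : Vale.Agent.P122.C2.fn (own r l).θ (0 : Fin 2 → ℝ) = 0 := by
      simp [Vale.Agent.P122.C2.fn]
    rw [e4]
    simp only [mul_zero, zero_mul, add_zero, zero_div, abs_zero]
    show 0 ≤ c * r
    positivity

theorem exF_mem {c : ℝ} (hc : 1 ≤ c) {r H : ℝ} (hr : 0 < r) (hr1 : r ≤ 1) (P : Law Ω) (A : Ω → α)
    (l : Ω → Ry) (C : Ω → γ) : ∃ v, v ∈ exSet c P A l r H C :=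
  ⟨_, Ω, inferInstance, P, id, fun ω => own r (l ω), pr_id P,
    fun ω _ => ⟨own_ok hc hr hr1 (l ω), own_in hc hr (l ω)⟩, rfl⟩

/-- every random box gives a lower bound of the excess -/
theorem exF_le {c : ℝ} (hc : 1 ≤ c) {r H : ℝ} (hr : 0 < r) (P : Law Ω) (A : Ω → α) (l : Ω → Ry)
    (C : Ω → γ) {Ω' : Type} [Fintype Ω'] {P' : Law Ω'} {π : Ω' → Ω} {W : Ω' → Cbx}
    (h1 : ∀ ω, P'.pr π ω = P.w ω) (h2 : ∀ ω, 0 < P'.w ω → Bok c (W ω) r ∧ Bin c (W ω) H (l (π ω))) :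
    Stk.hc P' (fun ω => A (π ω)) (fun ω => (W ω, C (π ω))) - (P'.ex fun ω => Real.log ((W ω).vol r H)) ≤
      excF c P A l r H C :=
  le_csSup ⟨_, fun _ hv => exF_bdd hc hr P A l C hv⟩ ⟨Ω', inferInstance, P', π, W, h1, h2, rfl⟩

theorem exF_near {c : ℝ} (hc : 1 ≤ c) {r H : ℝ} (hr : 0 < r) (hr1 : r ≤ 1) (P : Law Ω) (A : Ω → α)
    (l : Ω → Ry) (C : Ω → γ) :
    ∃ (Ω' : Type) (_ : Fintype Ω') (P' : Law Ω') (π : Ω' → Ω) (W : Ω' → Cbx),
      (∀ ω, P'.pr π ω = P.w ω) ∧ (∀ ω, 0 < P'.w ω → Bok c (W ω) r ∧ Bin c (W ω) H (l (π ω))) ∧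
      excF c P A l r H C - 1 ≤ Stk.hc P' (fun ω => A (π ω)) (fun ω => (W ω, C (π ω))) -
        P'.ex fun ω => Real.log ((W ω).vol r H) := by
  obtain ⟨v, ⟨Ω', i, P', π, W, h1, h2, rfl⟩, h3⟩ := exists_lt_of_lt_csSup
    (s := exSet c P A l r H C) (exF_mem hc hr hr1 P A l C) (sub_one_lt (sSup (exSet c P A l r H C)))
  exact ⟨Ω', i, P', π, W, h1, h2, h3.le⟩

/-- the excess given `C` is at least the average of the excesses given the values of `C` -/
theorem exF_cond_sum {γ : Type} {c : ℝ} (hc : 1 ≤ c) {r H : ℝ} (hr : 0 < r) (hr1 : r ≤ 1)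
    (P : Law Ω) (A : Ω → α) (l : Ω → Ry) (C : Ω → γ) :
    ∑ z ∈ img C, P.pr C z * excF c (P.cond C z) A l r H (fun _ => ()) ≤ excF c P A l r H C + 1 := by
  classical
  have hnear := fun z : {z // z ∈ img C} => exF_near (H := H) hc hr hr1 (P.cond C z.1) A l (fun _ => ())
  choose Ω' iF Q π W g1 g2 g3 using hnear
  have a0 : ∀ z : {z // z ∈ img C}, 0 ≤ P.pr C z.1 := fun z => P.pr_nonneg _ _
  have a1 : ∑ z : {z // z ∈ img C}, P.pr C z.1 = 1 := by
    rw [Finset.sum_coe_sort (img C) (fun z => P.pr C z)]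
    exact P.sum_pr_image C
  set M : Law (Σ z, Ω' z) := sumL (fun z : {z // z ∈ img C} => P.pr C z.1) a0 a1 Q with hM
  have hMw : ∀ p : (Σ z, Ω' z), M.w p = P.pr C p.1.1 * (Q p.1).w p.2 := fun p => rfl
  set ρ : (Σ z, Ω' z) → Ω := fun p => π p.1 p.2 with hρ
  set W' : (Σ z, Ω' z) → Cbx := fun p => W p.1 p.2 with hW'
  have hpos : ∀ p : (Σ z, Ω' z), 0 < M.w p → 0 < P.pr C p.1.1 ∧ 0 < (Q p.1).w p.2 := by
    intro p hp
    rw [hMw] at hp
    have b1 := P.pr_nonneg C p.1.1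
    have b2 := (Q p.1).nn p.2
    constructor
    · rcases b1.eq_or_lt with h2 | h2
      · rw [← h2, zero_mul] at hp
        exact absurd hp (lt_irrefl 0)
      · exact h2
    · rcases b2.eq_or_lt with h2 | h2
      · rw [← h2, mul_zero] at hp
        exact absurd hp (lt_irrefl 0)
      · exact h2
  have hC : ∀ p : (Σ z, Ω' z), 0 < M.w p → C (ρ p) = p.1.1 := by
    intro p hp
    obtain ⟨b1, b2⟩ := hpos p hp
    refine cond_supp' P C p.1.1 b1 ?_
    rw [← g1 p.1 (ρ p)]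
    exact (Q p.1).pr_pos (π p.1) b2
  have hpr : ∀ ω, M.pr ρ ω = P.w ω := by
    intro ω
    rw [hM, sumL_pr]
    have e : ∀ z : {z // z ∈ img C}, (Q z).pr (fun ω' => ρ ⟨z, ω'⟩) ω = (P.cond C z.1).w ω :=
      fun z => g1 z ω
    simp only [e]
    rw [Finset.sum_coe_sort (img C) (fun z => P.pr C z * (P.cond C z).w ω)]
    exact cond_avg P C ω
  have hsub : ∀ p, 0 < M.w p → Bok c (W' p) r ∧ Bin c (W' p) H (l (ρ p)) :=
    fun p hp => g2 p.1 p.2 (hpos p hp).2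
  have hle := exF_le hc hr P A l C hpr hsub
  have e1 : Stk.hc M (fun p => A (ρ p)) (fun p => ((W' p, ()), p.1)) ≤
      Stk.hc M (fun p => A (ρ p)) (fun p => (W' p, C (ρ p))) := by
    refine hc_mono_right M _ ?_
    intro p p' hp hp' e
    simp only [Prod.mk.injEq] at e
    show (W' p, C (ρ p)) = (W' p', C (ρ p'))
    rw [hC p hp, hC p' hp', e.1.1, e.2]
  have e2 := sumL_hc (a := fun z : {z // z ∈ img C} => P.pr C z.1) (h0 := a0) (h1 := a1)
    (Q := Q) (fun p => A (ρ p)) (fun p => (W' p, ()))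
  have e3 := sumL_ex (a := fun z : {z // z ∈ img C} => P.pr C z.1) (h0 := a0) (h1 := a1)
    (Q := Q) (fun p => Real.log ((W' p).vol r H))
  rw [← hM] at e2 e3
  rw [e2] at e1
  have hav : ∑ z ∈ img C, P.pr C z * excF c (P.cond C z) A l r H (fun _ => ()) - 1 ≤
      ∑ z : {z // z ∈ img C}, P.pr C z.1 *
        (Stk.hc (Q z) (fun ω => A (π z ω)) (fun ω => (W z ω, ())) -
          (Q z).ex fun ω => Real.log ((W z ω).vol r H)) := by
    have e : ∑ z ∈ img C, P.pr C z * excF c (P.cond C z) A l r H (fun _ => ()) - 1 =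
        ∑ z : {z // z ∈ img C}, P.pr C z.1 * (excF c (P.cond C z.1) A l r H (fun _ => ()) - 1) := by
      simp only [mul_sub, mul_one, Finset.sum_sub_distrib]
      rw [a1, Finset.sum_coe_sort (img C)
        (fun z => P.pr C z * excF c (P.cond C z) A l r H (fun _ => ()))]
    rw [e]
    exact Finset.sum_le_sum fun z _ => mul_le_mul_of_nonneg_left (g3 z) (a0 z)
  have e4 : ∑ z : {z // z ∈ img C}, P.pr C z.1 *
        (Stk.hc (Q z) (fun ω => A (π z ω)) (fun ω => (W z ω, ())) -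
          (Q z).ex fun ω => Real.log ((W z ω).vol r H)) =
      ∑ z : {z // z ∈ img C}, P.pr C z.1 *
        Stk.hc (Q z) (fun ω => (fun p => A (ρ p)) (⟨z, ω⟩ : Σ z, Ω' z))
          (fun ω => (fun p => (W' p, ())) (⟨z, ω⟩ : Σ z, Ω' z)) -
      ∑ z : {z // z ∈ img C}, P.pr C z.1 *
        (Q z).ex (fun ω => (fun p => Real.log ((W' p).vol r H)) (⟨z, ω⟩ : Σ z, Ω' z)) := by
    rw [← Finset.sum_sub_distrib]
    refine Finset.sum_congr rfl fun z _ => ?_
    rw [mul_sub]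
  rw [e4] at hav
  linarith

end fin

/-- **conditional form of `JK`** -/
theorem jk_cond {c N β : ℝ} (hc : 1 ≤ c) (hJ : JK c N β) {ε : ℝ} (hε : 0 < ε) :
    ∃ K : ℝ, ∀ (Ω : Type) [Fintype Ω] (γ : Type) (P : Law Ω) (l : Ω → Ry) (t : Ω → ℝ) (W : Ω → Cbx)
      (C : Ω → γ) (a n : ℕ), a ≤ n →
      (∀ ω, 0 < P.w ω → RyOk (l ω) ∧ 0 ≤ t ω ∧ t ω ≤ 1 ∧ (W ω).ok (1 / 8) (2 ^ a / 2 ^ n) (2 ^ a / 2 ^ (2 * n)) ∧
        (W ω).In (2 ^ a / 2 ^ (2 * n)) (bl a (l ω) (t ω)).y (bl a (l ω) (t ω)).s (bl a (l ω) (t ω)).z) →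
      Stk.hc P (fun ω => pl n (l ω)) (fun ω => ((W ω, fl1 a (t ω)), C ω)) -
          P.ex (fun ω => Real.log ((W ω).vol (2 ^ a / 2 ^ n) (2 ^ a / 2 ^ (2 * n)))) ≤
        (β + ε) * n * Real.log 2 + K +
        excF c P (fun ω => pl n (l ω)) l ((1 / 2 : ℝ) ^ n) ((1 / 2 : ℝ) ^ (2 * n)) C +
        N * (a * Real.log 2 - Stk.hc P (fun ω => fl1 a (t ω)) (fun ω => (pl n (l ω), C ω))) := by
  obtain ⟨K, hK⟩ := hJ ε hε
  refine ⟨K + 1, ?_⟩
  intro Ω _ γ P l t W C a n han h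
  have hr : (0:ℝ) < (1 / 2) ^ n := by positivity
  have hr1 : ((1:ℝ) / 2) ^ n ≤ 1 := pow_le_one₀ (by norm_num) (by norm_num)
  have h1 : ∀ z ∈ img C, P.pr C z * Stk.hc (P.cond C z) (fun ω => pl n (l ω))
      (fun ω => (W ω, fl1 a (t ω))) ≤
      P.pr C z * ((β + ε) * n * Real.log 2 + K + N * (a * Real.log 2)) +
      P.pr C z * (P.cond C z).ex (fun ω => Real.log ((W ω).vol (2 ^ a / 2 ^ n) (2 ^ a / 2 ^ (2 * n)))) +
      P.pr C z * excF c (P.cond C z) (fun ω => pl n (l ω)) l ((1 / 2 : ℝ) ^ n) ((1 / 2 : ℝ) ^ (2 * n))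
        (fun _ => ()) -
      N * (P.pr C z * Stk.hc (P.cond C z) (fun ω => fl1 a (t ω)) (fun ω => pl n (l ω))) := by
    intro z _
    have h2 := hK Ω (P.cond C z) l t W a n han (fun ω hω => h ω (cond_supp P C z hω))
    have h3 := mul_le_mul_of_nonneg_left h2 (P.pr_nonneg C z)
    linarith
  have h2 := Finset.sum_le_sum h1
  have hex : ∑ z ∈ img C, P.pr C z * (P.cond C z).ex
      (fun ω => Real.log ((W ω).vol (2 ^ a / 2 ^ n) (2 ^ a / 2 ^ (2 * n)))) =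
      P.ex (fun ω => Real.log ((W ω).vol (2 ^ a / 2 ^ n) (2 ^ a / 2 ^ (2 * n)))) := by
    unfold Law.ex
    simp only [Finset.mul_sum]
    rw [Finset.sum_comm]
    refine Finset.sum_congr rfl fun ω _ => ?_
    rw [← cond_avg P C ω, Finset.sum_mul]
    refine Finset.sum_congr rfl fun z _ => ?_
    ring
  rw [Finset.sum_sub_distrib, Finset.sum_add_distrib, Finset.sum_add_distrib, ← Finset.sum_mul,
    ← Finset.mul_sum, P.sum_pr_image C, ← hc_cond_sum P (fun ω => pl n (l ω)) _ C,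
    ← hc_cond_sum P (fun ω => fl1 a (t ω)) _ C, hex] at h2
  have h3 := exF_cond_sum (H := (1 / 2 : ℝ) ^ (2 * n)) hc hr hr1 P (fun ω => pl n (l ω)) l C
  linarith

end Vale.Agent.P106.K
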