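import Vale.Agent.P106.K.Blocks
import Vale.Agent.P106.K.Cond

/-!
# P106 / K : `PCnd` (helper931)
-/

set_option autoImplicit false

namespace Vale.Agent.P106.K

open Vale.Agent.P127 Vale.Agent.P127.Stk Vale.Agent.P127.U

/-- **PCnd** : conditional form of `JK` with an almost optimal random box of the level `0` -/
theorem pCnd : PCnd := by
  intro c N β hc _ hJ ε hε
  obtain ⟨K, hK⟩ := jk_cond hc hJ hε
  refine ⟨K + 1, ?_⟩
  intro Ω _ γ P l t W C a n han h
  have h1 := hK Ω γ P l t W C a n han h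
  have hr : (0:ℝ) < (1 / 2) ^ n := by positivity
  have hr1 : ((1:ℝ) / 2) ^ n ≤ 1 := pow_le_one₀ (by norm_num) (by norm_num)
  obtain ⟨Ω', iF, P', π, W₁, g1, g2, g3⟩ := exF_near (H := (1 / 2 : ℝ) ^ (2 * n)) hc hr hr1 P
    (fun ω => pl n (l ω)) l C
  refine ⟨Ω', iF, P', π, W₁, g1, g2, ?_⟩
  linarith

end Vale.Agent.P106.K
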