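import Vale.Agent.P106.K.Blocks
import Vale.Agent.P106.W.Rec

/-!
# P106 / K : constants of the classes of conformal boxes (helper357)

`pCst : PCst` : a ray of a box of class `A` is in one of `m(A)` boxes of the strict class, of volume at most `C(A)` times the
volume of the box.
-/

set_option autoImplicit false

namespace Vale.Agent.P106.K

open Vale.Agent.P127 Vale.Agent.P127.Stk Vale.Agent.P127.U
open Vale.Agent.P106.W (Cbx hh)
open Vale.Agent.P122.C2 (fn Z2)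

/-- code of an integer of `[-N, N]` -/
def cod (N : ℕ) (x : ℤ) : Fin (2 * N + 1) := ⟨(x + N).toNat % (2 * N + 1), Nat.mod_lt _ (by omega)⟩

theorem cod_inj {N : ℕ} {x y : ℤ} (hx : |x| ≤ N) (hy : |y| ≤ N) (h : cod N x = cod N y) : x = y := by
  rw [abs_le] at hx hy
  have h1 : (x + N).toNat % (2 * N + 1) = (y + N).toNat % (2 * N + 1) := by
    have := congrArg Fin.val h
    exact this
  rw [Nat.mod_eq_of_lt (by omega), Nat.mod_eq_of_lt (by omega)] at h1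
  omega

/-- floor of a quotient -/
theorem fl_abs {x u A M : ℝ} {N : ℕ} (hu : 0 < u) (hM : 0 ≤ M) (hx : |x| ≤ A * u) (hN : A * M + 1 ≤ N) :
    |⌊M * x / u⌋| ≤ (N : ℤ) := by
  have h1 : |M * x / u| ≤ A * M := by
    rw [abs_div, abs_mul, abs_of_nonneg hM, abs_of_pos hu, div_le_iff₀ hu]
    nlinarith
  rw [abs_le] at h1 ⊢
  have h2 := Int.floor_le (M * x / u)
  have h3 := Int.lt_floor_add_one (M * x / u)
  constructor
  · have : (-(N:ℝ)) ≤ ⌊M * x / u⌋ := by linarith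
    exact_mod_cast this
  · have : ((⌊M * x / u⌋ : ℤ) : ℝ) ≤ N := by linarith
    exact_mod_cast this

theorem fl_near {x y u M : ℝ} (hu : 0 < u) (hM : 0 < M) (h : ⌊M * x / u⌋ = ⌊M * y / u⌋) : |x - y| ≤ u / M := by
  have h1 := Int.floor_le (M * x / u)
  have h2 := Int.lt_floor_add_one (M * x / u)
  have h3 := Int.floor_le (M * y / u)
  have h4 := Int.lt_floor_add_one (M * y / u)
  rw [h] at h1 h2
  have h5 : |M * x / u - M * y / u| ≤ 1 := by
    rw [abs_le]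
    constructor <;> linarith
  have h6 : M * x / u - M * y / u = (x - y) * (M / u) := by ring
  rw [h6, abs_mul, abs_of_pos (div_pos hM hu)] at h5
  rw [le_div_iff₀ hM]
  have h7 : |x - y| * (M / u) * u ≤ 1 * u := mul_le_mul_of_nonneg_right h5 hu.le
  have h8 : |x - y| * (M / u) * u = |x - y| * M := by field_simp
  linarith

/-- the five numbers of the cell of a ray in the box -/
noncomputable def cl5 (M : ℝ) (H : ℝ) (B : Cbx) (l : Ry) : Fin 5 → ℤ :=
  ![⌊M * (l.y 0 - B.p 0) / B.u2⌋, ⌊M * (l.y 1 - B.p 1) / B.u2⌋, ⌊M * (l.s 0 - B.v 0) / B.u2⌋,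
    ⌊M * (l.s 1 - B.v 1) / B.u2⌋, ⌊M * B.zz l.y l.s l.z / max (B.u2 ^ 2) H⌋]

theorem fn_abs (θ : ℝ) (v : Fin 2 → ℝ) : |fn θ v| ≤ |v 0| + |v 1| := by
  unfold fn
  refine (abs_add_le _ _).trans (add_le_add ?_ ?_)
  · rw [abs_mul, abs_neg]
    exact mul_le_of_le_one_left (abs_nonneg _) (Real.abs_sin_le_one θ)
  · rw [abs_mul]
    exact mul_le_of_le_one_left (abs_nonneg _) (Real.abs_cos_le_one θ)

section ref

variable {A M r H : ℝ} {B : Cbx} {l' : Ry}

/-- closeness of the rays of the same cell -/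
theorem cell_close (hA : 1 ≤ A) (hM : 300 * A ^ 3 ≤ M) (hH : 0 < H) (hu2p : 0 < B.u2) (hl' : Bin A B H l') {l : Ry}
    (hc : cl5 (3 * M) H B l = cl5 (3 * M) H B l') :
    (∀ k, |l.y k - l'.y k| ≤ B.u2 / (3 * M)) ∧ (∀ k, |l.s k - l'.s k| ≤ B.u2 / (3 * M)) ∧
      |l.z + ∑ k, l.y k * (l.s k - l'.s k) - l'.z| ≤ max (B.u2 ^ 2) H * A / M := by
  have hA0 : 0 < A := by linarith
  have hA3 : (1:ℝ) ≤ A ^ 3 := one_le_pow₀ hA
  have hM0 : 0 < M := by linarith
  have hM3 : 0 < 3 * M := by linarith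
  set mx := max (B.u2 ^ 2) H with hmx
  have hmx0 : 0 < mx := lt_of_lt_of_le hH (le_max_right _ _)
  have hmu : B.u2 ^ 2 ≤ mx := le_max_left _ _
  have c0 := congrFun hc 0
  have c1 := congrFun hc 1
  have c2 := congrFun hc 2
  have c3 := congrFun hc 3
  have c4 := congrFun hc 4
  simp only [cl5] at c0 c1 c2 c3 c4
  have d0 := fl_near hu2p hM3 c0
  have d1 := fl_near hu2p hM3 c1
  have d2 := fl_near hu2p hM3 c2
  have d3 := fl_near hu2p hM3 c3
  have d4 := fl_near hmx0 hM3 c4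
  have hy : ∀ k, |l.y k - l'.y k| ≤ B.u2 / (3 * M) := by
    intro k
    fin_cases k
    · have e : l.y 0 - B.p 0 - (l'.y 0 - B.p 0) = l.y 0 - l'.y 0 := by ring
      rw [e] at d0
      exact d0
    · have e : l.y 1 - B.p 1 - (l'.y 1 - B.p 1) = l.y 1 - l'.y 1 := by ring
      rw [e] at d1
      exact d1
  have hs : ∀ k, |l.s k - l'.s k| ≤ B.u2 / (3 * M) := by
    intro k
    fin_cases k
    · have e : l.s 0 - B.v 0 - (l'.s 0 - B.v 0) = l.s 0 - l'.s 0 := by ring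
      rw [e] at d2
      exact d2
    · have e : l.s 1 - B.v 1 - (l'.s 1 - B.v 1) = l.s 1 - l'.s 1 := by ring
      rw [e] at d3
      exact d3
  refine ⟨hy, hs, ?_⟩
  rw [B.zz_rec l'.y l'.s l.y l.s l'.z l.z, Fin.sum_univ_two]
  have hv : ∀ k, |(l.y k - l'.y k) * (l'.s k - B.v k)| ≤ mx * A / (3 * M) := by
    intro k
    rw [abs_mul]
    calc |l.y k - l'.y k| * |l'.s k - B.v k| ≤ (B.u2 / (3 * M)) * (A * B.u2) :=
          mul_le_mul (hy k) (hl'.2.1 k) (abs_nonneg _) (by positivity)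
      _ = B.u2 ^ 2 * A / (3 * M) := by ring
      _ ≤ mx * A / (3 * M) := by gcongr
  have hz : |B.zz l.y l.s l.z - B.zz l'.y l'.s l'.z| ≤ mx * A / (3 * M) := by
    refine d4.trans ?_
    rw [div_le_div_iff_of_pos_right hM3]
    exact le_mul_of_one_le_right hmx0.le hA
  have a0 := hv 0
  have a1 := hv 1
  have e : mx * A / M = mx * A / (3 * M) + mx * A / (3 * M) + mx * A / (3 * M) := by field_simp; ring
  rw [e]
  rw [abs_le] at a0 a1 hz ⊢
  constructor <;> linarith [a0.1, a0.2, a1.1, a1.2, hz.1, hz.2]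

/-- length of the recentred normal -/
theorem nn_len' (hA : 1 ≤ A) (hB : Bok A B r) (hl' : Bin A B H l') (hthin : 64 * A ^ 3 * B.u1 ≤ B.u2) :
    ∃ L θ' : ℝ, 1 / 2 ≤ L ∧ B.nn l'.y l'.s 0 = -(L * Real.sin θ') ∧ B.nn l'.y l'.s 1 = L * Real.cos θ' := by
  obtain ⟨hu1, hru, hu12, hu2, hα, hκ⟩ := hB
  have hA0 : 0 < A := by linarith
  have hu2p : 0 < B.u2 := by nlinarith
  have hAA : A * A ≤ A ^ 3 := by
    have : A ^ 3 = A * A * A := by ring
    rw [this]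
    exact le_mul_of_one_le_right (by positivity) hA
  have h3 : A * A * B.u1 ≤ 1 / 64 * B.u2 := by
    have := mul_le_mul_of_nonneg_right hAA hu1.le
    linarith
  have key : ∀ x g : ℝ, |x| * B.u2 ≤ A → |g| ≤ A * B.u1 → |x * g| ≤ 1 / 64 := by
    intro x g hx hg
    rw [abs_mul]
    have h2 : |x| * |g| * B.u2 ≤ A * A * B.u1 := by
      calc |x| * |g| * B.u2 ≤ |x| * (A * B.u1) * B.u2 := by gcongr
        _ = |x| * B.u2 * (A * B.u1) := by ring
        _ ≤ A * (A * B.u1) := mul_le_mul_of_nonneg_right hx (by positivity)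
        _ = _ := by ring
    exact le_of_mul_le_mul_right (h2.trans h3) hu2p
  have k1 : |B.κ * B.g1 l'.y l'.s l'.z| ≤ 1 / 64 := key B.κ _ hκ hl'.2.2.2.2
  have k0 : |B.α * B.g0 l'.y l'.s l'.z| ≤ 1 / 64 := key B.α _ hα hl'.2.2.2.1
  have hsq := B.nn_sq l'.y l'.s l'.z
  set X := B.nn l'.y l'.s 0 ^ 2 + B.nn l'.y l'.s 1 ^ 2 with hX
  rw [abs_le] at k0 k1
  have hXl : 1 / 4 ≤ X := by
    rw [hsq]
    linarith [k0.1, k0.2, k1.1, k1.2]
  have hX0 : 0 < X := by linarith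
  set L := Real.sqrt X with hL
  have hL0 : 0 < L := Real.sqrt_pos.2 hX0
  have hLs : L ^ 2 = X := Real.sq_sqrt hX0.le
  have hL1 : 1 / 2 ≤ L := Real.le_sqrt_of_sq_le (by linarith)
  obtain ⟨θ', hc', hs'⟩ := Vale.Agent.P106.W.exists_angle (x := B.nn l'.y l'.s 1 / L) (y := -(B.nn l'.y l'.s 0) / L) (by
    rw [div_pow, div_pow, hLs, ← add_div, div_eq_one_iff_eq hX0.ne', hX]; ring)
  refine ⟨L, θ', hL1, ?_, ?_⟩
  · rw [hs']; field_simp
  · rw [hc']; field_simp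

theorem inv_len {L : ℝ} (hL1 : 1 / 2 ≤ L) {x w : ℝ} (hx : |x| ≤ w) : |x / L| ≤ 2 * w := by
  have hL0 : 0 < L := by linarith
  rw [abs_div, abs_of_pos hL0, div_le_iff₀ hL0]
  have := (abs_nonneg x).trans hx
  nlinarith

theorem frame_le {L x u : ℝ} (hA : 1 ≤ A) (hL1 : 1 / 2 ≤ L) (hu : 0 < u) (hx : |x| * u ≤ A) :
    |x / L| * (u / (16 * A)) ≤ 1 / 8 := by
  have hA0 : 0 < A := by linarith
  have h1 := inv_len hL1 (le_refl |x|)
  calc |x / L| * (u / (16 * A)) ≤ 2 * |x| * (u / (16 * A)) := by gcongr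
    _ = |x| * u / (8 * A) := by field_simp; ring
    _ ≤ A / (8 * A) := by gcongr
    _ = 1 / 8 := by field_simp

theorem whole_le {L x u : ℝ} (hA : 1 ≤ A) (hL1 : 1 / 2 ≤ L) (hH : 0 < H) (hu : 0 < u) (hx : |x| * H ≤ A * u) :
    |x / L| * H ≤ 4 * A ^ 2 * u := by
  have h1 := inv_len hL1 (le_refl |x|)
  have h2 : |x / L| * H ≤ 2 * |x| * H := by gcongr
  have h3 : A * u ≤ A ^ 2 * u := by
    have : A ≤ A ^ 2 := by nlinarith
    gcongr
  nlinarith

/-- the recentred thin box -/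
theorem ref_thin (hA : 1 ≤ A) (hM : 300 * A ^ 3 ≤ M) (hr : 0 < r) (hH : 0 < H) (hB : Boh A B r H) (hl' : Bin A B H l')
    (hthin : 64 * A ^ 3 * B.u1 ≤ B.u2) :
    ∃ B' : Cbx, B'.ok (1 / 8) r H ∧ B'.vol r H ≤ 64 * A ^ 11 * B.vol r H ∧
      ∀ l : Ry, Bin A B H l → cl5 (3 * M) H B l = cl5 (3 * M) H B l' → B'.In H l.y l.s l.z := by
  obtain ⟨hBk, hαH, hκH⟩ := hB
  obtain ⟨L, θ', hL1, n0, n1⟩ := nn_len' hA hBk hl' hthin
  obtain ⟨hu1, hru, hu12, hu2, hα, hκ⟩ := hBk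
  have hA0 : 0 < A := by linarith
  have hu2p : 0 < B.u2 := by nlinarith
  have hA3 : (1:ℝ) ≤ A ^ 3 := one_le_pow₀ hA
  have hA2 : A ≤ A ^ 2 := by nlinarith
  have hM0 : 0 < M := by linarith
  have hL0 : 0 < L := by linarith
  have volpos : 0 ≤ B.u1 * B.u2 / r ^ 2 * max 1 (B.u2 ^ 2 / H) := by positivity
  refine ⟨⟨θ', 4 * A ^ 2 * B.u1, B.u2 / (16 * A), B.κ / L, B.α / L, l'.y, l'.s, l'.z⟩, ⟨?_, ?_, ?_,
    frame_le hA hL1 hu2p hα, frame_le hA hL1 hu2p hκ, whole_le hA hL1 hH hu1 hαH, whole_le hA hL1 hH hu1 hκH⟩, ?_, ?_⟩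
  · show r ≤ 4 * A ^ 2 * B.u1
    have := mul_le_mul_of_nonneg_right hA2 hu1.le
    have := mul_pos hA0 hu1
    linarith
  · show 4 * A ^ 2 * B.u1 ≤ B.u2 / (16 * A)
    rw [le_div_iff₀ (by positivity)]
    calc 4 * A ^ 2 * B.u1 * (16 * A) = 64 * A ^ 3 * B.u1 := by ring
      _ ≤ _ := hthin
  · show B.u2 / (16 * A) ≤ 1
    rw [div_le_iff₀ (by positivity)]
    linarith
  · show 4 * A ^ 2 * B.u1 * (B.u2 / (16 * A)) / r ^ 2 * max 1 ((B.u2 / (16 * A)) ^ 2 / H) ≤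
      64 * A ^ 11 * (B.u1 * B.u2 / r ^ 2 * max 1 (B.u2 ^ 2 / H))
    have h1 : B.u2 / (16 * A) ≤ B.u2 := by
      rw [div_le_iff₀ (by positivity)]
      nlinarith
    have h2 : max 1 ((B.u2 / (16 * A)) ^ 2 / H) ≤ max 1 (B.u2 ^ 2 / H) := by
      apply max_le_max le_rfl
      gcongr
    calc 4 * A ^ 2 * B.u1 * (B.u2 / (16 * A)) / r ^ 2 * max 1 ((B.u2 / (16 * A)) ^ 2 / H)
        ≤ 4 * A ^ 2 * B.u1 * B.u2 / r ^ 2 * max 1 (B.u2 ^ 2 / H) := by gcongr
      _ = 4 * A ^ 2 * (B.u1 * B.u2 / r ^ 2 * max 1 (B.u2 ^ 2 / H)) := by ring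
      _ ≤ 64 * A ^ 11 * (B.u1 * B.u2 / r ^ 2 * max 1 (B.u2 ^ 2 / H)) := by
          apply mul_le_mul_of_nonneg_right _ volpos
          have : A ^ 2 ≤ A ^ 11 := pow_le_pow_right₀ hA (by norm_num)
          have := pow_pos hA0 11
          linarith
  · intro l hl hc
    obtain ⟨hy, hs, hz⟩ := cell_close hA hM hH hu2p hl' hc
    have hu' : B.u2 / (3 * M) ≤ B.u2 / (16 * A) := by
      apply div_le_div_of_nonneg_left hu2p.le (by positivity)
      have : A ≤ A ^ 3 := hA2.trans (pow_le_pow_right₀ hA (by norm_num))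
      linarith
    have g0' : |B.g0 l'.y l'.s l'.z| ≤ A * B.u1 := hl'.2.2.2.1
    have g1' : |B.g1 l'.y l'.s l'.z| ≤ A * B.u1 := hl'.2.2.2.2
    have g0l : |B.g0 l.y l.s l.z| ≤ A * B.u1 := hl.2.2.2.1
    have g1l : |B.g1 l.y l.s l.z| ≤ A * B.u1 := hl.2.2.2.2
    have hfin : 2 * (2 * (A * B.u1)) ≤ 4 * A ^ 2 * B.u1 := by
      have := mul_le_mul_of_nonneg_right hA2 hu1.le
      linarith
    refine ⟨fun k => (hy k).trans hu', fun k => (hs k).trans hu', ?_, ?_, ?_⟩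
    · show |l.z + ∑ k, l.y k * (l.s k - l'.s k) - l'.z| ≤ max ((B.u2 / (16 * A)) ^ 2) H
      refine hz.trans ?_
      set mx := max (B.u2 ^ 2) H with hmx
      have h1 : mx ≤ 256 * A ^ 2 * max ((B.u2 / (16 * A)) ^ 2) H := by
        rw [hmx]
        apply max_le
        · calc B.u2 ^ 2 = 256 * A ^ 2 * (B.u2 / (16 * A)) ^ 2 := by field_simp; ring
            _ ≤ _ := by gcongr; exact le_max_left _ _
        · have h3 : H ≤ max ((B.u2 / (16 * A)) ^ 2) H := le_max_right _ _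
          have h2 : (1:ℝ) ≤ 256 * A ^ 2 := by linarith
          exact h3.trans (le_mul_of_one_le_left (hH.le.trans h3) h2)
      rw [div_le_iff₀ hM0]
      have h4 : 0 < max ((B.u2 / (16 * A)) ^ 2) H := lt_of_lt_of_le hH (le_max_right _ _)
      calc mx * A ≤ 256 * A ^ 2 * max ((B.u2 / (16 * A)) ^ 2) H * A := by gcongr
        _ = 256 * A ^ 3 * max ((B.u2 / (16 * A)) ^ 2) H := by ring
        _ ≤ M * max ((B.u2 / (16 * A)) ^ 2) H := by
            gcongr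
            linarith
        _ = _ := by ring
    · show |fn θ' (l.y - l'.y) + B.κ / L * (l.z + ∑ k, l.y k * (l.s k - l'.s k) - l'.z) -
          B.α / L * ∑ k, (l.y k - l'.y k) ^ 2| ≤ 4 * A ^ 2 * B.u1
      have e : fn θ' (l.y - l'.y) + B.κ / L * (l.z + ∑ k, l.y k * (l.s k - l'.s k) - l'.z) -
          B.α / L * ∑ k, (l.y k - l'.y k) ^ 2 = (B.g0 l.y l.s l.z - B.g0 l'.y l'.s l'.z) / L := by
        rw [B.g0_rec l'.y l'.s l.y l.s l'.z l.z, eq_div_iff hL0.ne']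
        simp only [Fin.sum_univ_two, n0, n1, fn, Pi.sub_apply]
        field_simp
        ring
      rw [e]
      have h1 : |B.g0 l.y l.s l.z - B.g0 l'.y l'.s l'.z| ≤ 2 * (A * B.u1) := by
        have := abs_sub (B.g0 l.y l.s l.z) (B.g0 l'.y l'.s l'.z)
        linarith
      exact (inv_len hL1 h1).trans hfin
    · show |fn θ' (l.s - l'.s) + B.κ / L * (∑ k, (l.s k - l'.s k) ^ 2) / 2 +
          2 * (B.α / L) * (l.z + ∑ k, l'.y k * (l.s k - l'.s k) - l'.z)| ≤ 4 * A ^ 2 * B.u1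
      have e : fn θ' (l.s - l'.s) + B.κ / L * (∑ k, (l.s k - l'.s k) ^ 2) / 2 +
          2 * (B.α / L) * (l.z + ∑ k, l'.y k * (l.s k - l'.s k) - l'.z) =
          (B.g1 l.y l.s l.z - B.g1 l'.y l'.s l'.z) / L := by
        rw [B.g1_rec l'.y l'.s l.y l.s l'.z l.z, eq_div_iff hL0.ne']
        simp only [Fin.sum_univ_two, n0, n1, fn, Pi.sub_apply]
        field_simp
        ring
      rw [e]
      have h1 : |B.g1 l.y l.s l.z - B.g1 l'.y l'.s l'.z| ≤ 2 * (A * B.u1) := by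
        have := abs_sub (B.g1 l.y l.s l.z) (B.g1 l'.y l'.s l'.z)
        linarith
      exact (inv_len hL1 h1).trans hfin

/-- the isotropic box -/
theorem ref_iso (hA : 1 ≤ A) (hM : 300 * A ^ 3 ≤ M) (hr : 0 < r) (hr1 : r ≤ 1) (hH : 0 < H) (hB : Boh A B r H)
    (hl' : Bin A B H l') (hthin' : B.u2 ≤ 64 * A ^ 3 * B.u1) :
    ∃ B' : Cbx, B'.ok (1 / 8) r H ∧ B'.vol r H ≤ 64 * A ^ 11 * B.vol r H ∧
      ∀ l : Ry, Bin A B H l → cl5 (3 * M) H B l = cl5 (3 * M) H B l' → B'.In H l.y l.s l.z := by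
  obtain ⟨⟨hu1, hru, hu12, hu2, hα, hκ⟩, hαH, hκH⟩ := hB
  have hA0 : 0 < A := by linarith
  have hu2p : 0 < B.u2 := by nlinarith
  have hA3 : (1:ℝ) ≤ A ^ 3 := one_le_pow₀ hA
  have hA2 : A ≤ A ^ 2 := by nlinarith
  have hA2' : (1:ℝ) ≤ A ^ 2 := one_le_pow₀ hA
  have hAA3 : A ≤ A ^ 3 := hA2.trans (pow_le_pow_right₀ hA (by norm_num))
  have hM0 : 0 < M := by linarith
  have hM3 : 0 < 3 * M := by linarith
  set us := min 1 (max r B.u2) with hus
  have hus0 : 0 < us := lt_min one_pos (lt_of_lt_of_le hr (le_max_left _ _))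
  have hus1 : us ≤ 1 := min_le_left _ _
  have hrus : r ≤ us := le_min hr1 (le_max_left _ _)
  have hu2us : B.u2 ≤ A * us := by
    rw [hus]
    rcases le_total 1 (max r B.u2) with h | h
    · rw [min_eq_left h]
      linarith
    · rw [min_eq_right h]
      have h1 : B.u2 ≤ max r B.u2 := le_max_right _ _
      exact h1.trans (le_mul_of_one_le_left (hu2p.le.trans h1) hA)
  have husu2 : us ≤ A ^ 2 * B.u2 := by
    refine (min_le_right _ _).trans (max_le ?_ ?_)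
    · calc r ≤ A * B.u1 := hru
        _ ≤ A * (A * B.u2) := by gcongr
        _ = _ := by ring
    · exact le_mul_of_one_le_left hu2p.le hA2'
  have hmxus : max (B.u2 ^ 2) H ≤ A ^ 2 * max (us ^ 2) H := by
    apply max_le
    · calc B.u2 ^ 2 ≤ (A * us) ^ 2 := by gcongr
        _ = A ^ 2 * us ^ 2 := by ring
        _ ≤ _ := by gcongr; exact le_max_left _ _
    · have h1 : H ≤ max (us ^ 2) H := le_max_right _ _
      exact h1.trans (le_mul_of_one_le_left (hH.le.trans h1) hA2')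
  have hMA : A ^ 3 ≤ M := by linarith
  have hsm : 2 * (B.u2 / (3 * M)) ≤ us := by
    have h1 : B.u2 / (3 * M) ≤ A * us / (3 * M) := by gcongr
    have h2 : 2 * (A * us / (3 * M)) ≤ us := by
      rw [mul_div_assoc', div_le_iff₀ hM3]
      have : A * us ≤ M * us := by
        gcongr
        linarith
      nlinarith
    linarith
  refine ⟨⟨0, us, us, 0, 0, l'.y, l'.s, l'.z⟩, ⟨hrus, le_rfl, hus1, ?_, ?_, ?_, ?_⟩, ?_, ?_⟩
  · show |(0:ℝ)| * us ≤ 1 / 8
    simp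
  · show |(0:ℝ)| * us ≤ 1 / 8
    simp
  · show |(0:ℝ)| * H ≤ us
    simp [hus0.le]
  · show |(0:ℝ)| * H ≤ us
    simp [hus0.le]
  · show us * us / r ^ 2 * max 1 (us ^ 2 / H) ≤ 64 * A ^ 11 * (B.u1 * B.u2 / r ^ 2 * max 1 (B.u2 ^ 2 / H))
    have h1 : us * us ≤ 64 * A ^ 7 * (B.u1 * B.u2) := by
      have h3 : us * us ≤ (A ^ 2 * B.u2) * (A ^ 2 * (64 * A ^ 3 * B.u1)) := by
        apply mul_le_mul husu2 _ hus0.le (by positivity)
        exact husu2.trans (by gcongr)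
      calc us * us ≤ _ := h3
        _ = _ := by ring
    have h2 : max 1 (us ^ 2 / H) ≤ A ^ 4 * max 1 (B.u2 ^ 2 / H) := by
      have hA4 : (1:ℝ) ≤ A ^ 4 := one_le_pow₀ hA
      have h5 : (1:ℝ) ≤ max 1 (B.u2 ^ 2 / H) := le_max_left _ _
      apply max_le
      · exact h5.trans (le_mul_of_one_le_left (by linarith) hA4)
      · calc us ^ 2 / H ≤ (A ^ 2 * B.u2) ^ 2 / H := by gcongr
          _ = A ^ 4 * (B.u2 ^ 2 / H) := by ring
          _ ≤ _ := by gcongr; exact le_max_right _ _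
    calc us * us / r ^ 2 * max 1 (us ^ 2 / H)
        ≤ (64 * A ^ 7 * (B.u1 * B.u2)) / r ^ 2 * (A ^ 4 * max 1 (B.u2 ^ 2 / H)) := by gcongr
      _ = _ := by ring
  · intro l hl hc
    obtain ⟨hy, hs, hz⟩ := cell_close hA hM hH hu2p hl' hc
    have hsm' : B.u2 / (3 * M) ≤ us := by
      have : 0 ≤ B.u2 / (3 * M) := by positivity
      linarith
    refine ⟨fun k => (hy k).trans hsm', fun k => (hs k).trans hsm', ?_, ?_, ?_⟩
    · show |l.z + ∑ k, l.y k * (l.s k - l'.s k) - l'.z| ≤ max (us ^ 2) H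
      refine hz.trans ?_
      rw [div_le_iff₀ hM0]
      have h4 : 0 < max (us ^ 2) H := lt_of_lt_of_le hH (le_max_right _ _)
      calc max (B.u2 ^ 2) H * A ≤ A ^ 2 * max (us ^ 2) H * A := by gcongr
        _ = A ^ 3 * max (us ^ 2) H := by ring
        _ ≤ M * max (us ^ 2) H := by gcongr
        _ = _ := by ring
    · show |fn 0 (l.y - l'.y) + 0 * (l.z + ∑ k, l.y k * (l.s k - l'.s k) - l'.z) -
          0 * ∑ k, (l.y k - l'.y k) ^ 2| ≤ us
      rw [zero_mul, zero_mul, add_zero, sub_zero]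
      refine (fn_abs _ _).trans ?_
      have h0 := hy 0
      have h1 := hy 1
      simp only [Pi.sub_apply]
      linarith
    · show |fn 0 (l.s - l'.s) + 0 * (∑ k, (l.s k - l'.s k) ^ 2) / 2 +
          2 * 0 * (l.z + ∑ k, l'.y k * (l.s k - l'.s k) - l'.z)| ≤ us
      rw [zero_mul, zero_div, mul_zero, zero_mul, add_zero, add_zero]
      refine (fn_abs _ _).trans ?_
      have h0 := hs 0
      have h1 := hs 1
      simp only [Pi.sub_apply]
      linarith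

/-- the recentred box -/
theorem exists_ref (hA : 1 ≤ A) (hM : 300 * A ^ 3 ≤ M) (hr : 0 < r) (hr1 : r ≤ 1) (hH : 0 < H)
    (hB : Boh A B r H) (hl' : Bin A B H l') :
    ∃ B' : Cbx, B'.ok (1 / 8) r H ∧ B'.vol r H ≤ 64 * A ^ 11 * B.vol r H ∧
      ∀ l : Ry, Bin A B H l → cl5 (3 * M) H B l = cl5 (3 * M) H B l' → B'.In H l.y l.s l.z := by
  rcases le_total (64 * A ^ 3 * B.u1) B.u2 with h | h
  · exact ref_thin hA hM hr hH hB hl' h
  · exact ref_iso hA hM hr hr1 hH hB hl' h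

end ref

open Classical in
/-- **PCst** -/
theorem pCst : PCst := by
  intro A hA
  set M : ℝ := 300 * A ^ 3 with hM
  have hA0 : 0 < A := by linarith
  have hM0 : 0 < M := by positivity
  set N : ℕ := ⌈A * (3 * M)⌉₊ + 1 with hN
  have hN1 : A * (3 * M) + 1 ≤ N := by
    rw [hN]
    push_cast
    have := Nat.le_ceil (A * (3 * M))
    linarith
  refine ⟨Fintype.card (Fin 5 → Fin (2 * N + 1)), 64 * A ^ 11, Fintype.card_pos, ?_, fun r H hr hr1 hH => ?_⟩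
  · have : (1:ℝ) ≤ A ^ 11 := one_le_pow₀ hA
    linarith
  set e := Fintype.equivFin (Fin 5 → Fin (2 * N + 1)) with he
  set P : Cbx → Ry → Prop := fun B l => Boh A B r H ∧ Bin A B H l with hP
  refine ⟨fun B l => e fun j => cod N (cl5 (3 * M) H B l j),
    fun B i => if h : ∃ l', P B l' ∧ (e fun j => cod N (cl5 (3 * M) H B l' j)) = i then
      Classical.choose (exists_ref hA (M := M) le_rfl hr hr1 hH h.choose_spec.1.1 h.choose_spec.1.2) else B, ?_⟩
  intro B l hB hl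
  have hex : ∃ l', P B l' ∧ (e fun j => cod N (cl5 (3 * M) H B l' j)) = e fun j => cod N (cl5 (3 * M) H B l j) :=
    ⟨l, ⟨hB, hl⟩, rfl⟩
  simp only [dif_pos hex]
  have hsp := Classical.choose_spec (exists_ref hA (M := M) le_rfl hr hr1 hH hex.choose_spec.1.1 hex.choose_spec.1.2)
  refine ⟨hsp.1, hsp.2.2 l hl ?_, hsp.2.1⟩
  have hl' := hex.choose_spec.1.2
  have h1 := e.injective hex.choose_spec.2
  have hu1 := hB.1.1
  have hu2p : 0 < B.u2 := by
    have := hB.1.2.2.1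
    nlinarith
  have hmx0 : 0 < max (B.u2 ^ 2) H := lt_of_lt_of_le hH (le_max_right _ _)
  have bd : ∀ l'' : Ry, Bin A B H l'' → ∀ j, |cl5 (3 * M) H B l'' j| ≤ (N:ℤ) := by
    intro l'' h j
    have hM3 : 0 ≤ 3 * M := by positivity
    fin_cases j
    · exact fl_abs hu2p hM3 (h.1 0) hN1
    · exact fl_abs hu2p hM3 (h.1 1) hN1
    · exact fl_abs hu2p hM3 (h.2.1 0) hN1
    · exact fl_abs hu2p hM3 (h.2.1 1) hN1
    · exact fl_abs hmx0 hM3 h.2.2.1 hN1
  funext j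
  have h2 := congrFun h1 j
  exact (cod_inj (bd _ hl' j) (bd _ hl j) h2).symm

end Vale.Agent.P106.K
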