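import Vale.Agent.P106.W.Defs
import Vale.Agent.P127.U.Defs

/-!
# P106 / K : the Kakeya statement for light rays with conformal boxes = the interface between (LK-conf) and the wave side (helper357)

* `Ry` : light ray `z'(t) = y + t s`, `z0(t) = z + y·s + t |s|²/2` (`z` = adapted coordinate `z0 - z'·s + t |s|²/2`, constant).
* `pl n l` : thin plank of precision `n` (`s`, `y` : `n` digits, adapted coordinate : `2 n` digits; `6 n` digits).
* boxes are random REAL conformal boxes `W.Cbx` (helper117), no rounding.  `Cbx.vol r H` = (volume of the slice of the box) /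
  (volume of the slice of the plank of radius `r` and thickness `H`).
* `bl a l t` : the ray seen in the time block of length `2^-a` which contains `t`, lengths and times multiplied by `2^a`
  (absolute position, time measured from the beginning of the block).
* `excF c P A l r H C` : supremum over all random boxes `W` of class `c` which contain the ray of
  `H(A | W, C) - E log vol W`.
* `JK c N β` : for every random box `W` of the level `a`,
  `H(S | W, t_a) - E log vol_a W ≤ (β + ε) n log 2 + K + exc_0(S) + N (a log 2 - H(t_a | S))`.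
-/

set_option autoImplicit false

namespace Vale.Agent.P106.K

open Vale.Agent.P127 Vale.Agent.P127.Stk Vale.Agent.P127.U Vale.Agent.P106.W
open Vale.Agent.P122.C2 (fn)

/-- light ray: position `y` at the time `0`, slope `s`, adapted coordinate `z` -/
structure Ry where
  y : Fin 2 → ℝ
  s : Fin 2 → ℝ
  z : ℝ

namespace Ry

/-- position `z'` at the time `t` -/
def pos (l : Ry) (t : ℝ) : Fin 2 → ℝ := fun k => l.y k + t * l.s k

/-- coordinate `z0` at the time `t` -/
noncomputable def hgt (l : Ry) (t : ℝ) : ℝ := l.z + ∑ k, l.y k * l.s k + t * (∑ k, l.s k ^ 2) / 2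

end Ry

/-- normalised ray -/
def RyOk (l : Ry) : Prop := (∀ k, |l.y k| ≤ 1) ∧ (∀ k, |l.s k| ≤ 1) ∧ |l.z| ≤ 4

/-- plank of the ray `l` : `n` digits of the slope and of the position, `m` digits of the adapted coordinate (with respect to
the rounded slope) -/
noncomputable def plm (n m : ℕ) (l : Ry) : (Fin 2 → ℤ) × (Fin 2 → ℤ) × ℤ :=
  (fl n l.s, fl n l.y, fl1 m (l.z + ∑ k, l.y k * (l.s k - (fl n l.s k : ℝ) / 2 ^ n)))

/-- thin plank of precision `n` -/
noncomputable def pl (n : ℕ) (l : Ry) : (Fin 2 → ℤ) × (Fin 2 → ℤ) × ℤ := plm n (2 * n) l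

/-- the ray in the time block of length `2^-a` of `t` : position at the beginning of the block, slope, adapted coordinate with
the time measured from the beginning of the block; all lengths multiplied by `2^a` -/
noncomputable def bl (a : ℕ) (l : Ry) (t : ℝ) : Ry :=
  ⟨fun k => 2 ^ a * l.pos (qa a t) k, l.s, 2 ^ a * (l.z - qa a t * (∑ k, l.s k ^ 2) / 2)⟩

/-- boxes of class `c` for planks of radius `r` -/
def Bok (c : ℝ) (B : Cbx) (r : ℝ) : Prop :=
  0 < B.u1 ∧ r ≤ c * B.u1 ∧ B.u1 ≤ c * B.u2 ∧ B.u2 ≤ c ∧ |B.α| * B.u2 ≤ c ∧ |B.κ| * B.u2 ≤ c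

/-- the ray `l`, known up to the thickness `H`, is in the box `B`, up to the constant `c` -/
def Bin (c : ℝ) (B : Cbx) (H : ℝ) (l : Ry) : Prop :=
  (∀ k, |l.y k - B.p k| ≤ c * B.u2) ∧ (∀ k, |l.s k - B.v k| ≤ c * B.u2) ∧
  |l.z + ∑ k, l.y k * (l.s k - B.v k) - B.ω| ≤ c * max (B.u2 ^ 2) H ∧
  |fn B.θ (l.y - B.p) + B.κ * (l.z + ∑ k, l.y k * (l.s k - B.v k) - B.ω) - B.α * ∑ k, (l.y k - B.p k) ^ 2| ≤ c * B.u1 ∧
  |fn B.θ (l.s - B.v) + B.κ * (∑ k, (l.s k - B.v k) ^ 2) / 2 +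
    2 * B.α * (l.z + ∑ k, B.p k * (l.s k - B.v k) - B.ω)| ≤ c * B.u1

section finite

variable {Ω : Type} [Fintype Ω] {α γ : Type*}

/-- the values `H(A | W, C) - E log vol W` of all random boxes `W` of class `c` which contain the ray `l` -/
def exSet (c : ℝ) (P : Law Ω) (A : Ω → α) (l : Ω → Ry) (r H : ℝ) (C : Ω → γ) : Set ℝ :=
  {v | ∃ (Ω' : Type) (_ : Fintype Ω') (P' : Law Ω') (π : Ω' → Ω) (W : Ω' → Cbx),
    (∀ ω, P'.pr π ω = P.w ω) ∧ (∀ ω, 0 < P'.w ω → Bok c (W ω) r ∧ Bin c (W ω) H (l (π ω))) ∧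
    v = Stk.hc P' (fun ω => A (π ω)) (fun ω => (W ω, C (π ω))) - P'.ex fun ω => Real.log ((W ω).vol r H)}

/-- the excess of `A` given `C` -/
noncomputable def excF (c : ℝ) (P : Law Ω) (A : Ω → α) (l : Ω → Ry) (r H : ℝ) (C : Ω → γ) : ℝ :=
  sSup (exSet c P A l r H C)

end finite

/-- **the inequality with price `N` and rate `β`** : thin planks `S = pl n l` seen in the time blocks of length `2^-a`, `a ≤ n` -/
def JK (c N β : ℝ) : Prop :=
  ∀ ε : ℝ, 0 < ε → ∃ K : ℝ, ∀ (Ω : Type) [Fintype Ω] (P : Law Ω) (l : Ω → Ry) (t : Ω → ℝ) (W : Ω → Cbx) (a n : ℕ), a ≤ n →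
    (∀ ω, 0 < P.w ω → RyOk (l ω) ∧ 0 ≤ t ω ∧ t ω ≤ 1 ∧ (W ω).ok (1 / 8) (2 ^ a / 2 ^ n) (2 ^ a / 2 ^ (2 * n)) ∧
      (W ω).In (2 ^ a / 2 ^ (2 * n)) (bl a (l ω) (t ω)).y (bl a (l ω) (t ω)).s (bl a (l ω) (t ω)).z) →
    Stk.hc P (fun ω => pl n (l ω)) (fun ω => (W ω, fl1 a (t ω))) -
        P.ex (fun ω => Real.log ((W ω).vol (2 ^ a / 2 ^ n) (2 ^ a / 2 ^ (2 * n)))) ≤
      (β + ε) * n * Real.log 2 + K +
      excF c P (fun ω => pl n (l ω)) l ((1 / 2 : ℝ) ^ n) ((1 / 2 : ℝ) ^ (2 * n)) (fun _ => ()) +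
      N * (a * Real.log 2 - Stk.hc P (fun ω => fl1 a (t ω)) (fun ω => pl n (l ω)))

/-- **[LK-conf], price `N`** : the only input of the wave side from the Kakeya side -/
def StK106 (N : ℝ) : Prop := ∃ c : ℝ, 1 ≤ c ∧ ∀ β : ℝ, 0 < β → JK c N β

end Vale.Agent.P106.K
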