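import Vale.Agent.P106.K.Blocks
import Vale.Agent.P106.R.SIG.Sig

/-!
# P106 / K : nodes and rays, `PGeo` (helper265)
-/

set_option autoImplicit false

namespace Vale.Agent.P106.K

open Vale.Agent.P127 Vale.Agent.P127.Stk Vale.Agent.P127.U
open Vale.Agent.P106.W (Cbx hh)
open Vale.Agent.P122.C2 (fn Z2)
open Vale.Agent.P106.R.C2 (Nd Sl Slp)
open Vale.Agent.P106.R.E (Flg py pz wsg)
open Vale.Agent.P106.R.SIG
open Vale.Agent.P122.H474 (Chn tm ps)

theorem qa_tb (a : ℕ) (T : ℤ) : qa a (tb a T) = tb a T := by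
  have h : (2:ℝ) ^ a * (((T % 2 ^ a : ℤ) : ℝ) / 2 ^ a) = ((T % 2 ^ a : ℤ) : ℝ) := by field_simp
  unfold qa fl1 tb
  rw [h, Int.floor_intCast]

/-- constants of `PGeo` -/
noncomputable def cG (C : ℝ) (K : ℕ) : ℝ :=
  cw C K + (1 + 2 * (((C + 2) * K + 1) * (C * K) + (C * K) ^ 2)) + 2 * (((C + 2) * K + 1) * (C * K)) + 1 +
    ((C + 2) * K + 1) + 2 * (C * K)

theorem geo {C : ℝ} {n K : ℕ} {s : Sl} {N N' : ℕ → Nd} (h : Cn s n K N) (h' : Cn s n K N') (hs : Slp C n K s)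
    (hh1 : 1 ≤ s.h) {c d : ℕ} (hcd : c ≤ d) (hd2 : d ≤ 2 * c) (hdK : d ≤ K) (hw : 2 * (d - c) ≤ s.h)
    (eq : (N (2 * c - d)).τ = (N' (2 * c - d)).τ)
    (eo : ∀ k, (N c).o k / 2 ^ ((d - c) * n) = (N' c).o k / 2 ^ ((d - c) * n)) (eT : (N c).T = (N' c).T)
    (ew : wsg n s.h c d (N c) = wsg n s.h c d (N' c)) (x : ℝ) (hx0 : 0 ≤ x) (hx : x ≤ hh n s.h d) :
    (∀ k, |(bl (2 * (d - c) * n) ((ray s n d (N d)).up x) (tb (2 * (d - c) * n) (N c).T)).y k - (ray s n c (N' c)).y k| ≤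
      cG C K * (2 ^ (d * n) / 2 ^ (2 * c * n))) ∧
    (∀ k, |(bl (2 * (d - c) * n) ((ray s n d (N d)).up x) (tb (2 * (d - c) * n) (N c).T)).s k - (ray s n c (N' c)).s k| ≤
      cG C K * (2 ^ (d * n) / 2 ^ (2 * c * n))) ∧
    |(bl (2 * (d - c) * n) ((ray s n d (N d)).up x) (tb (2 * (d - c) * n) (N c).T)).z +
      ∑ k, (bl (2 * (d - c) * n) ((ray s n d (N d)).up x) (tb (2 * (d - c) * n) (N c).T)).y k *
        ((bl (2 * (d - c) * n) ((ray s n d (N d)).up x) (tb (2 * (d - c) * n) (N c).T)).s k - (ray s n c (N' c)).s k) -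
        (ray s n c (N' c)).z| ≤ cG C K * hh n s.h c := by
  have hcK := hcd.trans hdK
  have hch := h.chn
  have hch' := h'.chn
  have hs' := slp' hs
  have hC := Chn.C_nonneg hs'
  set q := 2 * c - d with hq
  set a := 2 * (d - c) * n with ha
  set y' : Fin 2 → ℝ := ps n c (bb (N' c)) with hy'
  set tc := tm n c (bb (N c)) with htc
  set td := tm n d (bb (N d)) with htd
  set Z : Fin 2 → ℝ := fun k => ps n d (bb (N d)) k + (tc - td) * W.s0 n d (N d).τ k with hZ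
  have pC : (0:ℝ) < 2 ^ (2 * c * n) := by positivity
  have pD : (0:ℝ) < 2 ^ (2 * d * n) := by positivity
  have pdn : (0:ℝ) < 2 ^ (d * n) := by positivity
  have pq : (0:ℝ) < 2 ^ (q * n) := by positivity
  have pa : (0:ℝ) < 2 ^ a := by positivity
  have ea : (2:ℝ) ^ (2 * d * n) = 2 ^ (2 * c * n) * 2 ^ a := by
    rw [ha, ← pow_add, ← add_mul]
    congr 2
    omega
  have edn : (2:ℝ) ^ (2 * d * n) = 2 ^ (d * n) * 2 ^ (d * n) := by
    rw [← pow_add]
    congr 1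
    ring
  have ecn : (2:ℝ) ^ (2 * c * n) = 2 ^ (c * n) * 2 ^ (c * n) := by
    rw [← pow_add]
    congr 1
    ring
  have eq1 : (2:ℝ) ^ (d * n) = 2 ^ (q * n) * 2 ^ a := by
    rw [ha, ← pow_add, ← add_mul]
    congr 2
    omega
  have eq2 : (2:ℝ) ^ (2 * c * n) = 2 ^ (q * n) * 2 ^ (d * n) := by
    rw [← pow_add, ← add_mul]
    congr 2
    omega
  -- time
  have e1 : tc - td = 2 ^ (2 * c * n) * (((N c).T % 2 ^ a : ℤ) : ℝ) := hch.tm_sub hcd hdK
  have etb : (2:ℝ) ^ a * tb a (N c).T = (tc - td) / 2 ^ (2 * c * n) := by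
    unfold tb
    rw [e1]
    field_simp
  have esd : ∀ k, s d (N d).τ k = W.s0 n d (N d).τ k := fun k => cone_s hs d _ k
  have esc : ∀ k, s c (N' c).τ k = W.s0 n c (N' c).τ k := fun k => cone_s hs c _ k
  -- the ray seen in the block
  have ly : ∀ k, (bl a ((ray s n d (N d)).up x) (tb a (N c).T)).y k = Z k / 2 ^ (2 * c * n) := by
    intro k
    show (2:ℝ) ^ a * (py n d (N d) k + qa a (tb a (N c).T) * s d (N d).τ k) = _
    rw [qa_tb, esd, mul_add, ← mul_assoc, etb]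
    have e2 : (2:ℝ) ^ a * py n d (N d) k = ps n d (bb (N d)) k / 2 ^ (2 * c * n) := by
      show (2:ℝ) ^ a * (((N d).o k : ℝ) / 2 ^ (d * n)) = 2 ^ (d * n) * ((N d).o k : ℝ) / 2 ^ (2 * c * n)
      have : (2:ℝ) ^ a = 2 ^ (d * n) * 2 ^ (d * n) / 2 ^ (2 * c * n) := by
        rw [← edn, ea]
        field_simp
      rw [this]
      field_simp
    rw [e2, hZ]
    field_simp
  have ls : ∀ k, (bl a ((ray s n d (N d)).up x) (tb a (N c).T)).s k = W.s0 n d (N d).τ k := fun k => esd k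
  have l'y : ∀ k, (ray s n c (N' c)).y k = y' k / 2 ^ (2 * c * n) := by
    intro k
    show ((N' c).o k : ℝ) / 2 ^ (c * n) = 2 ^ (c * n) * ((N' c).o k : ℝ) / 2 ^ (2 * c * n)
    rw [ecn]
    field_simp
  have l's : ∀ k, (ray s n c (N' c)).s k = W.s0 n c (N' c).τ k := fun k => esc k
  have lz : (bl a ((ray s n d (N d)).up x) (tb a (N c).T)).z = ((N d).w * 2 ^ (s.h * n) -
      tc * (∑ k, W.s0 n d (N d).τ k ^ 2) / 2) / 2 ^ (2 * c * n) + 2 ^ a * x := by
    show (2:ℝ) ^ a * (((N d).w : ℝ) * 2 ^ (s.h * n) / 2 ^ (2 * d * n) - ((N d).T : ℝ) * (∑ k, s d (N d).τ k ^ 2) / 2 + x -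
      qa a (tb a (N c).T) * (∑ k, s d (N d).τ k ^ 2) / 2) = _
    rw [qa_tb]
    have e3 : (∑ k, s d (N d).τ k ^ 2) = ∑ k, W.s0 n d (N d).τ k ^ 2 :=
      Finset.sum_congr rfl fun k _ => by rw [esd]
    rw [e3]
    set Q := ∑ k, W.s0 n d (N d).τ k ^ 2
    have e4 : (2:ℝ) ^ a * (((N d).w : ℝ) * 2 ^ (s.h * n) / 2 ^ (2 * d * n) - ((N d).T : ℝ) * Q / 2 + x -
        tb a (N c).T * Q / 2) = ((N d).w * 2 ^ (s.h * n)) / 2 ^ (2 * c * n) - 2 ^ a * ((N d).T : ℝ) * Q / 2 -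
          (2 ^ a * tb a (N c).T) * Q / 2 + 2 ^ a * x := by
      rw [ea]
      field_simp
      ring
    rw [e4, etb]
    have e5 : td = 2 ^ (2 * c * n) * 2 ^ a * ((N d).T : ℝ) := by
      rw [htd]
      unfold tm bb
      rw [ea]
    rw [e5]
    field_simp
    ring
  have l'z : (ray s n c (N' c)).z = ((N' c).w * 2 ^ (s.h * n) -
      tc * (∑ k, W.s0 n c (N' c).τ k ^ 2) / 2) / 2 ^ (2 * c * n) := by
    show ((N' c).w : ℝ) * 2 ^ (s.h * n) / 2 ^ (2 * c * n) - ((N' c).T : ℝ) * (∑ k, s c (N' c).τ k ^ 2) / 2 = _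
    have e3 : (∑ k, s c (N' c).τ k ^ 2) = ∑ k, W.s0 n c (N' c).τ k ^ 2 :=
      Finset.sum_congr rfl fun k _ => by rw [esc]
    have e5 : tc = 2 ^ (2 * c * n) * ((N' c).T : ℝ) := by
      rw [htc]
      unfold tm bb
      rw [eT]
    rw [e3, e5]
    field_simp
  -- constants
  have hcw : 0 ≤ cw C K := by
    unfold R.SIG.cw
    positivity
  have n1 : 0 ≤ 1 + 2 * (((C + 2) * K + 1) * (C * K) + (C * K) ^ 2) := by positivity
  have n2 : 0 ≤ 2 * (((C + 2) * K + 1) * (C * K)) := by positivity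
  have n3 : 0 ≤ (C + 2) * K + 1 := by positivity
  have n4 : 0 ≤ 2 * (C * K) := by positivity
  -- distances
  have d1 : ∀ k, |Z k - y' k| ≤ ((C + 2) * K + 1) * 2 ^ (d * n) := by
    intro k
    have g1 := hch.posn hs' hcd hdK k
    rw [← htc, ← htd] at g1
    have es : s.f d (bb (N d)).τ k = W.s0 n d (N d).τ k := esd k
    rw [es] at g1
    have g2 : |ps n c (bb (N c)) k - y' k| ≤ 2 ^ (d * n) := by
      show |2 ^ (c * n) * ((N c).o k : ℝ) - 2 ^ (c * n) * ((N' c).o k : ℝ)| ≤ _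
      rw [← mul_sub, abs_mul, abs_of_pos (by positivity : (0:ℝ) < 2 ^ (c * n))]
      have hp : (0:ℤ) < 2 ^ ((d - c) * n) := by positivity
      have b1 := Int.mul_ediv_add_emod ((N c).o k) (2 ^ ((d - c) * n))
      have b2 := Int.mul_ediv_add_emod ((N' c).o k) (2 ^ ((d - c) * n))
      have b3 := Int.emod_nonneg ((N c).o k) hp.ne'
      have b4 := Int.emod_nonneg ((N' c).o k) hp.ne'
      have b5 := Int.emod_lt_of_pos ((N c).o k) hp
      have b6 := Int.emod_lt_of_pos ((N' c).o k) hp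
      rw [eo k] at b1
      have b7 : |(N c).o k - (N' c).o k| ≤ 2 ^ ((d - c) * n) := by
        rw [abs_le]
        constructor <;> linarith
      have b8 : |((N c).o k : ℝ) - ((N' c).o k : ℝ)| ≤ 2 ^ ((d - c) * n) := by exact_mod_cast b7
      have e6 : (2:ℝ) ^ (d * n) = 2 ^ (c * n) * 2 ^ ((d - c) * n) := by
        rw [← pow_add, ← add_mul]
        congr 2
        omega
      rw [e6]
      exact mul_le_mul_of_nonneg_left b8 (by positivity)
    have h7 : (C + 2) * ((d:ℝ) - c) * 2 ^ (d * n) ≤ (C + 2) * K * 2 ^ (d * n) := by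
      refine mul_le_mul_of_nonneg_right (mul_le_mul_of_nonneg_left ?_ (by linarith)) pdn.le
      have : (d:ℝ) ≤ K := by exact_mod_cast hdK
      have : (0:ℝ) ≤ c := Nat.cast_nonneg _
      linarith
    have e7 : Z k - y' k = -(ps n c (bb (N c)) k - Z k) + (ps n c (bb (N c)) k - y' k) := by ring
    rw [e7]
    refine (abs_add_le _ _).trans ?_
    rw [abs_neg, add_mul, one_mul]
    exact add_le_add (g1.trans h7) g2
  have d2 : ∀ k, |W.s0 n d (N d).τ k - W.s0 n q (N q).τ k| ≤ C * K / 2 ^ (q * n) := by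
    intro k
    have g2 := hch.slope hs' (show q ≤ d by omega) hdK k
    have es : s.f d (bb (N d)).τ k = W.s0 n d (N d).τ k := esd k
    have es' : s.f q (bb (N q)).τ k = W.s0 n q (N q).τ k := cone_s hs q _ k
    rw [es, es'] at g2
    rw [abs_sub_comm]
    refine g2.trans ?_
    have h7 : (d:ℝ) ≤ K := by exact_mod_cast hdK
    have a0 : (0:ℝ) ≤ q := Nat.cast_nonneg _
    refine div_le_div_of_nonneg_right ?_ pq.le
    exact mul_le_mul_of_nonneg_left (by linarith) hC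
  have d3 : ∀ k, |W.s0 n c (N' c).τ k - W.s0 n q (N q).τ k| ≤ C * K / 2 ^ (q * n) := by
    intro k
    have g2 := hch'.slope hs' (show q ≤ c by omega) hcK k
    have es : s.f c (bb (N' c)).τ k = W.s0 n c (N' c).τ k := esc k
    have es' : s.f q (bb (N' q)).τ k = W.s0 n q (N' q).τ k := cone_s hs q _ k
    rw [es, es', ← eq] at g2
    rw [abs_sub_comm]
    refine g2.trans ?_
    have h7 : (c:ℝ) ≤ K := by exact_mod_cast hcK
    have a0 : (0:ℝ) ≤ q := Nat.cast_nonneg _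
    refine div_le_div_of_nonneg_right ?_ pq.le
    exact mul_le_mul_of_nonneg_left (by linarith) hC
  refine ⟨fun k => ?_, fun k => ?_, ?_⟩
  · rw [ly k, l'y k, ← sub_div, abs_div, abs_of_pos pC, mul_div_assoc']
    refine div_le_div_of_nonneg_right ((d1 k).trans ?_) pC.le
    refine mul_le_mul_of_nonneg_right ?_ pdn.le
    unfold cG
    linarith
  · rw [ls k, l's k]
    have e8 : (2:ℝ) ^ (d * n) / 2 ^ (2 * c * n) = 1 / 2 ^ (q * n) := by
      rw [eq2]
      field_simp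
    rw [e8]
    have g := abs_sub_le (W.s0 n d (N d).τ k) (W.s0 n q (N q).τ k) (W.s0 n c (N' c).τ k)
    have g' := d3 k
    rw [abs_sub_comm] at g'
    have e9 : C * K / 2 ^ (q * n) + C * K / 2 ^ (q * n) = 2 * (C * K) * (1 / 2 ^ (q * n)) := by ring
    have g3 : |W.s0 n d (N d).τ k - W.s0 n c (N' c).τ k| ≤ 2 * (C * K) * (1 / 2 ^ (q * n)) := by
      rw [← e9]
      exact g.trans (add_le_add (d2 k) g')
    refine g3.trans (mul_le_mul_of_nonneg_right ?_ (by positivity))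
    unfold cG
    linarith
  · -- the adapted coordinate
    have t1 := h.pw_top hs hh1 hcd hd2 hdK hw
    have t2 := h'.pw_near hs (le_refl c) hcd hd2 hcK hw
    have ph : (0:ℝ) < 2 ^ (s.h * n) := by positivity
    rw [← hq, ← htc, ← htd] at t1
    rw [← hq, ← eq, ← ew] at t2
    have et' : tm n c (bb (N' c)) = tc := by
      rw [htc]
      unfold tm bb
      rw [eT]
    rw [et', ← hy'] at t2
    set Wq : Fin 2 → ℝ := W.s0 n q (N q).τ with hWq
    set Wd : Fin 2 → ℝ := W.s0 n d (N d).τ with hWd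
    set Wc : Fin 2 → ℝ := W.s0 n c (N' c).τ with hWc
    set G1 := (N d).w * 2 ^ (s.h * n) + ∑ k, (ps n d (bb (N d)) k + (tc - td) * Wd k) * (Wd k - Wq k) -
      tc * (∑ k, (Wd k ^ 2 - Wq k ^ 2)) / 2 with hG1
    have t1' : |(wsg n s.h c d (N c) : ℝ) * 2 ^ (s.h * n) - G1| ≤ cw C K * 2 ^ (s.h * n) := by
      have e10 : (wsg n s.h c d (N c) : ℝ) * 2 ^ (s.h * n) - G1 =
          ((wsg n s.h c d (N c) : ℝ) - G1 / 2 ^ (s.h * n)) * 2 ^ (s.h * n) := by
        field_simp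
      rw [e10, abs_mul, abs_of_pos ph]
      exact mul_le_mul_of_nonneg_right t1 ph.le
    set G2 := zz n s.h c y' tc (N' c) - ∑ k, y' k * Wq k + tc * (∑ k, Wq k ^ 2) / 2 with hG2
    have key : (bl a ((ray s n d (N d)).up x) (tb a (N c).T)).z +
        ∑ k, (bl a ((ray s n d (N d)).up x) (tb a (N c).T)).y k *
          ((bl a ((ray s n d (N d)).up x) (tb a (N c).T)).s k - (ray s n c (N' c)).s k) - (ray s n c (N' c)).z =
        (-((wsg n s.h c d (N c) : ℝ) * 2 ^ (s.h * n) - G1) + ((wsg n s.h c d (N c) : ℝ) * 2 ^ (s.h * n) - G2) +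
          -∑ k, (Z k - y' k) * (Wc k - Wq k)) / 2 ^ (2 * c * n) + 2 ^ a * x := by
      rw [lz, l'z]
      simp only [Fin.sum_univ_two, ly, ls, l's, hG1, hG2, zz, hZ]
      rw [← hWc]
      field_simp
      ring
    rw [key]
    have hnh : (2:ℝ) ^ a ≤ 2 ^ (s.h * n) := by
      rw [ha]
      exact pow_le_pow_right₀ (by norm_num) (Nat.mul_le_mul_right n hw)
    have s1 : ∀ k, |(Z k - y' k) * (Wc k - Wq k)| ≤ (((C + 2) * K + 1) * (C * K)) * 2 ^ (s.h * n) := by
      intro k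
      rw [abs_mul]
      calc |Z k - y' k| * |Wc k - Wq k| ≤ ((C + 2) * K + 1) * 2 ^ (d * n) * (C * K / 2 ^ (q * n)) :=
            mul_le_mul (d1 k) (d3 k) (abs_nonneg _) (by positivity)
        _ = ((C + 2) * K + 1) * (C * K) * 2 ^ a := by
            rw [eq1]
            field_simp
        _ ≤ _ := mul_le_mul_of_nonneg_left hnh (by positivity)
    have s2 : |∑ k, (Z k - y' k) * (Wc k - Wq k)| ≤ 2 * (((C + 2) * K + 1) * (C * K)) * 2 ^ (s.h * n) := by
      rw [Fin.sum_univ_two]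
      have := (abs_add_le _ _).trans (add_le_add (s1 0) (s1 1))
      linarith
    have s3 : |2 ^ a * x| ≤ hh n s.h c := by
      rw [abs_of_nonneg (by positivity)]
      have : 2 ^ a * hh n s.h d = hh n s.h c := by
        unfold hh
        rw [ea]
        field_simp
      rw [← this]
      exact mul_le_mul_of_nonneg_left hx pa.le
    have s4 : |(-((wsg n s.h c d (N c) : ℝ) * 2 ^ (s.h * n) - G1) + ((wsg n s.h c d (N c) : ℝ) * 2 ^ (s.h * n) - G2) +
          -∑ k, (Z k - y' k) * (Wc k - Wq k)) / 2 ^ (2 * c * n)| ≤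
        (cw C K + (1 + 2 * (((C + 2) * K + 1) * (C * K) + (C * K) ^ 2)) + 2 * (((C + 2) * K + 1) * (C * K))) *
          hh n s.h c := by
      rw [abs_div, abs_of_pos pC]
      unfold hh
      rw [mul_div_assoc']
      refine div_le_div_of_nonneg_right ?_ pC.le
      refine (abs_add_three _ _ _).trans ?_
      rw [abs_neg, abs_neg]
      linarith
    refine (abs_add_le _ _).trans ((add_le_add s4 s3).trans ?_)
    have hhp : 0 ≤ hh n s.h c := by
      unfold hh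
      positivity
    have e11 : (cw C K + (1 + 2 * (((C + 2) * K + 1) * (C * K) + (C * K) ^ 2)) + 2 * (((C + 2) * K + 1) * (C * K))) *
        hh n s.h c + hh n s.h c = (cw C K + (1 + 2 * (((C + 2) * K + 1) * (C * K) + (C * K) ^ 2)) +
          2 * (((C + 2) * K + 1) * (C * K)) + 1) * hh n s.h c := by ring
    rw [e11]
    refine mul_le_mul_of_nonneg_right ?_ hhp
    unfold cG
    linarith

/-- **geometry** of two flags with the same piece -/
theorem pGeo : PGeo := by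
  intro K F c d hK hc hcd hd2 hdK hw
  have hcK := hcd.trans hdK
  have hC := Chn.C_nonneg (slp' (F.slp 0))
  refine ⟨max 1 (cG F.C K), le_max_left _ _, fun i ω ω' hω hω' e => ?_⟩
  have c1 := cn F i ω hω
  have c2 := cn F i ω' hω'
  have hw' : 2 * (d - c) ≤ (F.s i).h := by
    rw [F.hs i]
    exact hw
  have eτ : (F.N (2 * c - d) i ω).τ = (F.N (2 * c - d) i ω').τ := by
    rw [← sig_cap F hcd hd2 hcK hω, ← sig_cap F hcd hd2 hcK hω', e]
  have eo : ∀ k, (F.N c i ω).o k / 2 ^ ((d - c) * F.n i) = (F.N c i ω').o k / 2 ^ ((d - c) * F.n i) := fun k => by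
    rw [← sig_o, ← sig_o, e]
  have eT : (F.N c i ω).T = (F.N c i ω').T := by
    rw [← sig_T F c d, ← sig_T F c d, e]
  have ew : wsg (F.n i) (F.s i).h c d (F.N c i ω) = wsg (F.n i) (F.s i).h c d (F.N c i ω') := by
    rw [← sig_w, ← sig_w, e]
  refine ⟨c1.chn.T_eq hcd hdK, fun x hx0 hx => ?_⟩
  have hx' : x ≤ hh (F.n i) (F.s i).h d := by
    rw [F.hs i]
    exact hx
  obtain ⟨g1, g2, g3⟩ := geo c1 c2 (F.slp i) (one_le_sh F i) hcd hd2 hdK hw' eτ eo eT ew x hx0 hx'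
  have hp : (0:ℝ) ≤ 2 ^ (d * F.n i) / 2 ^ (2 * c * F.n i) := by positivity
  have hhp : 0 ≤ hh (F.n i) (F.s i).h c := by
    unfold hh
    positivity
  refine ⟨fun k => (g1 k).trans (mul_le_mul_of_nonneg_right (le_max_right _ _) hp),
    fun k => (g2 k).trans (mul_le_mul_of_nonneg_right (le_max_right _ _) hp), ?_⟩
  have g4 := g3.trans (mul_le_mul_of_nonneg_right (le_max_right 1 (cG F.C K)) hhp)
  rw [F.hs i] at g4
  exact g4

end Vale.Agent.P106.K
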