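import Vale.Agent.P106.K.Blocks2
import Vale.Agent.P106.K.Geo
import Vale.Agent.P106.R.E.Tame
import Vale.Agent.P106.R.E3.E3
import Vale.Agent.P127.U.FillB

/-!
# P106 / K : from the finite step to the Kakeya step of the framework (helper471)

`e4_of_fin {N : ℝ} : PFin N → R.E.E4 N`.
-/

set_option autoImplicit false

namespace Vale.Agent.P106.K

open Filter Topology Finset Vale.Agent.P127 Vale.Agent.P127.Stk Vale.Agent.P127.U Vale.Agent.P127.U.Sys
open Vale.Agent.P106.W (Cbx hh)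
open Vale.Agent.P122.C2 (fn Z2 Cap)
open Vale.Agent.P106.R.C2 (Nd Sl coneSl Slp)
open Vale.Agent.P106.R.E
open Vale.Agent.P127.U.Fi

section

variable {K : ℕ} (F : Flg K)

/-- the excess is bounded -/
theorem exc_bddAbove (hK : 1 ≤ K) {d : ℕ} (hd : d ≤ K) :
    BddAbove {v | ∃ (S' : Sys) (ex : Ext S' F.S) (W : S'.RV Cbx), F.InW ex d d W ∧
      v = S'.hc (ex.pull (F.N d)) (Sys.pr W (ex.pull (F.ball d))) - S'.av (F.lv d W)} := by
  refine ⟨F.S.h (F.N d), ?_⟩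
  rintro v ⟨S', ex, W, hW, rfl⟩
  have tN : Tame (F.N d) := Flg.tame_N F hK hd
  have h1 := hc_le_h (ex.tame tN) (Sys.pr W (ex.pull (F.ball d)))
  have h2 : S'.h (ex.pull (F.N d)) = F.S.h (F.N d) := ex.h _
  have h3 : 0 ≤ S'.av (F.lv d W) := by
    refine const_le_ulim (UB.av (R.E3.lv_OL F hd ex W hW)) ?_
    filter_upwards [R.E3.lv_bd F hd ex W hW, S'.L_pos] with i hi hL
    refine div_nonneg ?_ (Nat.cast_nonneg _)
    have := (S'.P i).ex_mono (f := fun _ => (0:ℝ)) (g := F.lv d W i) fun ω hω => (hi ω hω).1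
    rwa [(S'.P i).ex_const] at this
  linarith

/-- the value of a random box is at most the excess -/
theorem le_exc (hK : 1 ≤ K) {d : ℕ} (hd : d ≤ K) {S' : Sys} (ex : Ext S' F.S) (W : S'.RV Cbx)
    (hW : F.InW ex d d W) :
    S'.hc (ex.pull (F.N d)) (Sys.pr W (ex.pull (F.ball d))) - S'.av (F.lv d W) ≤ F.exc d :=
  le_csSup (exc_bddAbove F hK hd) ⟨S', ex, W, hW, rfl⟩

/-- size of the volumes of the boxes which contain pieces -/
theorem bvol_bd {s : Sl} {n c d : ℕ} (hcd : c ≤ d) {B : Cbx} (h : Okb s n c d B) :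
    1 ≤ bvol s n c B ∧ bvol s n c B ≤ 2 ^ (4 * c * n) := by
  have hr : (2 : ℝ) ^ (c * n) / 2 ^ (2 * c * n) = (1 / 2 : ℝ) ^ (c * n) := by
    have : 2 * c * n = c * n + c * n := by ring
    rw [this, pow_add, one_div, inv_pow]
    field_simp
  have h' : Okb s n c c B := by
    refine ⟨?_, h.u12, h.u2, h.α2, h.κ2, h.αH, h.κH⟩
    refine le_trans ?_ h.r1
    have : (2:ℝ) ^ (c * n) ≤ 2 ^ (d * n) :=
      pow_le_pow_right₀ (by norm_num) (Nat.mul_le_mul_right n hcd)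
    gcongr
  exact ⟨R.E3.one_le_bvol h', R.E3.bvol_le h'⟩

theorem lv_ol {c d : ℕ} (hcd : c ≤ d) (hdK : d ≤ K) {S' : Sys} (ex : Ext S' F.S) (W : S'.RV Cbx)
    (h : F.InW ex c d W) : Sys.OL (S := S') (F.lv c W) := by
  refine ⟨4, ?_⟩
  filter_upwards [h] with i hi ω hω
  obtain ⟨h1, -⟩ := hi ω hω
  obtain ⟨g1, g2⟩ := bvol_bd hcd h1
  have g3 : 0 < bvol (F.s i) (F.n i) c (W i ω) := by linarith
  unfold Flg.lv
  rw [abs_of_nonneg (Real.logb_nonneg (by norm_num) g1)]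
  rw [Real.logb_le_iff_le_rpow (by norm_num) g3]
  refine g2.trans ?_
  rw [← Real.rpow_natCast]
  refine Real.rpow_le_rpow_of_exponent_le (by norm_num) ?_
  have e : S'.L i = K * F.n i := by rw [ex.L_eq]; exact F.L_eq i
  rw [e]
  push_cast
  have hc' : (c : ℝ) ≤ K := by exact_mod_cast hcd.trans hdK
  have hn : (0 : ℝ) ≤ F.n i := Nat.cast_nonneg _
  nlinarith [mul_le_mul_of_nonneg_right hc' hn]

end

/-- one level of the system -/
theorem fin_step {N : ℝ} (hN : PFin N) {K : ℕ} (F : Flg K) {c d : ℕ} (hK : 1 ≤ K) (hc : 1 ≤ c) (hcd : c ≤ d)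
    (hd : d ≤ 2 * c) (hdK : d ≤ K) (hw : 2 * (d - c) ≤ F.h) {ε : ℝ} (hε : 0 < ε) :
    ∃ Kc : ℝ, ∀ (S' : Sys) (ex : Ext S' F.S) (W' : S'.RV Cbx) (i : ℕ),
      (∀ ω, 0 < (S'.P i).w ω → Okb (F.s i) (F.n i) c d (W' i ω) ∧
        InP (F.s i) (F.n i) c (W' i ω) (ex.pull (F.N c) i ω)) →
      ∃ (Ω' : Type) (_ : Fintype Ω') (P' : Law Ω') (π : Ω' → S'.Ω i) (W₂ : Ω' → Cbx),
        (∀ ω, P'.pr π ω = (S'.P i).w ω) ∧
        (∀ ω, 0 < P'.w ω → Okb (F.s i) (F.n i) d d (W₂ ω) ∧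
          InP (F.s i) (F.n i) d (W₂ ω) (F.N d i (ex.π i (π ω)))) ∧
        Stk.hc (S'.P i) (ex.pull (F.N d) i) (ex.pull (F.sig c d) i) +
            Stk.hc (S'.P i) (ex.pull (F.sig c d) i) (Sys.pr W' (ex.pull (F.ball c)) i) -
            Stk.hc (S'.P i) (ex.pull (F.sig c d) i) (Sys.pr (ex.pull (F.T c)) (ex.pull (F.N d)) i) +
            ((2 * (d - c) * F.n i : ℕ) : ℝ) * Real.log 2 - Real.log 2 * (S'.P i).ex (F.lv c W' i) ≤
          ε * ((d * F.n i : ℕ) : ℝ) * Real.log 2 + Kc +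
          (Stk.hc P' (fun ω => F.N d i (ex.π i (π ω))) (fun ω => (W₂ ω, (F.N d i (ex.π i (π ω))).T)) -
            Real.log 2 * P'.ex (fun ω => Real.logb 2 (bvol (F.s i) (F.n i) d (W₂ ω)))) +
          N * (((2 * (d - c) * F.n i : ℕ) : ℝ) * Real.log 2 -
            Stk.hc (S'.P i) (ex.pull (F.T c) i) (ex.pull (F.N d) i)) := by
  obtain ⟨A, hA, hgeo⟩ := pGeo F c d hK hc hcd hd hdK hw
  obtain ⟨Kc, hKc⟩ := hN A ε hA hε
  refine ⟨Kc, fun S' ex W' i hi => ?_⟩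
  have hcone : F.s i = coneSl (F.n i) F.h := by
    have h1 := (F.slp i).cone
    rw [F.hs i] at h1
    exact h1
  have hlog : Real.log 2 ≠ 0 := (Real.log_pos (by norm_num)).ne'
  obtain ⟨Ω', hΩ, P', π, W₂, a1, a2, a3⟩ := hKc (S'.Ω i) (S'.P i) (F.n i) F.h c d (ex.pull (F.N d) i)
    (ex.pull (F.T c) i) (ex.pull (F.sig c d) i) (W' i) (fun ω => ray (F.s i) (F.n i) c (F.N c i (ex.π i ω)))
    hcd hd hw
    (fun ω hω => (R.SIG.cn F i _ (ex.w_pos i hω)).cap d hdK)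
    (fun ω hω => (hgeo i _ _ (ex.w_pos i hω) (ex.w_pos i hω) rfl).1)
    (fun ω ω' hω hω' e => (congrArg Nd.T e : (F.sig c d i (ex.π i ω)).T = (F.sig c d i (ex.π i ω')).T))
    (fun ω ω' hω hω' e x hx0 hx => by
      have h1 := (hgeo i _ _ (ex.w_pos i hω) (ex.w_pos i hω') e).2 x hx0 hx
      rw [hcone] at h1 ⊢
      exact h1)
    (fun ω hω => by
      obtain ⟨h1, h2⟩ := hi ω hω
      unfold Okb at h1
      unfold InP at h2
      rw [F.hs i] at h1 h2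
      exact ⟨h1, h2⟩)
  refine ⟨Ω', hΩ, P', π, W₂, a1, fun ω hω => ?_, ?_⟩
  · obtain ⟨h1, h2⟩ := a2 ω hω
    rw [← hcone] at h2
    unfold Okb InP
    rw [F.hs i]
    exact ⟨h1, h2⟩
  · have e1 : (S'.P i).ex (fun ω => Real.log ((W' i ω).vol ((1 / 2 : ℝ) ^ (c * F.n i)) (hh (F.n i) F.h c))) =
        Real.log 2 * (S'.P i).ex (F.lv c W' i) := by
      rw [← (S'.P i).ex_const_mul]
      refine congrArg _ (funext fun ω => ?_)
      unfold Flg.lv bvol Real.logb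
      rw [F.hs i]
      field_simp
    have e2 : P'.ex (fun ω => Real.log ((W₂ ω).vol ((1 / 2 : ℝ) ^ (d * F.n i)) (hh (F.n i) F.h d))) =
        Real.log 2 * P'.ex (fun ω => Real.logb 2 (bvol (F.s i) (F.n i) d (W₂ ω))) := by
      rw [← P'.ex_const_mul]
      refine congrArg _ (funext fun ω => ?_)
      unfold bvol Real.logb
      rw [F.hs i]
      field_simp
    rw [e1, e2] at a3
    exact a3

/-- exchange of two variables -/
theorem h_swp {S : Sys} {α β : Type*} {X : S.RV α} {Y : S.RV β} (hX : Tame X) (hY : Tame Y) :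
    S.h X + S.hc Y X = S.h Y + S.hc X Y := by
  have h1 := mi_comm hX hY (one (S := S))
  have h2 : S.hc X (Sys.pr Y (one (S := S))) = S.hc X Y := hc_one_right
  have h3 : S.hc Y (Sys.pr X (one (S := S))) = S.hc Y X := hc_one_right
  have h4 : S.h X = S.hc X (one (S := S)) := rfl
  have h5 : S.h Y = S.hc Y (one (S := S)) := rfl
  unfold Sys.mi at h1
  linarith

/-- division by the scale -/
theorem div_alg {K l a1 a2 a3 v b1 v' b2 ε Kc N : ℝ} {c d n : ℕ} (hK : 0 < K) (hm : 0 < (n:ℝ)) (hl : 0 < l) (hcd : c ≤ d)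
    (h : a1 + a2 - a3 + ((2 * (d - c) * n : ℕ) : ℝ) * l - l * v ≤
      ε * ((d * n : ℕ) : ℝ) * l + Kc + (b1 - l * v') + N * (((2 * (d - c) * n : ℕ) : ℝ) * l - b2)) :
    a1 / (K * n * l) + a2 / (K * n * l) - a3 / (K * n * l) + 2 * ((d:ℝ) - c) / K - v / (K * n) ≤
      ε * d / K + (b1 / (K * n * l) - v' / (K * n)) + N * (2 * ((d:ℝ) - c) / K - b2 / (K * n * l)) +
        Kc / (K * n * l) := by
  have h0 : (0:ℝ) < K * n * l := by positivity
  have h1 := div_le_div_of_nonneg_right h h0.le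
  push_cast [Nat.cast_sub hcd] at h1
  refine le_trans (le_of_eq ?_) (h1.trans (le_of_eq ?_))
  · field_simp
  · field_simp
    ring

/-- **the Kakeya step of the framework from the finite step** -/
theorem e4_of_fin {N : ℝ} (hN : PFin N) : E4 N := by
  classical
  intro K F c d hK hc hcd hd hdK hw S' ex W' hW'
  have hcK : c ≤ K := hcd.trans hdK
  have hKpos : (0:ℝ) < K := by exact_mod_cast hK
  have hlog : (0:ℝ) < Real.log 2 := Real.log_pos (by norm_num)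
  have tN : Tame (F.N d) := Flg.tame_N F hK hdK
  have tsig : Tame (F.sig c d) := Flg.tame_sig F hK hcK d
  have tT : Tame (F.T c) := Flg.tame_T F hK hcK
  refine le_of_forall_pos_le_add fun ε hε => ?_
  obtain ⟨Kc, hKc⟩ := fin_step hN F hK hc hcd hd hdK hw hε
  -- the extension
  have hex : ∀ i, ∃ (Ω' : Type) (_ : Fintype Ω') (P' : Law Ω') (π : Ω' → S'.Ω i) (W₂ : Ω' → Cbx),
      (∀ ω, P'.pr π ω = (S'.P i).w ω) ∧
      ((∀ ω, 0 < (S'.P i).w ω → Okb (F.s i) (F.n i) c d (W' i ω) ∧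
        InP (F.s i) (F.n i) c (W' i ω) (ex.pull (F.N c) i ω)) →
        (∀ ω, 0 < P'.w ω → Okb (F.s i) (F.n i) d d (W₂ ω) ∧
          InP (F.s i) (F.n i) d (W₂ ω) (F.N d i (ex.π i (π ω)))) ∧
        Stk.hc (S'.P i) (ex.pull (F.N d) i) (ex.pull (F.sig c d) i) +
            Stk.hc (S'.P i) (ex.pull (F.sig c d) i) (Sys.pr W' (ex.pull (F.ball c)) i) -
            Stk.hc (S'.P i) (ex.pull (F.sig c d) i) (Sys.pr (ex.pull (F.T c)) (ex.pull (F.N d)) i) +
            ((2 * (d - c) * F.n i : ℕ) : ℝ) * Real.log 2 - Real.log 2 * (S'.P i).ex (F.lv c W' i) ≤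
          ε * ((d * F.n i : ℕ) : ℝ) * Real.log 2 + Kc +
          (Stk.hc P' (fun ω => F.N d i (ex.π i (π ω))) (fun ω => (W₂ ω, (F.N d i (ex.π i (π ω))).T)) -
            Real.log 2 * P'.ex (fun ω => Real.logb 2 (bvol (F.s i) (F.n i) d (W₂ ω)))) +
          N * (((2 * (d - c) * F.n i : ℕ) : ℝ) * Real.log 2 -
            Stk.hc (S'.P i) (ex.pull (F.T c) i) (ex.pull (F.N d) i))) := by
    intro i
    by_cases hi : ∀ ω, 0 < (S'.P i).w ω → Okb (F.s i) (F.n i) c d (W' i ω) ∧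
        InP (F.s i) (F.n i) c (W' i ω) (ex.pull (F.N c) i ω)
    · obtain ⟨Ω', hΩ, P', π, W₂, a1, a2, a3⟩ := hKc S' ex W' i hi
      exact ⟨Ω', hΩ, P', π, W₂, a1, fun _ => ⟨a2, a3⟩⟩
    · exact ⟨S'.Ω i, inferInstance, S'.P i, fun ω => ω, W' i, fun ω => Stk.pr_id (S'.P i) ω, fun h => absurd h hi⟩
  choose Ω' hΩ P' π W₂ b1 b2 using hex
  let S₂ : Sys := ⟨Ω', hΩ, P', S'.L, S'.Ltop⟩
  let ex₂ : Ext S₂ S' := ⟨π, rfl, b1⟩
  let e₂ : Ext S₂ F.S := ex₂.comp ex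
  have hW₂ : F.InW e₂ d d W₂ := by
    filter_upwards [hW'] with i hi
    exact (b2 i hi).1
  have k1 := le_exc F hK hdK e₂ W₂ hW₂
  -- division by the scale
  have hL : ∀ i, (S'.L i : ℝ) = K * F.n i := fun i => by
    rw [ex.L_eq, F.L_eq i]
    push_cast
    rfl
  have hdc : ((2 * (d - c) : ℕ) : ℝ) = 2 * ((d:ℝ) - c) := by
    push_cast [Nat.cast_sub hcd]
    ring
  have u1 : UB fun i => Stk.hc (S'.P i) (ex.pull (F.N d) i) (ex.pull (F.sig c d) i) / S'.nm i :=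
    UB.hc (ex.tame tN) _
  have u2 : UB fun i => Stk.hc (S'.P i) (ex.pull (F.sig c d) i) (Sys.pr W' (ex.pull (F.ball c)) i) / S'.nm i :=
    UB.hc (ex.tame tsig) _
  have u3 : UB fun i => Stk.hc (S'.P i) (ex.pull (F.sig c d) i)
      (Sys.pr (ex.pull (F.T c)) (ex.pull (F.N d)) i) / S'.nm i := UB.hc (ex.tame tsig) _
  have u4 : UB fun i => (S'.P i).ex (F.lv c W' i) / S'.L i := UB.av (lv_ol F hcd hdK ex W' hW')
  have u5 : UB fun i => Stk.hc (S₂.P i) (e₂.pull (F.N d) i) (Sys.pr W₂ (e₂.pull (F.ball d)) i) / S₂.nm i :=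
    UB.hc (e₂.tame tN) _
  have u6 : UB fun i => (S₂.P i).ex (F.lv d W₂ i) / S₂.L i := UB.av (R.E3.lv_OL F hdK e₂ W₂ hW₂)
  have u7 : UB fun i => Stk.hc (S'.P i) (ex.pull (F.T c) i) (ex.pull (F.N d) i) / S'.nm i := UB.hc (ex.tame tT) _
  have c1 := UB.const (2 * ((d:ℝ) - c) / K)
  have c2 := UB.const (ε * d / K)
  have key := ulim_le_of_sub ((((u1.add u2).sub u3).add c1).sub u4)
    ((c2.add (u5.sub u6)).add ((c1.sub u7).const_mul N)) (S'.const_div_nm Kc) (by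
      filter_upwards [hW', S'.nm_pos, S'.L_pos] with i hi hnm hLp
      have h1 := (b2 i hi).2
      have hLp' : (0:ℝ) < S'.L i := by exact_mod_cast hLp
      have hm : (0:ℝ) < F.n i := by
        rw [hL i] at hLp'
        exact (mul_pos_iff_of_pos_left hKpos).1 hLp'
      have e1 : S₂.nm i = K * F.n i * Real.log 2 := by
        show (S'.L i : ℝ) * Real.log 2 = _
        rw [hL i]
      have e2 : (S₂.L i : ℝ) = K * F.n i := hL i
      have e3 : S'.nm i = K * F.n i * Real.log 2 := e1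
      have e4 : Stk.hc (P' i) (fun ω => F.N d i (ex.π i (π i ω))) (fun ω => (W₂ i ω, (F.N d i (ex.π i (π i ω))).T)) =
        Stk.hc (S₂.P i) (e₂.pull (F.N d) i) (Sys.pr W₂ (e₂.pull (F.ball d)) i) := rfl
      have e5 : (P' i).ex (fun ω => Real.logb 2 (bvol (F.s i) (F.n i) d (W₂ i ω))) =
        (S₂.P i).ex (F.lv d W₂ i) := rfl
      rw [e4, e5] at h1
      rw [e1, e2, e3]
      exact div_alg hKpos hm hlog hcd h1)
  have r1 := ulim_sub (((u1.add u2).sub u3).add c1) u4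
  have r2 := ulim_add ((u1.add u2).sub u3) c1
  have r3 := ulim_sub (u1.add u2) u3
  have r4 := ulim_add u1 u2
  have r5 := ulim_add (c2.add (u5.sub u6)) ((c1.sub u7).const_mul N)
  have r6 := ulim_add c2 (u5.sub u6)
  have r7 := ulim_sub u5 u6
  have r8 := ulim_const_mul N (c1.sub u7)
  have r9 := ulim_sub c1 u7
  rw [r1, r2, r3, r4, r5, r6, r7, r8, r9, ulim_const, ulim_const] at key
  have s1 : ulim (fun i => Stk.hc (S'.P i) (ex.pull (F.N d) i) (ex.pull (F.sig c d) i) / S'.nm i) =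
    F.S.hc (F.N d) (F.sig c d) := ex.hc _ _
  have s2 : ulim (fun i => Stk.hc (S'.P i) (ex.pull (F.sig c d) i) (Sys.pr W' (ex.pull (F.ball c)) i) / S'.nm i) =
    S'.hc (ex.pull (F.sig c d)) (Sys.pr W' (ex.pull (F.ball c))) := rfl
  have s3 : ulim (fun i => Stk.hc (S'.P i) (ex.pull (F.sig c d) i)
      (Sys.pr (ex.pull (F.T c)) (ex.pull (F.N d)) i) / S'.nm i) = 0 :=
    (ex.hc (F.sig c d) (Sys.pr (F.T c) (F.N d))).trans (R.SIG.sig_TN F hcd hd hdK hw)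
  have s4 : ulim (fun i => (S'.P i).ex (F.lv c W' i) / S'.L i) = S'.av (F.lv c W') := rfl
  have s5 : ulim (fun i => Stk.hc (S₂.P i) (e₂.pull (F.N d) i) (Sys.pr W₂ (e₂.pull (F.ball d)) i) / S₂.nm i) =
    S₂.hc (e₂.pull (F.N d)) (Sys.pr W₂ (e₂.pull (F.ball d))) := rfl
  have s6 : ulim (fun i => (S₂.P i).ex (F.lv d W₂ i) / S₂.L i) = S₂.av (F.lv d W₂) := rfl
  have s7 : ulim (fun i => Stk.hc (S'.P i) (ex.pull (F.T c) i) (ex.pull (F.N d) i) / S'.nm i) =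
    F.S.hc (F.T c) (F.N d) := ex.hc _ _
  rw [s1, s2, s3, s4, s5, s6, s7] at key
  -- algebra
  have k4 : F.S.hc (F.sig c d) (F.N d) = F.S.hc (F.T c) (F.N d) :=
    hc_eq_of_zero tsig tT
      (by
        refine hc_zero_mono tsig (R.SIG.sig_TN F hcd hd hdK hw) (Eventually.of_forall fun _ _ _ _ _ e => e))
      (hc_fn ((R.SIG.fn_T_sig F c d).mono fun i hi ω ω' hω hω' e => hi ω ω' hω hω' (congrArg Prod.fst e)))
  have k5 := h_swp tN tsig
  have k6 : F.S.h (F.N d) = F.S.hc (F.N d) (one (S := F.S)) := rfl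
  have k7 : F.S.h (F.sig c d) = F.S.hc (F.sig c d) (one (S := F.S)) := rfl
  have k8 : F.D c d = 2 * ((d : ℝ) - c) / K - F.S.hc (F.T c) (F.N d) := rfl
  rw [k6, k7, k4] at k5
  rw [k8]
  have e1 : 4 * (d:ℝ) / K = 4 * c / K + 2 * (2 * ((d:ℝ) - c) / K) := by
    field_simp
    ring
  have e2 : ε * d / K ≤ ε := by
    rw [div_le_iff₀ hKpos]
    exact mul_le_mul_of_nonneg_left (by exact_mod_cast hdK) hε.le
  rw [e1]
  set D2 := 2 * ((d:ℝ) - c) / K
  linarith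

end Vale.Agent.P106.K
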