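import Vale.Agent.P106.K.Blocks2
import Vale.Agent.P127.S.Copy
import Vale.Agent.P127.Stk.BaseA
import Vale.Agent.P106.R.E3.E3

/-!
# P106 / K : entropies of the finite step (helper357)
-/

set_option autoImplicit false

namespace Vale.Agent.P106.K

open Finset Vale.Agent.P127 Vale.Agent.P127.Stk Vale.Agent.P127.U
open Vale.Agent.P127.S (copyLaw copyLaw_fst copyLaw_snd copy_supp copy_indep copy_hc_snd)

section ent

variable {Ω : Type} [Fintype Ω] {α β γ δ ε ζ : Type*}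

/-- two copies given the piece -/
theorem ent_copy (P : Law Ω) (S : Ω → α) (sg : Ω → β) (T : Ω → γ) (W : Ω → δ) (hT : Stk.Fn P T sg) :
    Stk.hc P S sg + Stk.hc P sg (fun ω => (W ω, T ω)) - Stk.hc P sg (fun ω => (T ω, S ω)) ≤
      Stk.hc (copyLaw P sg) (fun p => S p.1) (fun p => (W p.2, T p.1)) := by
  have h1 : Stk.hc (copyLaw P sg) (fun p => S p.1) (fun p => (sg p.1, (W p.2, T p.1))) = Stk.hc P S sg := by
    rw [← copy_indep P sg S W]
    refine hc_congr _ (fun _ _ _ _ e => congrArg Prod.fst e) (fun _ _ _ _ e => congrArg Prod.fst e) ?_ ?_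
    · intro p p' h1 h2 e
      simp only [Prod.mk.injEq] at e ⊢
      have h3 := copy_supp P sg h1
      have h4 := copy_supp P sg h2
      exact ⟨e.2, e.1, hT _ _ h3.1 h4.1 e.2⟩
    · intro p p' h1 h2 e
      simp only [Prod.mk.injEq] at e ⊢
      exact ⟨e.2.1, e.1⟩
  have h2 : Stk.hc (copyLaw P sg) (fun p => sg p.1) (fun p => (W p.2, T p.1)) = Stk.hc P sg (fun ω => (W ω, T ω)) := by
    rw [← copy_hc_snd P sg sg (fun ω => (W ω, T ω))]
    refine hc_congr _ ?_ ?_ ?_ ?_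
    · intro p p' h1 h2 e
      simp only [Prod.mk.injEq] at e ⊢
      rw [← (copy_supp P sg h1).2.2, ← (copy_supp P sg h2).2.2]
      exact e.1
    · intro p p' h1 h2 e
      simp only [Prod.mk.injEq] at e ⊢
      rw [(copy_supp P sg h1).2.2, (copy_supp P sg h2).2.2]
      exact e.1
    · intro p p' h1 h2 e
      simp only [Prod.mk.injEq] at e ⊢
      have h3 := copy_supp P sg h1
      have h4 := copy_supp P sg h2
      rw [← hT _ _ h3.2.1 h3.1 h3.2.2, ← hT _ _ h4.2.1 h4.1 h4.2.2]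
      exact e
    · intro p p' h1 h2 e
      simp only [Prod.mk.injEq] at e ⊢
      have h3 := copy_supp P sg h1
      have h4 := copy_supp P sg h2
      rw [hT _ _ h3.2.1 h3.1 h3.2.2, hT _ _ h4.2.1 h4.1 h4.2.2]
      exact e
  have h3 : Stk.hc (copyLaw P sg) (fun p => sg p.1) (fun p => (T p.1, S p.1)) = Stk.hc P sg (fun ω => (T ω, S ω)) :=
    hc_of_law (copyLaw P sg) P Prod.fst (copyLaw_fst P sg) sg (fun ω => (T ω, S ω))
  have h4 := hc_pair (copyLaw P sg) (fun p => sg p.1) (fun p => S p.1) (fun p => (W p.2, T p.1))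
  have h5 := hc_le_add (copyLaw P sg) (fun p => (sg p.1, S p.1)) (fun p => S p.1) (fun p => (W p.2, T p.1))
  have h6 : Stk.hc (copyLaw P sg) (fun p => (sg p.1, S p.1)) (fun p => (S p.1, (W p.2, T p.1))) ≤
      Stk.hc (copyLaw P sg) (fun p => sg p.1) (fun p => (S p.1, (W p.2, T p.1))) := by
    refine hc_mono_left (copyLaw P sg) ?_
    intro p p' _ _ e
    have e1 : sg p.1 = sg p'.1 := congrArg Prod.fst e
    have e2 : S p.1 = S p'.1 := congrArg (fun q => q.2.1) e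
    exact Prod.ext e1 e2
  have h7 : Stk.hc (copyLaw P sg) (fun p => sg p.1) (fun p => (S p.1, (W p.2, T p.1))) ≤
      Stk.hc (copyLaw P sg) (fun p => sg p.1) (fun p => (T p.1, S p.1)) := by
    refine hc_mono_right (copyLaw P sg) (fun p => sg p.1) ?_
    intro p p' _ _ e
    have e1 : S p.1 = S p'.1 := congrArg Prod.fst e
    have e2 : T p.1 = T p'.1 := congrArg (fun q => q.2.2) e
    exact Prod.ext e2 e1
  linarith

/-- uniform index -/
theorem ent_unif (Q : Law Ω) (M : ℕ) (hM : 0 < M) (S : Ω → α) (Z : Ω → β) :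
    Stk.hc (Bs.pu Q M hM) (fun p => (S p.1, (p.2 : ℕ))) (fun p => Z p.1) = Stk.hc Q S Z + Real.log M := by
  rw [hc_pair (Bs.pu Q M hM) (fun p => S p.1) (fun p => (p.2 : ℕ)) (fun p => Z p.1), Bs.pu_hc_fst]
  congr 1
  rw [← Bs.pu_hc_snd Q M hM (fun ω => (S ω, Z ω))]
  refine hc_congr _ ?_ ?_ (fun _ _ _ _ h => h) (fun _ _ _ _ h => h)
  · intro p p' _ _ h
    have := congrArg Prod.fst h
    simp only at this ⊢
    rw [this]
  · intro p p' _ _ h
    have := congrArg Prod.fst h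
    simp only at this ⊢
    exact Fin.ext this

/-- conditioning with the uniform index -/
theorem ent_unif' (Q : Law Ω) (M : ℕ) (hM : 0 < M) (S : Ω → α) (Z : Ω → β) :
    Stk.hc (Bs.pu Q M hM) (fun p => S p.1) (fun p => (Z p.1, (p.2 : ℕ))) = Stk.hc Q S Z := by
  rw [← Bs.pu_hc_cond Q M hM S Z]
  refine hc_congr _ (fun _ _ _ _ e => congrArg Prod.fst e) (fun _ _ _ _ e => congrArg Prod.fst e) ?_ ?_
  · intro p p' _ _ h
    simp only [Prod.mk.injEq] at h ⊢
    exact ⟨h.2, by rw [h.1]⟩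
  · intro p p' _ _ h
    simp only [Prod.mk.injEq] at h ⊢
    exact ⟨Fin.ext h.2, h.1⟩

/-- change of the box -/
theorem ent_key (P : Law Ω) (X : Ω → α) (W : Ω → β) (T : Ω → γ) (key : Ω → δ) (W2 : Ω → ε) (cell : Ω → ζ)
    (hW : Stk.Fn P W2 (fun ω => (key ω, W ω))) :
    Stk.hc P X (fun ω => (W ω, T ω)) ≤
      Stk.hc P X (fun ω => (cell ω, (W2 ω, T ω))) + Stk.hc P cell (fun ω => (W2 ω, T ω)) +
        Stk.hc P key (fun ω => (W ω, T ω)) := by
  have h1 := hc_le_add' P X key (fun ω => (W ω, T ω))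
  have h2 : Stk.hc P X (fun ω => (key ω, (W ω, T ω))) ≤ Stk.hc P X (fun ω => (W2 ω, T ω)) := by
    refine hc_mono_right _ _ ?_
    intro p p' h1 h2 e
    simp only [Prod.mk.injEq] at e ⊢
    exact ⟨hW _ _ h1 h2 (Prod.ext e.1 e.2.1), e.2.2⟩
  have h3 := hc_le_add' P X cell (fun ω => (W2 ω, T ω))
  linarith

/-- counting of the keys -/
theorem ent_count {k : ℕ} (P : Law Ω) (key : Ω → ℤ × Fin k) (W : Ω → β) (T : Ω → γ) (B : Ω → ℝ) (hB : ∀ ω, 1 ≤ B ω)
    (hBW : ∀ ω ω', W ω = W ω' → B ω = B ω')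
    (h : ∀ ω, 0 < P.w ω → |((key ω).1 : ℝ)| ≤ B ω) :
    Stk.hc P key (fun ω => (W ω, T ω)) ≤ P.ex fun ω => Real.log (3 * k * B ω) := by
  classical
  refine R.E3.hc_le_exlog P key _ _ fun ω hω U hU => ?_
  have hk : 0 < k := by
    rcases Nat.eq_zero_or_pos k with h0 | h0
    · subst h0
      exact (key ω).2.elim0
    · exact h0
  have h1 : U ⊆ (Finset.Icc (-⌊B ω⌋) ⌊B ω⌋) ×ˢ (Finset.univ : Finset (Fin k)) := by
    intro x hx
    obtain ⟨ω', h1, h2, rfl⟩ := hU x hx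
    simp only [Prod.mk.injEq] at h2
    have h3 := h ω' h1
    rw [hBW _ _ h2.1] at h3
    rw [abs_le] at h3
    rw [Finset.mem_product]
    refine ⟨?_, Finset.mem_univ _⟩
    rw [Finset.mem_Icc]
    refine ⟨?_, Int.le_floor.2 h3.2⟩
    have : -(key ω').1 ≤ ⌊B ω⌋ := by
      rw [Int.le_floor]
      push_cast
      linarith
    linarith
  have h2 := Finset.card_le_card h1
  rw [Finset.card_product, Finset.card_univ, Fintype.card_fin, Int.card_Icc] at h2
  have h3 : (1 : ℤ) ≤ ⌊B ω⌋ := Int.le_floor.2 (by push_cast; exact hB ω)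
  have h4 : ((⌊B ω⌋ + 1 - -⌊B ω⌋).toNat : ℤ) = 2 * ⌊B ω⌋ + 1 := by
    rw [Int.toNat_of_nonneg (by linarith)]
    ring
  have h5 : ((⌊B ω⌋ + 1 - -⌊B ω⌋).toNat : ℝ) = 2 * ⌊B ω⌋ + 1 := by exact_mod_cast h4
  have h6 : (U.card : ℝ) ≤ ((⌊B ω⌋ + 1 - -⌊B ω⌋).toNat : ℝ) * k := by exact_mod_cast h2
  rw [h5] at h6
  refine h6.trans ?_
  have h7 := Int.floor_le (B ω)
  have h8 := hB ω
  have h9 : (0:ℝ) < k := by exact_mod_cast hk
  have h10 : 2 * (⌊B ω⌋ : ℝ) + 1 ≤ 3 * B ω := by linarith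
  calc _ ≤ 3 * B ω * k := mul_le_mul_of_nonneg_right h10 h9.le
    _ = 3 * k * B ω := by ring

end ent

end Vale.Agent.P106.K
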