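import Vale.Agent.P106.K.Blocks2

/-!
# P106 / K : volumes in the finite step (helper357)
-/

set_option autoImplicit false

namespace Vale.Agent.P106.K

open Vale.Agent.P106.W (Cbx hh)

theorem exp_add {m c d : ℕ} (hcd : c ≤ d) : 2 * (d - c) * m + 2 * c * m = 2 * (d * m) := by
  obtain ⟨e, rfl⟩ := Nat.exists_eq_add_of_le hcd
  rw [Nat.add_sub_cancel_left]
  ring

theorem exp_r {m c d : ℕ} (hcd : c ≤ d) :
    (2 : ℝ) ^ (2 * (d - c) * m) / 2 ^ (d * m) = 2 ^ (d * m) / 2 ^ (2 * c * m) := by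
  rw [div_eq_div_iff (by positivity) (by positivity), ← pow_add, ← pow_add, exp_add hcd]
  congr 1
  ring

theorem exp_H {m c d : ℕ} (hcd : c ≤ d) :
    (2 : ℝ) ^ (2 * (d - c) * m) / 2 ^ (2 * (d * m)) = 1 / 2 ^ (2 * c * m) := by
  rw [div_eq_div_iff (by positivity) (by positivity), ← pow_add, exp_add hcd, one_mul]

theorem vol_id {m h c d : ℕ} (hcd : c ≤ d) (B : Cbx) (h1 : 0 < B.u1) (h2 : 0 < B.u2) :
    max 1 (hh m h c / B.u2 ^ 2) * (B.u1 * B.u2 ^ 3 / ((2 ^ (d * m) / 2 ^ (2 * c * m)) ^ 2 *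
      (2 ^ (2 * (d - c) * m) / 2 ^ (2 * (d * m))))) * 2 ^ (2 * (d - c) * m) =
      B.vol ((1 / 2 : ℝ) ^ (c * m)) (hh m h c) * 2 ^ (h * m) := by
  have hH : 0 < hh m h c := by unfold hh; positivity
  have e1 : max 1 (hh m h c / B.u2 ^ 2) * B.u2 ^ 2 = max (B.u2 ^ 2) (hh m h c) := by
    rw [max_mul_of_nonneg _ _ (by positivity), one_mul, div_mul_cancel₀ _ (by positivity)]
  have e2 : max 1 (B.u2 ^ 2 / hh m h c) * hh m h c = max (B.u2 ^ 2) (hh m h c) := by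
    rw [max_mul_of_nonneg _ _ hH.le, one_mul, div_mul_cancel₀ _ hH.ne', max_comm]
  have e3 : (2 : ℝ) ^ (h * m) = hh m h c * 2 ^ (2 * c * m) := by
    unfold hh
    rw [div_mul_cancel₀ _ (by positivity)]
  have e4 : (2 : ℝ) ^ (2 * c * m) = (2 ^ (c * m)) ^ 2 := by
    rw [← pow_mul]
    congr 1
    ring
  have e5 : (2 : ℝ) ^ (2 * (d - c) * m) * (2 ^ (c * m)) ^ 2 = (2 ^ (d * m)) ^ 2 := by
    rw [← e4, ← pow_add, exp_add hcd, ← pow_mul]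
    congr 1
    ring
  have e6 : (2 : ℝ) ^ (2 * (d * m)) = (2 ^ (d * m)) ^ 2 := by
    rw [← pow_mul]
    congr 1
    ring
  unfold Cbx.vol
  rw [e3]
  have hX : (0:ℝ) < 2 ^ (c * m) := by positivity
  have hY : (0:ℝ) < 2 ^ (d * m) := by positivity
  have hZ : (0:ℝ) < 2 ^ (2 * (d - c) * m) := by positivity
  have e7 : B.u1 * B.u2 / ((1 / 2 : ℝ) ^ (c * m)) ^ 2 * max 1 (B.u2 ^ 2 / hh m h c) * (hh m h c * 2 ^ (2 * c * m)) =
      B.u1 * B.u2 * (2 ^ (c * m)) ^ 4 * max (B.u2 ^ 2) (hh m h c) := by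
    rw [← e2, e4, one_div, inv_pow]
    field_simp
  rw [e7, ← e1, e6, e4]
  have e8 : (2 : ℝ) ^ (2 * (d - c) * m) = (2 ^ (d * m)) ^ 2 / (2 ^ (c * m)) ^ 2 := by
    rw [← e5]
    field_simp
  rw [e8]
  field_simp

end Vale.Agent.P106.K
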