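import Vale.Agent.P106.K.Blocks
import Vale.Agent.P106.W.Cst

/-!
# P106 / K : `PPce` (helper931)

A thick strict box `B` (thickness `H`) which contains a ray `l'`; rays `l` close to `l'` are in one of
`C max(1, H / u2²)` thin strict boxes (thickness `H' ≤ r²`) of volume `≤ C u1 u2³ / (r² H')`.
-/

set_option autoImplicit false

namespace Vale.Agent.P106.K

open Vale.Agent.P106.W (Cbx)
open Vale.Agent.P122.C2 (fn fw)

/-- **pieces** of a thick box -/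
def PPce : Prop := ∀ A : ℝ, 1 ≤ A → ∃ (m : ℕ) (C : ℝ), 1 ≤ m ∧ 1 ≤ C ∧ ∀ r H H' : ℝ, 0 < H' → H' ≤ r ^ 2 → r ^ 2 ≤ H →
  0 < r → r ≤ 1 → ∃ (key : Cbx → Ry → ℤ × Fin m) (f : Cbx → ℤ × Fin m → Cbx), ∀ (B : Cbx) (l l' : Ry),
    B.ok (1 / 8) r H → B.In H l'.y l'.s l'.z → (∀ k, |l.y k - l'.y k| ≤ A * r) → (∀ k, |l.s k - l'.s k| ≤ A * r) →
    |l.z + ∑ k, l.y k * (l.s k - l'.s k) - l'.z| ≤ A * H →
    (f B (key B l)).ok (1 / 8) r H' ∧ (f B (key B l)).In H' l.y l.s l.z ∧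
      |((key B l).1 : ℝ)| ≤ C * max 1 (H / B.u2 ^ 2) ∧
      (f B (key B l)).vol r H' ≤ C * (B.u1 * B.u2 ^ 3 / (r ^ 2 * H'))

/-- `|fn θ v| ≤ |v 0| + |v 1|` -/
theorem abs_fn_le (θ : ℝ) (v : Fin 2 → ℝ) {a : ℝ} (h : ∀ k, |v k| ≤ a) : |fn θ v| ≤ 2 * a := by
  have h0 := h 0
  have h1 := h 1
  have s1 : |Real.sin θ| ≤ 1 := Real.abs_sin_le_one θ
  have s2 : |Real.cos θ| ≤ 1 := Real.abs_cos_le_one θ
  have e : fn θ v = -Real.sin θ * v 0 + Real.cos θ * v 1 := rfl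
  rw [e]
  have a0 : 0 ≤ |v 0| := abs_nonneg _
  have a1 : 0 ≤ |v 1| := abs_nonneg _
  calc |-Real.sin θ * v 0 + Real.cos θ * v 1| ≤ |-Real.sin θ * v 0| + |Real.cos θ * v 1| := abs_add_le _ _
    _ = |Real.sin θ| * |v 0| + |Real.cos θ| * |v 1| := by rw [abs_mul, abs_mul, abs_neg]
    _ ≤ 1 * |v 0| + 1 * |v 1| := by gcongr
    _ ≤ 2 * a := by linarith

theorem fn_add (θ : ℝ) (v w : Fin 2 → ℝ) : fn θ (fun k => v k + w k) = fn θ v + fn θ w := by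
  unfold fn
  ring


/-- sum of two products -/
theorem sum2_le {a b : Fin 2 → ℝ} {x y : ℝ} (hx : 0 ≤ x) (ha : ∀ k, |a k| ≤ x) (hb : ∀ k, |b k| ≤ y) :
    |∑ k, a k * b k| ≤ 2 * x * y := by
  rw [Fin.sum_univ_two]
  have f : ∀ k, |a k * b k| ≤ x * y := fun k => by
    rw [abs_mul]
    exact mul_le_mul (ha k) (hb k) (abs_nonneg _) hx
  exact (abs_add_le _ _).trans (by linarith [f 0, f 1])

section near

variable {A r H u1 u2 q : ℝ}

/-- `|κ| (A H + 2 (A r) (D u2)) ≤ (A + A D / 4) u1` -/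
theorem kH_le {D : ℝ} (hA : 1 ≤ A) (hr : 0 < r) (h1 : r ≤ u1) (hD : 0 ≤ D) (hk : |q| * u2 ≤ 1 / 8)
    (hH : |q| * H ≤ u1) : |q| * (A * H + 2 * (A * r) * (D * u2)) ≤ (A + A * D / 4) * u1 := by
  have a1 : |q| * (A * H) ≤ A * u1 := by
    calc |q| * (A * H) = A * (|q| * H) := by ring
      _ ≤ A * u1 := by gcongr
  have a2 : |q| * (2 * (A * r) * (D * u2)) ≤ A * D / 4 * u1 := by
    calc |q| * (2 * (A * r) * (D * u2)) = 2 * A * D * r * (|q| * u2) := by ring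
      _ ≤ 2 * A * D * r * (1 / 8) := by gcongr
      _ = A * D / 4 * r := by ring
      _ ≤ A * D / 4 * u1 := by gcongr
  calc _ = |q| * (A * H) + |q| * (2 * (A * r) * (D * u2)) := by ring
    _ ≤ A * u1 + A * D / 4 * u1 := add_le_add a1 a2
    _ = _ := by ring

/-- `|α| · 2 (A r) (3 A u2) ≤ A² u1` -/
theorem a2_le (hr : 0 < r) (h1 : r ≤ u1) (hk : |q| * u2 ≤ 1 / 8) :
    |q| * (2 * (A * r) * (3 * A * u2)) ≤ A ^ 2 * u1 := by
  calc |q| * (2 * (A * r) * (3 * A * u2)) = 6 * A ^ 2 * r * (|q| * u2) := by ring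
    _ ≤ 6 * A ^ 2 * r * (1 / 8) := by gcongr
    _ = 3 / 4 * (A ^ 2 * r) := by ring
    _ ≤ 1 * (A ^ 2 * r) := by gcongr; norm_num
    _ ≤ A ^ 2 * u1 := by rw [one_mul]; gcongr

end near

section near

variable {A r H : ℝ} {B : Cbx} {l l' : Ry}

theorem near_y (hA : 1 ≤ A) (hr : r ≤ B.u2) (hr0 : 0 < r) {x y p : Fin 2 → ℝ} (i1 : ∀ k, |y k - p k| ≤ B.u2)
    (h1 : ∀ k, |x k - y k| ≤ A * r) (k : Fin 2) : |x k - p k| ≤ 2 * A * B.u2 := by
  have e1 : x k - p k = (x k - y k) + (y k - p k) := by ring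
  rw [e1]
  refine (abs_add_le _ _).trans ?_
  have a3 := h1 k
  have a4 := i1 k
  have a0 : 0 ≤ B.u2 := (hr0.trans_le hr).le
  have a5 : A * r ≤ A * B.u2 := by gcongr
  have a6 : 1 * B.u2 ≤ A * B.u2 := by gcongr
  linarith

/-- the adapted coordinate with respect to the box -/
theorem near_Z (hA : 1 ≤ A) (hr : 0 < r)
    (i2 : ∀ k, |l'.s k - B.v k| ≤ B.u2) (h1 : ∀ k, |l.y k - l'.y k| ≤ A * r)
    (h3 : |l.z + ∑ k, l.y k * (l.s k - l'.s k) - l'.z| ≤ A * H) :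
    |(l.z + ∑ k, l.y k * (l.s k - B.v k) - B.ω) - (l'.z + ∑ k, l'.y k * (l'.s k - B.v k) - B.ω)| ≤
      A * H + 2 * (A * r) * (1 * B.u2) := by
  have e : (l.z + ∑ k, l.y k * (l.s k - B.v k) - B.ω) - (l'.z + ∑ k, l'.y k * (l'.s k - B.v k) - B.ω) =
      (l.z + ∑ k, l.y k * (l.s k - l'.s k) - l'.z) + ∑ k, (l.y k - l'.y k) * (l'.s k - B.v k) := by
    simp only [Fin.sum_univ_two]
    ring
  rw [e, one_mul]
  exact (abs_add_le _ _).trans (add_le_add h3 (sum2_le (by positivity) h1 i2))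

/-- the value at the time `0` -/
theorem near_val (hA : 1 ≤ A) (hr : 0 < r) (hB : B.ok (1 / 8) r H) (i1 : ∀ k, |l'.y k - B.p k| ≤ B.u2)
    (i2 : ∀ k, |l'.s k - B.v k| ≤ B.u2)
    (h1 : ∀ k, |l.y k - l'.y k| ≤ A * r)
    (h3 : |l.z + ∑ k, l.y k * (l.s k - l'.s k) - l'.z| ≤ A * H)
    (i4 : |fn B.θ (l'.y - B.p) + B.κ * (l'.z + ∑ k, l'.y k * (l'.s k - B.v k) - B.ω) -
      B.α * ∑ k, (l'.y k - B.p k) ^ 2| ≤ B.u1) :
    |fn B.θ (l.y - B.p) + B.κ * (l.z + ∑ k, l.y k * (l.s k - B.v k) - B.ω) -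
      B.α * ∑ k, (l.y k - B.p k) ^ 2| ≤ 6 * A ^ 2 * B.u1 := by
  obtain ⟨o1, o2, o3, o4, o5, o6, o7⟩ := hB
  have hu1 : 0 < B.u1 := lt_of_lt_of_le hr o1
  have e1 : (l.y - B.p : Fin 2 → ℝ) = fun k => (l.y k - l'.y k) + (l'.y - B.p) k := by
    funext k
    show l.y k - B.p k = _ + (l'.y k - B.p k)
    ring
  have e3 : ∑ k, (l.y k - B.p k) ^ 2 = ∑ k, (l'.y k - B.p k) ^ 2 +
      ∑ k, (l.y k - l'.y k) * ((l.y k - B.p k) + (l'.y k - B.p k)) := by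
    simp only [Fin.sum_univ_two]
    ring
  have nz := near_Z hA hr i2 h1 h3
  have c1 : |∑ k, (l.y k - l'.y k) * ((l.y k - B.p k) + (l'.y k - B.p k))| ≤
      2 * (A * r) * (3 * A * B.u2) := by
    refine sum2_le (by positivity) h1 fun k => (abs_add_le _ _).trans ?_
    have a1 := near_y hA (o1.trans o2) hr i1 h1 k
    have a2 := i1 k
    have a6 : 1 * B.u2 ≤ A * B.u2 := by gcongr; linarith
    linarith
  have c2 : |B.α * ∑ k, (l.y k - l'.y k) * ((l.y k - B.p k) + (l'.y k - B.p k))| ≤ A ^ 2 * B.u1 := by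
    rw [abs_mul]
    exact (mul_le_mul_of_nonneg_left c1 (abs_nonneg _)).trans (a2_le hr o1 o4)
  have c3 : |B.κ * ((l.z + ∑ k, l.y k * (l.s k - B.v k) - B.ω) -
      (l'.z + ∑ k, l'.y k * (l'.s k - B.v k) - B.ω))| ≤ (A + A * 1 / 4) * B.u1 := by
    rw [abs_mul]
    exact (mul_le_mul_of_nonneg_left nz (abs_nonneg _)).trans (kH_le hA hr o1 zero_le_one o5 o7)
  have c4 : |fn B.θ (fun k => l.y k - l'.y k)| ≤ 2 * (A * B.u1) := by
    refine abs_fn_le _ _ fun k => (h1 k).trans ?_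
    gcongr
  have e4 : fn B.θ (l.y - B.p) + B.κ * (l.z + ∑ k, l.y k * (l.s k - B.v k) - B.ω) -
      B.α * ∑ k, (l.y k - B.p k) ^ 2 =
      (fn B.θ (l'.y - B.p) + B.κ * (l'.z + ∑ k, l'.y k * (l'.s k - B.v k) - B.ω) -
        B.α * ∑ k, (l'.y k - B.p k) ^ 2) + fn B.θ (fun k => l.y k - l'.y k) +
      B.κ * ((l.z + ∑ k, l.y k * (l.s k - B.v k) - B.ω) -
        (l'.z + ∑ k, l'.y k * (l'.s k - B.v k) - B.ω)) +
      -(B.α * ∑ k, (l.y k - l'.y k) * ((l.y k - B.p k) + (l'.y k - B.p k))) := by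
    rw [e3, e1, fn_add]
    ring
  rw [e4]
  rw [← abs_neg] at c2
  refine (abs_add_le _ _).trans ((add_le_add ((abs_add_le _ _).trans (add_le_add
    ((abs_add_le _ _).trans (add_le_add i4 c4)) c3)) c2).trans ?_)
  have a7 : A ≤ A ^ 2 := by nlinarith
  have a8 : A * B.u1 ≤ A ^ 2 * B.u1 := by gcongr
  have a9 : 1 * B.u1 ≤ A ^ 2 * B.u1 := by gcongr; nlinarith
  linarith

/-- the increment -/
theorem near_inc (hA : 1 ≤ A) (hr : 0 < r) (hB : B.ok (1 / 8) r H) (i1 : ∀ k, |l'.y k - B.p k| ≤ B.u2)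
    (i2 : ∀ k, |l'.s k - B.v k| ≤ B.u2)
    (h1 : ∀ k, |l.y k - l'.y k| ≤ A * r) (h2 : ∀ k, |l.s k - l'.s k| ≤ A * r)
    (h3 : |l.z + ∑ k, l.y k * (l.s k - l'.s k) - l'.z| ≤ A * H)
    (i5 : |fn B.θ (l'.s - B.v) + B.κ * (∑ k, (l'.s k - B.v k) ^ 2) / 2 +
      2 * B.α * (l'.z + ∑ k, B.p k * (l'.s k - B.v k) - B.ω)| ≤ B.u1) :
    |fn B.θ (l.s - B.v) + B.κ * (∑ k, (l.s k - B.v k) ^ 2) / 2 +
      2 * B.α * (l.z + ∑ k, B.p k * (l.s k - B.v k) - B.ω)| ≤ 9 * A ^ 2 * B.u1 := by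
  obtain ⟨o1, o2, o3, o4, o5, o6, o7⟩ := hB
  have hu1 : 0 < B.u1 := lt_of_lt_of_le hr o1
  have e1 : (l.s - B.v : Fin 2 → ℝ) = fun k => (l.s k - l'.s k) + (l'.s - B.v) k := by
    funext k
    show l.s k - B.v k = _ + (l'.s k - B.v k)
    ring
  have e3 : ∑ k, (l.s k - B.v k) ^ 2 = ∑ k, (l'.s k - B.v k) ^ 2 +
      ∑ k, (l.s k - l'.s k) * ((l.s k - B.v k) + (l'.s k - B.v k)) := by
    simp only [Fin.sum_univ_two]
    ring
  have e5 : l.z + ∑ k, B.p k * (l.s k - B.v k) - B.ω =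
      (l'.z + ∑ k, B.p k * (l'.s k - B.v k) - B.ω) + ((l.z + ∑ k, l.y k * (l.s k - l'.s k) - l'.z) +
        -∑ k, (l.s k - l'.s k) * (l.y k - B.p k)) := by
    simp only [Fin.sum_univ_two]
    ring
  have c1 : |∑ k, (l.s k - l'.s k) * ((l.s k - B.v k) + (l'.s k - B.v k))| ≤
      2 * (A * r) * (3 * A * B.u2) := by
    refine sum2_le (by positivity) h2 fun k => (abs_add_le _ _).trans ?_
    have a1 := near_y hA (o1.trans o2) hr i2 h2 k
    have a2 := i2 k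
    have a6 : 1 * B.u2 ≤ A * B.u2 := by gcongr; linarith
    linarith
  have c2 : |B.κ * (∑ k, (l.s k - l'.s k) * ((l.s k - B.v k) + (l'.s k - B.v k))) / 2| ≤ A ^ 2 * B.u1 := by
    rw [abs_div, abs_mul, abs_two]
    have := (mul_le_mul_of_nonneg_left c1 (abs_nonneg B.κ)).trans (a2_le hr o1 o5)
    have a9 : 0 ≤ A ^ 2 * B.u1 := by positivity
    linarith
  have c3 : |(l.z + ∑ k, l.y k * (l.s k - l'.s k) - l'.z) + -∑ k, (l.s k - l'.s k) * (l.y k - B.p k)| ≤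
      A * H + 2 * (A * r) * (2 * A * B.u2) := by
    refine (abs_add_le _ _).trans ?_
    rw [abs_neg]
    exact add_le_add h3 (sum2_le (by positivity) h2 fun k => near_y hA (o1.trans o2) hr i1 h1 k)
  have c5 : |2 * B.α * ((l.z + ∑ k, l.y k * (l.s k - l'.s k) - l'.z) +
      -∑ k, (l.s k - l'.s k) * (l.y k - B.p k))| ≤ 2 * ((A + A * (2 * A) / 4) * B.u1) := by
    rw [abs_mul, abs_mul, abs_two, mul_assoc]
    refine mul_le_mul_of_nonneg_left ?_ (by norm_num)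
    exact (mul_le_mul_of_nonneg_left c3 (abs_nonneg _)).trans
      (kH_le hA hr o1 (by linarith) o4 o6)
  have c4 : |fn B.θ (fun k => l.s k - l'.s k)| ≤ 2 * (A * B.u1) := by
    refine abs_fn_le _ _ fun k => (h2 k).trans ?_
    gcongr
  have e4 : fn B.θ (l.s - B.v) + B.κ * (∑ k, (l.s k - B.v k) ^ 2) / 2 +
      2 * B.α * (l.z + ∑ k, B.p k * (l.s k - B.v k) - B.ω) =
      (fn B.θ (l'.s - B.v) + B.κ * (∑ k, (l'.s k - B.v k) ^ 2) / 2 +
        2 * B.α * (l'.z + ∑ k, B.p k * (l'.s k - B.v k) - B.ω)) + fn B.θ (fun k => l.s k - l'.s k) +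
      B.κ * (∑ k, (l.s k - l'.s k) * ((l.s k - B.v k) + (l'.s k - B.v k))) / 2 +
      2 * B.α * ((l.z + ∑ k, l.y k * (l.s k - l'.s k) - l'.z) +
        -∑ k, (l.s k - l'.s k) * (l.y k - B.p k)) := by
    rw [e3, e5, e1, fn_add]
    ring
  rw [e4]
  refine (abs_add_le _ _).trans ((add_le_add ((abs_add_le _ _).trans (add_le_add
    ((abs_add_le _ _).trans (add_le_add i5 c4)) c2)) c5).trans ?_)
  have a7 : A ≤ A ^ 2 := by nlinarith
  have a8 : A * B.u1 ≤ A ^ 2 * B.u1 := by gcongr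
  have a9 : 1 * B.u1 ≤ A ^ 2 * B.u1 := by gcongr; nlinarith
  have a10 : 2 * ((A + A * (2 * A) / 4) * B.u1) = 2 * (A * B.u1) + A ^ 2 * B.u1 := by ring
  linarith

/-- a ray close to a ray of a strict box is in the box, up to a constant -/
theorem bin_near (hA : 1 ≤ A) (hr : 0 < r) (hB : B.ok (1 / 8) r H)
    (hl : B.In H l'.y l'.s l'.z) (h1 : ∀ k, |l.y k - l'.y k| ≤ A * r)
    (h2 : ∀ k, |l.s k - l'.s k| ≤ A * r) (h3 : |l.z + ∑ k, l.y k * (l.s k - l'.s k) - l'.z| ≤ A * H) :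
    Bin (9 * A ^ 2) B H l := by
  obtain ⟨i1, i2, i3, i4, i5⟩ := hl
  have o1 := hB.r1
  have o2 := hB.u12
  have hu1 : 0 < B.u1 := lt_of_lt_of_le hr o1
  have hu2 : 0 < B.u2 := lt_of_lt_of_le hu1 o2
  have a7 : 2 * A ≤ 9 * A ^ 2 := by nlinarith
  have b1 : 2 * A * B.u2 ≤ 9 * A ^ 2 * B.u2 := by gcongr
  refine ⟨fun k => (near_y hA (o1.trans o2) hr i1 h1 k).trans b1,
    fun k => (near_y hA (o1.trans o2) hr i2 h2 k).trans b1, ?_, ?_, ?_⟩
  · have nz := near_Z hA hr i2 h1 h3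
    have hM1 : B.u2 ^ 2 ≤ max (B.u2 ^ 2) H := le_max_left _ _
    have hM2 : H ≤ max (B.u2 ^ 2) H := le_max_right _ _
    have e1 : l.z + ∑ k, l.y k * (l.s k - B.v k) - B.ω =
      ((l.z + ∑ k, l.y k * (l.s k - B.v k) - B.ω) - (l'.z + ∑ k, l'.y k * (l'.s k - B.v k) - B.ω)) +
        (l'.z + ∑ k, l'.y k * (l'.s k - B.v k) - B.ω) := by ring
    rw [e1]
    refine (abs_add_le _ _).trans ((add_le_add nz i3).trans ?_)
    set M := max (B.u2 ^ 2) H with hM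
    have hM0 : 0 ≤ M := le_trans (sq_nonneg _) hM1
    have c1 : A * H ≤ A * M := by gcongr
    have c2 : 2 * (A * r) * (1 * B.u2) ≤ 2 * A * M := by
      calc 2 * (A * r) * (1 * B.u2) = 2 * A * (r * B.u2) := by ring
        _ ≤ 2 * A * (B.u2 * B.u2) := by gcongr; exact o1.trans o2
        _ ≤ 2 * A * M := by rw [← sq]; gcongr
    have c3 : A * M ≤ A ^ 2 * M := by gcongr; nlinarith
    have c4 : 1 * M ≤ A ^ 2 * M := by gcongr; nlinarith
    linarith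
  · refine (near_val hA hr hB i1 i2 h1 h3 i4).trans ?_
    gcongr
    norm_num
  · exact near_inc hA hr hB i1 i2 h1 h2 h3 i5

end near

/-! ### pieces -/

/-- the flat piece number `j` of the box `B` -/
def flat (B : Cbx) (j : ℤ) : Cbx := { B with κ := 0, α := 0, ω := B.ω + j * B.u2 ^ 2 }

/-- the adapted coordinate of the ray with respect to the box -/
def zet (B : Cbx) (l : Ry) : ℝ := l.z + ∑ k, l.y k * (l.s k - B.v k) - B.ω

/-- the piece number `j` -/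
noncomputable def pc (H : ℝ) (B : Cbx) (j : ℤ) : Cbx := if B.u2 ^ 2 < H then flat B j else B

/-- the number of the piece of the ray -/
noncomputable def pn (H : ℝ) (B : Cbx) (l : Ry) : ℤ := if B.u2 ^ 2 < H then ⌊zet B l / B.u2 ^ 2⌋ else 0

theorem flat_in {A r H H' : ℝ} {B : Cbx} {l : Ry} (hA : 1 ≤ A) (hr : 0 < r) (hB : B.ok (1 / 8) r H)
    (hH : B.u2 ^ 2 < H) (h : Bin A B H l) : Bin (8 * A ^ 2) (flat B ⌊zet B l / B.u2 ^ 2⌋) H' l := by
  obtain ⟨o1, o2, o3, o4, o5, o6, o7⟩ := hB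
  obtain ⟨i1, i2, i3, i4, i5⟩ := h
  have hu1 : 0 < B.u1 := lt_of_lt_of_le hr o1
  have hu2 : 0 < B.u2 := lt_of_lt_of_le hu1 o2
  have a7 : A ≤ A ^ 2 := by nlinarith
  have b0 : A ≤ 8 * A ^ 2 := by linarith [sq_nonneg A]
  have b1 : A * B.u2 ≤ 8 * A ^ 2 * B.u2 := by gcongr
  rw [max_eq_right hH.le] at i3
  have s1 : |∑ k, (l.y k - B.p k) ^ 2| ≤ 2 * (A * B.u2) * (A * B.u2) := by
    have : ∑ k, (l.y k - B.p k) ^ 2 = ∑ k, (l.y k - B.p k) * (l.y k - B.p k) :=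
      Finset.sum_congr rfl fun k _ => by ring
    rw [this]
    exact sum2_le (by positivity) i1 i1
  have s2 : |∑ k, (l.s k - B.v k) ^ 2| ≤ 2 * (A * B.u2) * (A * B.u2) := by
    have : ∑ k, (l.s k - B.v k) ^ 2 = ∑ k, (l.s k - B.v k) * (l.s k - B.v k) :=
      Finset.sum_congr rfl fun k _ => by ring
    rw [this]
    exact sum2_le (by positivity) i2 i2
  have q1 : ∀ {x a : ℝ}, |x| * H ≤ B.u1 → |a| ≤ 2 * (A * B.u2) * (A * B.u2) → |x * a| ≤ 2 * A ^ 2 * B.u1 := by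
    intro x a hx ha
    rw [abs_mul]
    calc |x| * |a| ≤ |x| * (2 * (A * B.u2) * (A * B.u2)) := by gcongr
      _ = 2 * A ^ 2 * (|x| * B.u2 ^ 2) := by ring
      _ ≤ 2 * A ^ 2 * (|x| * H) := by gcongr
      _ ≤ 2 * A ^ 2 * B.u1 := by gcongr
  have q2 : ∀ {x a b : ℝ}, |x| * H ≤ B.u1 → |a| ≤ b * H → 0 ≤ b → |x * a| ≤ b * B.u1 := by
    intro x a b hx ha hb
    rw [abs_mul]
    calc |x| * |a| ≤ |x| * (b * H) := by gcongr
      _ = b * (|x| * H) := by ring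
      _ ≤ b * B.u1 := by gcongr
  have p1 : A * B.u1 ≤ A ^ 2 * B.u1 := by gcongr
  refine ⟨fun k => (i1 k).trans b1, fun k => (i2 k).trans b1, ?_, ?_, ?_⟩
  · show |l.z + ∑ k, l.y k * (l.s k - B.v k) - (B.ω + (⌊zet B l / B.u2 ^ 2⌋ : ℝ) * B.u2 ^ 2)| ≤
      8 * A ^ 2 * max (B.u2 ^ 2) H'
    have e : l.z + ∑ k, l.y k * (l.s k - B.v k) - (B.ω + (⌊zet B l / B.u2 ^ 2⌋ : ℝ) * B.u2 ^ 2) =
        zet B l - (⌊zet B l / B.u2 ^ 2⌋ : ℝ) * B.u2 ^ 2 := by unfold zet; ring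
    rw [e]
    have f1 := Int.floor_le (zet B l / B.u2 ^ 2)
    have f2 := Int.lt_floor_add_one (zet B l / B.u2 ^ 2)
    have hu : 0 < B.u2 ^ 2 := by positivity
    rw [le_div_iff₀ hu] at f1
    rw [div_lt_iff₀ hu] at f2
    have hM : B.u2 ^ 2 ≤ max (B.u2 ^ 2) H' := le_max_left _ _
    have hM2 : 1 * max (B.u2 ^ 2) H' ≤ 8 * A ^ 2 * max (B.u2 ^ 2) H' := by
      gcongr
      linarith
    rw [abs_le]
    constructor <;> linarith
  · show |fn B.θ (l.y - B.p) + 0 * (l.z + ∑ k, l.y k * (l.s k - B.v k) - (B.ω + _)) -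
      0 * ∑ k, (l.y k - B.p k) ^ 2| ≤ 8 * A ^ 2 * B.u1
    rw [zero_mul, zero_mul, add_zero, sub_zero]
    have c1 := q2 o7 i3 (by linarith)
    have c2 := q1 o6 s1
    have e : fn B.θ (l.y - B.p) = (fn B.θ (l.y - B.p) + B.κ * (l.z + ∑ k, l.y k * (l.s k - B.v k) - B.ω) -
      B.α * ∑ k, (l.y k - B.p k) ^ 2) - B.κ * (l.z + ∑ k, l.y k * (l.s k - B.v k) - B.ω) +
      B.α * ∑ k, (l.y k - B.p k) ^ 2 := by ring
    rw [e]
    refine (abs_add_le _ _).trans ((add_le_add ((abs_sub _ _).trans (add_le_add i4 c1)) c2).trans ?_)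
    have : 0 ≤ A ^ 2 * B.u1 := by positivity
    linarith
  · show |fn B.θ (l.s - B.v) + 0 * (∑ k, (l.s k - B.v k) ^ 2) / 2 +
      2 * 0 * (l.z + ∑ k, B.p k * (l.s k - B.v k) - (B.ω + _))| ≤ 8 * A ^ 2 * B.u1
    rw [mul_zero, zero_mul, zero_mul, zero_div, add_zero, add_zero]
    have c1 := q1 o7 s2
    have s3 : |l.z + ∑ k, B.p k * (l.s k - B.v k) - B.ω| ≤ (A + 2 * A ^ 2) * H := by
      have e : l.z + ∑ k, B.p k * (l.s k - B.v k) - B.ω = (l.z + ∑ k, l.y k * (l.s k - B.v k) - B.ω) -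
          ∑ k, (l.y k - B.p k) * (l.s k - B.v k) := by
        simp only [Fin.sum_univ_two]
        ring
      rw [e]
      refine (abs_sub _ _).trans ((add_le_add i3 (sum2_le (by positivity) i1 i2)).trans ?_)
      have : 2 * (A * B.u2) * (A * B.u2) ≤ 2 * A ^ 2 * H := by
        calc 2 * (A * B.u2) * (A * B.u2) = 2 * A ^ 2 * B.u2 ^ 2 := by ring
          _ ≤ 2 * A ^ 2 * H := by gcongr
      linarith
    have c2 := q2 o6 s3 (by positivity)
    have e : fn B.θ (l.s - B.v) = (fn B.θ (l.s - B.v) + B.κ * (∑ k, (l.s k - B.v k) ^ 2) / 2 +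
      2 * B.α * (l.z + ∑ k, B.p k * (l.s k - B.v k) - B.ω)) - B.κ * (∑ k, (l.s k - B.v k) ^ 2) / 2 -
      2 * (B.α * (l.z + ∑ k, B.p k * (l.s k - B.v k) - B.ω)) := by ring
    have c1' : |B.κ * (∑ k, (l.s k - B.v k) ^ 2) / 2| ≤ A ^ 2 * B.u1 := by
      rw [abs_div, abs_two]
      linarith
    have c2' : |2 * (B.α * (l.z + ∑ k, B.p k * (l.s k - B.v k) - B.ω))| ≤ 2 * ((A + 2 * A ^ 2) * B.u1) := by
      rw [abs_mul, abs_two]
      linarith
    rw [e]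
    refine (abs_sub _ _).trans ((add_le_add ((abs_sub _ _).trans (add_le_add i5 c1')) c2').trans ?_)
    have : 0 ≤ A ^ 2 * B.u1 := by positivity
    nlinarith

theorem vol_thin {B : Cbx} {r H' : ℝ} (hr : 0 < r) (hH : 0 < H') (h : H' ≤ r ^ 2) (h1 : r ≤ B.u2) :
    B.vol r H' = B.u1 * B.u2 ^ 3 / (r ^ 2 * H') := by
  have h2 : r ^ 2 ≤ B.u2 ^ 2 := pow_le_pow_left₀ hr.le h1 2
  have h3 : 1 ≤ B.u2 ^ 2 / H' := by
    rw [le_div_iff₀ hH, one_mul]
    exact h.trans h2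
  unfold Cbx.vol
  rw [max_eq_right h3]
  field_simp

/-- **pieces** -/
theorem pPce : PPce := by
  intro A hA
  set A' := 9 * A ^ 2 with hA'
  have h1A' : 1 ≤ A' := by nlinarith
  set A'' := 8 * A' ^ 2 with hA''
  have h2A' : A' ≤ A'' := by nlinarith
  have h1A'' : 1 ≤ A'' := h1A'.trans h2A'
  obtain ⟨m, C, hm, hC, hcst⟩ := Vale.Agent.P106.W.pCst A'' h1A''
  refine ⟨m, C + A' + 1, hm, by linarith, fun r H H' hH' hHr hrH hr hr1 => ?_⟩
  obtain ⟨idx, ref, hir⟩ := hcst r H' hr hr1 hH'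
  refine ⟨fun B l => (pn H B l, idx (pc H B (pn H B l)) l), fun B j => ref (pc H B j.1) j.2,
    fun B l l' hB hl h1 h2 h3 => ?_⟩
  have o1 := hB.r1
  have o2 := hB.u12
  have hu1 : 0 < B.u1 := lt_of_lt_of_le hr o1
  have hu2 : 0 < B.u2 := lt_of_lt_of_le hu1 o2
  have hn := bin_near hA hr hB hl h1 h2 h3
  have hv : (pc H B (pn H B l)).vol r H' = B.u1 * B.u2 ^ 3 / (r ^ 2 * H') := by
    have e1 : (pc H B (pn H B l)).u1 = B.u1 := by unfold pc flat; split_ifs <;> rfl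
    have e2 : (pc H B (pn H B l)).u2 = B.u2 := by unfold pc flat; split_ifs <;> rfl
    rw [vol_thin hr hH' hHr (by rw [e2]; exact o1.trans o2), e1, e2]
  have key : Boh A'' (pc H B (pn H B l)) r H' ∧ Bin A'' (pc H B (pn H B l)) H' l := by
    have g1 : r ≤ A'' * B.u1 := o1.trans (by nlinarith)
    have g2 : B.u1 ≤ A'' * B.u2 := o2.trans (by nlinarith)
    have g3 : B.u2 ≤ A'' := hB.u2.trans h1A''
    have g0 : 0 ≤ A'' * B.u1 := by positivity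
    by_cases hc : B.u2 ^ 2 < H
    · have e : pc H B (pn H B l) = flat B ⌊zet B l / B.u2 ^ 2⌋ := by
        unfold pc pn
        rw [if_pos hc, if_pos hc]
      rw [e]
      refine ⟨⟨⟨hu1, g1, g2, g3, ?_, ?_⟩, ?_, ?_⟩, flat_in h1A' hr hB hc hn⟩ <;>
        · simp only [flat, abs_zero, zero_mul]
          first | exact g0 | linarith
    · have e : pc H B (pn H B l) = B := by
        unfold pc
        rw [if_neg hc]
      rw [e]
      push Not at hc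
      refine ⟨⟨⟨hu1, g1, g2, g3, ?_, ?_⟩, ?_, ?_⟩, ?_⟩
      · exact hB.α2.trans (by linarith)
      · exact hB.κ2.trans (by linarith)
      · calc |B.α| * H' ≤ |B.α| * H := by gcongr; exact hHr.trans hrH
          _ ≤ 1 * B.u1 := by rw [one_mul]; exact hB.αH
          _ ≤ A'' * B.u1 := by gcongr
      · calc |B.κ| * H' ≤ |B.κ| * H := by gcongr; exact hHr.trans hrH
          _ ≤ 1 * B.u1 := by rw [one_mul]; exact hB.κH
          _ ≤ A'' * B.u1 := by gcongr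
      · obtain ⟨i1, i2, i3, i4, i5⟩ := hn
        refine ⟨fun k => (i1 k).trans (by gcongr), fun k => (i2 k).trans (by gcongr), ?_,
          i4.trans (by gcongr), i5.trans (by gcongr)⟩
        rw [max_eq_left hc] at i3
        rw [max_eq_left ((hHr.trans hrH).trans hc)]
        exact i3.trans (by gcongr)
  obtain ⟨k1, k2, k3⟩ := hir _ l key.1 key.2
  refine ⟨k1, k2, ?_, ?_⟩
  · have hM1 : 1 ≤ max 1 (H / B.u2 ^ 2) := le_max_left _ _
    have hM2 : H / B.u2 ^ 2 ≤ max 1 (H / B.u2 ^ 2) := le_max_right _ _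
    show |((pn H B l : ℤ) : ℝ)| ≤ _
    by_cases hc : B.u2 ^ 2 < H
    · have e : pn H B l = ⌊zet B l / B.u2 ^ 2⌋ := by
        unfold pn
        rw [if_pos hc]
      rw [e]
      have i3 := hn.2.2.1
      rw [max_eq_right hc.le] at i3
      have hu : 0 < B.u2 ^ 2 := by positivity
      have q1 : |zet B l / B.u2 ^ 2| ≤ A' * (H / B.u2 ^ 2) := by
        rw [abs_div, abs_of_pos hu, div_le_iff₀ hu]
        calc |zet B l| ≤ A' * H := i3
          _ = A' * (H / B.u2 ^ 2) * B.u2 ^ 2 := by field_simp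
      have f1 := Int.floor_le (zet B l / B.u2 ^ 2)
      have f2 := Int.lt_floor_add_one (zet B l / B.u2 ^ 2)
      have q2 : |(⌊zet B l / B.u2 ^ 2⌋ : ℝ)| ≤ A' * (H / B.u2 ^ 2) + 1 := by
        rw [abs_le] at q1 ⊢
        constructor <;> linarith [q1.1, q1.2]
      refine q2.trans ?_
      have q3 : A' * (H / B.u2 ^ 2) ≤ A' * max 1 (H / B.u2 ^ 2) := by gcongr
      nlinarith
    · have e : pn H B l = 0 := by
        unfold pn
        rw [if_neg hc]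
      rw [e]
      simp only [Int.cast_zero, abs_zero]
      positivity
  · refine (k3.trans (by rw [hv])).trans ?_
    gcongr
    linarith

end Vale.Agent.P106.K
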