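import Vale.Agent.P106.K.Blocks
import Vale.Agent.P106.W.Cst
import Vale.Agent.P106.R.E3.E3

/-! # P106 / K : thick planks (helper471)

`pThk : PThk`.  A random box for the thin planks is thickened to a box for the thick planks : if `H ≤ u2²` the frame is kept and
`u1` becomes `max u1 (k H)`, `k = max |κ| |α|`; if `u2² < H` the frame becomes flat and `u1` becomes `max u1 (k u2²)`. The number of
thin planks of a thick plank in the box is at most `C vol_thin / vol_thick`. -/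

set_option autoImplicit false

namespace Vale.Agent.P106.K

open Vale.Agent.P127 Vale.Agent.P127.Stk Vale.Agent.P127.U
open Vale.Agent.P106.W (Cbx hh)
open Vale.Agent.P122.C2 (fn Z2)

namespace Thk

/-- the larger of the two frame numbers -/
noncomputable def kb (B : Cbx) : ℝ := max |B.κ| |B.α|

theorem kb_nonneg (B : Cbx) : 0 ≤ kb B := le_max_of_le_left (abs_nonneg _)

theorem κ_le (B : Cbx) : |B.κ| ≤ kb B := le_max_left _ _

theorem α_le (B : Cbx) : |B.α| ≤ kb B := le_max_right _ _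

open Classical in
/-- the thickened box -/
noncomputable def thkB (H : ℝ) (B : Cbx) : Cbx :=
  if H ≤ B.u2 ^ 2 then ⟨B.θ, max B.u1 (kb B * H), B.u2, B.κ, B.α, B.p, B.v, B.ω⟩
  else ⟨B.θ, max B.u1 (kb B * B.u2 ^ 2), B.u2, 0, 0, B.p, B.v, B.ω⟩

/-- basic inequalities of the class -/
structure Bas (c : ℝ) (B : Cbx) (r : ℝ) : Prop where
  u1 : 0 < B.u1
  u2 : 0 < B.u2
  r1 : r ≤ c * B.u1
  u12 : B.u1 ≤ c * B.u2
  u2c : B.u2 ≤ c
  k2 : kb B * B.u2 ≤ c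
  kr : kb B * r ^ 2 ≤ c ^ 4 * B.u1

theorem bas {c : ℝ} (hc : 1 ≤ c) {B : Cbx} {r : ℝ} (hr : 0 < r) (hB : Bok c B r) : Bas c B r := by
  obtain ⟨hu1, hr', h12, hu2A, hα2, hκ2⟩ := hB
  have hc0 : 0 < c := by linarith
  have hu2 : 0 < B.u2 := by
    by_contra hcon
    push Not at hcon
    nlinarith
  have hk : kb B * B.u2 ≤ c := by
    unfold kb
    rcases le_total |B.κ| |B.α| with h | h
    · rw [max_eq_right h]; exact hα2
    · rw [max_eq_left h]; exact hκ2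
  refine ⟨hu1, hu2, hr', h12, hu2A, hk, ?_⟩
  have h2 : r ≤ c ^ 2 * B.u2 := by
    calc r ≤ c * B.u1 := hr'
      _ ≤ c * (c * B.u2) := mul_le_mul_of_nonneg_left h12 hc0.le
      _ = c ^ 2 * B.u2 := by ring
  calc kb B * r ^ 2 = kb B * (r * r) := by ring
    _ ≤ kb B * ((c * B.u1) * (c ^ 2 * B.u2)) :=
        mul_le_mul_of_nonneg_left (mul_le_mul hr' h2 hr.le (by positivity)) (kb_nonneg B)
    _ = (kb B * B.u2) * (c ^ 3 * B.u1) := by ring
    _ ≤ c * (c ^ 3 * B.u1) := mul_le_mul_of_nonneg_right hk (by positivity)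
    _ = c ^ 4 * B.u1 := by ring

theorem thk_ok {c : ℝ} (hc : 1 ≤ c) {B : Cbx} {r H : ℝ} (hH : 0 < H) (hb : Bas c B r) :
    Boh (12 * c ^ 5) (thkB H B) r H := by
  obtain ⟨hu1, hu2, hr1, h12, hu2c, hk2, hkr⟩ := hb
  have hc0 : 0 < c := by linarith
  have h5 : c ≤ 12 * c ^ 5 := by
    have : c ≤ c ^ 5 := by
      calc c = c ^ 1 := (pow_one c).symm
        _ ≤ c ^ 5 := pow_le_pow_right₀ hc (by norm_num)
    nlinarith
  have h1 : (1 : ℝ) ≤ 12 * c ^ 5 := hc.trans h5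
  have hk0 := kb_nonneg B
  have hku : kb B * B.u2 ^ 2 ≤ c * B.u2 := by
    calc kb B * B.u2 ^ 2 = kb B * B.u2 * B.u2 := by ring
      _ ≤ c * B.u2 := mul_le_mul_of_nonneg_right hk2 hu2.le
  have hα := α_le B
  have hκ := κ_le B
  unfold thkB
  split_ifs with h
  · obtain ⟨v, hv⟩ : ∃ v, v = max B.u1 (kb B * H) := ⟨_, rfl⟩
    rw [← hv]
    have v1 : B.u1 ≤ v := by rw [hv]; exact le_max_left _ _
    have v2 : kb B * H ≤ v := by rw [hv]; exact le_max_right _ _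
    have v3 : v ≤ c * B.u2 := by
      rw [hv]
      exact max_le h12 ((mul_le_mul_of_nonneg_left h hk0).trans hku)
    have v0 : 0 < v := hu1.trans_le v1
    refine ⟨⟨v0, ?_, ?_, ?_, ?_, ?_⟩, ?_, ?_⟩
    · show r ≤ 12 * c ^ 5 * v
      calc r ≤ c * B.u1 := hr1
        _ ≤ c * v := mul_le_mul_of_nonneg_left v1 hc0.le
        _ ≤ 12 * c ^ 5 * v := mul_le_mul_of_nonneg_right h5 v0.le
    · show v ≤ 12 * c ^ 5 * B.u2
      exact v3.trans (mul_le_mul_of_nonneg_right h5 hu2.le)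
    · exact hu2c.trans h5
    · show |B.α| * B.u2 ≤ 12 * c ^ 5
      exact ((mul_le_mul_of_nonneg_right hα hu2.le).trans hk2).trans h5
    · show |B.κ| * B.u2 ≤ 12 * c ^ 5
      exact ((mul_le_mul_of_nonneg_right hκ hu2.le).trans hk2).trans h5
    · show |B.α| * H ≤ 12 * c ^ 5 * v
      exact ((mul_le_mul_of_nonneg_right hα hH.le).trans v2).trans (le_mul_of_one_le_left v0.le h1)
    · show |B.κ| * H ≤ 12 * c ^ 5 * v
      exact ((mul_le_mul_of_nonneg_right hκ hH.le).trans v2).trans (le_mul_of_one_le_left v0.le h1)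
  · obtain ⟨v, hv⟩ : ∃ v, v = max B.u1 (kb B * B.u2 ^ 2) := ⟨_, rfl⟩
    rw [← hv]
    have v1 : B.u1 ≤ v := by rw [hv]; exact le_max_left _ _
    have v3 : v ≤ c * B.u2 := by
      rw [hv]
      exact max_le h12 hku
    have v0 : 0 < v := hu1.trans_le v1
    have z0 : |(0 : ℝ)| * B.u2 ≤ 12 * c ^ 5 := by rw [abs_zero, zero_mul]; positivity
    have z1 : |(0 : ℝ)| * H ≤ 12 * c ^ 5 * v := by rw [abs_zero, zero_mul]; positivity
    refine ⟨⟨v0, ?_, ?_, ?_, z0, z0⟩, z1, z1⟩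
    · show r ≤ 12 * c ^ 5 * v
      calc r ≤ c * B.u1 := hr1
        _ ≤ c * v := mul_le_mul_of_nonneg_left v1 hc0.le
        _ ≤ 12 * c ^ 5 * v := mul_le_mul_of_nonneg_right h5 v0.le
    · show v ≤ 12 * c ^ 5 * B.u2
      exact v3.trans (mul_le_mul_of_nonneg_right h5 hu2.le)
    · exact hu2c.trans h5

/-- abstract form of the estimates of `thk_in` -/
theorem in_aux1 {c k u1 u2 v η H x zz g κ : ℝ} (hc : 1 ≤ c) (hzz : |zz + x| ≤ c * max (u2 ^ 2) η) (hx0 : 0 ≤ x) (hxH : x ≤ H)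
    (hηH : η ≤ H) (hH : 0 < H) (hg : |g + κ * x| ≤ c * u1) (hκ : |κ| ≤ k) (hk0 : 0 ≤ k) (hv1 : u1 ≤ v)
    (hv2 : k * H ≤ v) : |zz| ≤ 12 * c ^ 5 * max (u2 ^ 2) H ∧ |g| ≤ (c + 1) * v := by
  have hc0 : 0 < c := by linarith
  have hm : H ≤ max (u2 ^ 2) H := le_max_right _ _
  have hm2 : max (u2 ^ 2) η ≤ max (u2 ^ 2) H := max_le_max le_rfl hηH
  have h5 : c + 1 ≤ 12 * c ^ 5 := by
    have : c ≤ c ^ 5 := by
      calc c = c ^ 1 := (pow_one c).symm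
        _ ≤ c ^ 5 := pow_le_pow_right₀ hc (by norm_num)
    nlinarith
  constructor
  · calc |zz| = |(zz + x) - x| := by ring_nf
      _ ≤ |zz + x| + |x| := abs_sub _ _
      _ ≤ c * max (u2 ^ 2) H + max (u2 ^ 2) H := by
          rw [abs_of_nonneg hx0]
          exact add_le_add (hzz.trans (mul_le_mul_of_nonneg_left hm2 hc0.le)) (hxH.trans hm)
      _ = (c + 1) * max (u2 ^ 2) H := by ring
      _ ≤ 12 * c ^ 5 * max (u2 ^ 2) H := mul_le_mul_of_nonneg_right h5 (hH.le.trans hm)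
  · have h1 : |κ * x| ≤ v := by
      rw [abs_mul, abs_of_nonneg hx0]
      calc |κ| * x ≤ k * H := mul_le_mul hκ hxH hx0 hk0
        _ ≤ v := hv2
    calc |g| = |(g + κ * x) - κ * x| := by ring_nf
      _ ≤ |g + κ * x| + |κ * x| := abs_sub _ _
      _ ≤ c * v + v := add_le_add (hg.trans (mul_le_mul_of_nonneg_left hv1 hc0.le)) h1
      _ = (c + 1) * v := by ring

theorem sq_sum_le {c u : ℝ} (hcu : 0 ≤ c * u) (a b : Fin 2 → ℝ) (ha : ∀ k, |a k| ≤ c * u) (hb : ∀ k, |b k| ≤ c * u) :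
    |∑ k, a k * b k| ≤ 2 * c ^ 2 * u ^ 2 := by
  rw [Fin.sum_univ_two]
  have h : ∀ k, |a k * b k| ≤ (c * u) * (c * u) := fun k => by
    rw [abs_mul]
    exact mul_le_mul (ha k) (hb k) (abs_nonneg _) hcu
  calc |a 0 * b 0 + a 1 * b 1| ≤ |a 0 * b 0| + |a 1 * b 1| := abs_add_le _ _
    _ ≤ (c * u) * (c * u) + (c * u) * (c * u) := add_le_add (h 0) (h 1)
    _ = 2 * c ^ 2 * u ^ 2 := by ring

theorem c_aux {c : ℝ} (hc : 1 ≤ c) : c ≤ c ^ 5 ∧ c ^ 2 ≤ c ^ 5 ∧ 1 ≤ c ^ 5 :=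
  ⟨by
    calc c = c ^ 1 := (pow_one c).symm
      _ ≤ c ^ 5 := pow_le_pow_right₀ hc (by norm_num), pow_le_pow_right₀ hc (by norm_num), one_le_pow₀ hc⟩

theorem thk_in {c : ℝ} (hc : 1 ≤ c) {B : Cbx} {r H x : ℝ} (hH : 0 < H) (hb : Bas c B r) (hrH : r ^ 2 ≤ H)
    (hx0 : 0 ≤ x) (hxH : x ≤ H) {l : Ry} (hin : Bin c B (r ^ 2) (l.up x)) : Bin (12 * c ^ 5) (thkB H B) H l := by
  obtain ⟨hu1, hu2, hr1, h12, hu2c, hk2, hkr⟩ := hb
  have hc0 : 0 < c := by linarith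
  obtain ⟨c1, c2, c3⟩ := c_aux hc
  have hk0 := kb_nonneg B
  have hα := α_le B
  have hκ := κ_le B
  obtain ⟨b1, b2, b3, b4, b5⟩ := hin
  simp only [Ry.up] at b1 b2 b3 b4 b5
  have h5 : c ≤ 12 * c ^ 5 := by linarith
  have e1 : ∀ k, |l.y k - B.p k| ≤ 12 * c ^ 5 * B.u2 := fun k => (b1 k).trans (mul_le_mul_of_nonneg_right h5 hu2.le)
  have e2 : ∀ k, |l.s k - B.v k| ≤ 12 * c ^ 5 * B.u2 := fun k => (b2 k).trans (mul_le_mul_of_nonneg_right h5 hu2.le)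
  have b3' : |(l.z + ∑ k, l.y k * (l.s k - B.v k) - B.ω) + x| ≤ c * max (B.u2 ^ 2) (r ^ 2) := by
    refine le_of_eq_of_le ?_ b3
    congr 1
    ring
  unfold thkB
  split_ifs with h
  · obtain ⟨v, hv⟩ : ∃ v, v = max B.u1 (kb B * H) := ⟨_, rfl⟩
    rw [← hv]
    have v1 : B.u1 ≤ v := by rw [hv]; exact le_max_left _ _
    have v2 : kb B * H ≤ v := by rw [hv]; exact le_max_right _ _
    have v0 : 0 < v := hu1.trans_le v1
    have q1 := in_aux1 (g := fn B.θ (l.y - B.p) + B.κ * (l.z + ∑ k, l.y k * (l.s k - B.v k) - B.ω) -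
      B.α * ∑ k, (l.y k - B.p k) ^ 2) (κ := B.κ) hc b3' hx0 hxH hrH hH (by
        refine le_of_eq_of_le ?_ b4
        congr 1
        ring) hκ hk0 v1 v2
    have q2 := in_aux1 (g := (fn B.θ (l.s - B.v) + B.κ * (∑ k, (l.s k - B.v k) ^ 2) / 2 +
      2 * B.α * (l.z + ∑ k, B.p k * (l.s k - B.v k) - B.ω)) / 2) (κ := B.α) hc b3' hx0 hxH hrH hH (by
        have e : (fn B.θ (l.s - B.v) + B.κ * (∑ k, (l.s k - B.v k) ^ 2) / 2 +
            2 * B.α * (l.z + ∑ k, B.p k * (l.s k - B.v k) - B.ω)) / 2 + B.α * x =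
          (fn B.θ (l.s - B.v) + B.κ * (∑ k, (l.s k - B.v k) ^ 2) / 2 +
            2 * B.α * (l.z + x + ∑ k, B.p k * (l.s k - B.v k) - B.ω)) / 2 := by ring
        rw [e, abs_div, abs_two]
        have : 0 ≤ c * B.u1 := by positivity
        linarith) hα hk0 v1 v2
    refine ⟨e1, e2, q1.1, ?_, ?_⟩
    · show |fn B.θ (l.y - B.p) + B.κ * (l.z + ∑ k, l.y k * (l.s k - B.v k) - B.ω) - B.α * ∑ k, (l.y k - B.p k) ^ 2| ≤
        12 * c ^ 5 * v
      exact q1.2.trans (mul_le_mul_of_nonneg_right (by linarith) v0.le)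
    · show |fn B.θ (l.s - B.v) + B.κ * (∑ k, (l.s k - B.v k) ^ 2) / 2 +
        2 * B.α * (l.z + ∑ k, B.p k * (l.s k - B.v k) - B.ω)| ≤ 12 * c ^ 5 * v
      have := q2.2
      rw [abs_div, abs_two, div_le_iff₀ (by norm_num)] at this
      refine this.trans ?_
      calc (c + 1) * v * 2 = (2 * c + 2) * v := by ring
        _ ≤ 12 * c ^ 5 * v := mul_le_mul_of_nonneg_right (by linarith) v0.le
  · obtain ⟨v, hv⟩ : ∃ v, v = max B.u1 (kb B * B.u2 ^ 2) := ⟨_, rfl⟩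
    rw [← hv]
    have v1 : B.u1 ≤ v := by rw [hv]; exact le_max_left _ _
    have v2 : kb B * B.u2 ^ 2 ≤ v := by rw [hv]; exact le_max_right _ _
    have v0 : 0 < v := hu1.trans_le v1
    have q1 := in_aux1 (v := B.u1 + kb B * H) (g := fn B.θ (l.y - B.p) +
      B.κ * (l.z + ∑ k, l.y k * (l.s k - B.v k) - B.ω) - B.α * ∑ k, (l.y k - B.p k) ^ 2) (κ := B.κ) hc b3' hx0 hxH hrH hH (by
        refine le_of_eq_of_le ?_ b4
        congr 1
        ring) hκ hk0 (by nlinarith) (by linarith)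
    -- `k max(u2², r²) ≤ (1 + c^4) v`
    have hmx : kb B * max (B.u2 ^ 2) (r ^ 2) ≤ (1 + c ^ 4) * v := by
      have h4 : (0 : ℝ) ≤ c ^ 4 := by positivity
      have h6 : kb B * max (B.u2 ^ 2) (r ^ 2) ≤ kb B * (B.u2 ^ 2 + r ^ 2) :=
        mul_le_mul_of_nonneg_left (max_le (by nlinarith [sq_nonneg r]) (by nlinarith [sq_nonneg B.u2])) hk0
      have h7 : c ^ 4 * B.u1 ≤ c ^ 4 * v := mul_le_mul_of_nonneg_left v1 h4
      nlinarith
    have hm0 : 0 ≤ max (B.u2 ^ 2) (r ^ 2) := le_max_of_le_left (sq_nonneg _)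
    have hzzk : ∀ a : ℝ, |a| ≤ kb B → |a * (l.z + x + ∑ k, l.y k * (l.s k - B.v k) - B.ω)| ≤ c * (1 + c ^ 4) * v := by
      intro a ha
      rw [abs_mul]
      calc |a| * |l.z + x + ∑ k, l.y k * (l.s k - B.v k) - B.ω| ≤ kb B * (c * max (B.u2 ^ 2) (r ^ 2)) :=
            mul_le_mul ha b3 (abs_nonneg _) hk0
        _ = c * (kb B * max (B.u2 ^ 2) (r ^ 2)) := by ring
        _ ≤ c * ((1 + c ^ 4) * v) := mul_le_mul_of_nonneg_left hmx hc0.le
        _ = c * (1 + c ^ 4) * v := by ring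
    have hsq : ∀ (a : ℝ) (y1 y2 : Fin 2 → ℝ), |a| ≤ kb B → (∀ k, |y1 k| ≤ c * B.u2) → (∀ k, |y2 k| ≤ c * B.u2) →
        |a * ∑ k, y1 k * y2 k| ≤ 2 * c ^ 2 * v := by
      intro a y1 y2 ha h1 h2
      rw [abs_mul]
      calc |a| * |∑ k, y1 k * y2 k| ≤ kb B * (2 * c ^ 2 * B.u2 ^ 2) :=
            mul_le_mul ha (sq_sum_le (by positivity) y1 y2 h1 h2) (abs_nonneg _) hk0
        _ = 2 * c ^ 2 * (kb B * B.u2 ^ 2) := by ring
        _ ≤ 2 * c ^ 2 * v := mul_le_mul_of_nonneg_left v2 (by positivity)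
    have hcu : c * B.u1 ≤ c * v := mul_le_mul_of_nonneg_left v1 hc0.le
    have hc5 : c * (1 + c ^ 4) = c + c ^ 5 := by ring
    refine ⟨e1, e2, q1.1, ?_, ?_⟩
    · show |fn B.θ (l.y - B.p) + 0 * (l.z + ∑ k, l.y k * (l.s k - B.v k) - B.ω) - 0 * ∑ k, (l.y k - B.p k) ^ 2| ≤
        12 * c ^ 5 * v
      have t1 := hzzk B.κ hκ
      have t2 := hsq B.α (fun k => l.y k - B.p k) (fun k => l.y k - B.p k) hα b1 b1
      have e : fn B.θ (l.y - B.p) + 0 * (l.z + ∑ k, l.y k * (l.s k - B.v k) - B.ω) - 0 * ∑ k, (l.y k - B.p k) ^ 2 =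
          (fn B.θ (l.y - B.p) + B.κ * (l.z + x + ∑ k, l.y k * (l.s k - B.v k) - B.ω) - B.α * ∑ k, (l.y k - B.p k) ^ 2) -
          B.κ * (l.z + x + ∑ k, l.y k * (l.s k - B.v k) - B.ω) +
          B.α * ∑ k, (l.y k - B.p k) * (l.y k - B.p k) := by
        simp only [Fin.sum_univ_two]
        ring
      rw [e]
      refine (abs_add_le _ _).trans ?_
      refine (add_le_add (abs_sub _ _) le_rfl).trans ?_
      calc _ ≤ c * v + c * (1 + c ^ 4) * v + 2 * c ^ 2 * v := add_le_add (add_le_add (b4.trans hcu) t1) t2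
        _ = (c + (c + c ^ 5) + 2 * c ^ 2) * v := by rw [hc5]; ring
        _ ≤ 12 * c ^ 5 * v := mul_le_mul_of_nonneg_right (by linarith) v0.le
    · show |fn B.θ (l.s - B.v) + 0 * (∑ k, (l.s k - B.v k) ^ 2) / 2 +
        2 * 0 * (l.z + ∑ k, B.p k * (l.s k - B.v k) - B.ω)| ≤ 12 * c ^ 5 * v
      have t1 := hzzk B.α hα
      have t2 := hsq B.κ (fun k => l.s k - B.v k) (fun k => l.s k - B.v k) hκ b2 b2
      have t3 := hsq B.α (fun k => l.y k - B.p k) (fun k => l.s k - B.v k) hα b1 b2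
      have e : fn B.θ (l.s - B.v) + 0 * (∑ k, (l.s k - B.v k) ^ 2) / 2 +
          2 * 0 * (l.z + ∑ k, B.p k * (l.s k - B.v k) - B.ω) =
          (fn B.θ (l.s - B.v) + B.κ * (∑ k, (l.s k - B.v k) ^ 2) / 2 +
            2 * B.α * (l.z + x + ∑ k, B.p k * (l.s k - B.v k) - B.ω)) -
          (B.κ * ∑ k, (l.s k - B.v k) * (l.s k - B.v k)) / 2 -
          (B.α * (l.z + x + ∑ k, l.y k * (l.s k - B.v k) - B.ω)) * 2 +
          (B.α * ∑ k, (l.y k - B.p k) * (l.s k - B.v k)) * 2 := by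
        simp only [Fin.sum_univ_two]
        ring
      rw [e]
      refine (abs_add_le _ _).trans ?_
      refine (add_le_add ((abs_sub _ _).trans (add_le_add (abs_sub _ _) le_rfl)) le_rfl).trans ?_
      rw [abs_div, abs_mul _ (2 : ℝ), abs_mul _ (2 : ℝ), abs_two]
      have t2' : |B.κ * ∑ k, (l.s k - B.v k) * (l.s k - B.v k)| / 2 ≤ c ^ 2 * v := by
        rw [div_le_iff₀ (by norm_num)]
        linarith
      calc _ ≤ c * v + c ^ 2 * v + c * (1 + c ^ 4) * v * 2 + 2 * c ^ 2 * v * 2 :=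
            add_le_add (add_le_add (add_le_add (b5.trans hcu) t2') (mul_le_mul_of_nonneg_right t1 (by norm_num)))
              (mul_le_mul_of_nonneg_right t3 (by norm_num))
        _ = (c + c ^ 2 + (c + c ^ 5) * 2 + 4 * c ^ 2) * v := by rw [hc5]; ring
        _ ≤ 12 * c ^ 5 * v := mul_le_mul_of_nonneg_right (by linarith) v0.le

/-- a finite set of numbers with small differences -/
theorem card_le_diff {U : Finset ℕ} (hU : U.Nonempty) :
    ∃ a ∈ U, ∃ b ∈ U, (U.card : ℝ) ≤ (b : ℝ) - a + 1 := by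
  refine ⟨U.min' hU, U.min'_mem hU, U.max' hU, U.max'_mem hU, ?_⟩
  have h1 : U ⊆ Finset.Icc (U.min' hU) (U.max' hU) := fun x hx =>
    Finset.mem_Icc.2 ⟨U.min'_le x hx, U.le_max' x hx⟩
  have h2 := Finset.card_le_card h1
  rw [Nat.card_Icc] at h2
  have h3 : U.min' hU ≤ U.max' hU := U.min'_le_max' hU
  have h4 : U.card + U.min' hU ≤ U.max' hU + 1 := by omega
  have h5 : (U.card : ℝ) + (U.min' hU : ℝ) ≤ (U.max' hU : ℝ) + 1 := by exact_mod_cast h4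
  linarith

/-- the number of thin planks of the thick plank in the box -/
theorem count {c : ℝ} (hc : 1 ≤ c) {B : Cbx} {r H : ℝ} (hr : 0 < r) (hb : Bas c B r) (hrH : r ^ 2 ≤ H) {l : Ry}
    {U : Finset ℕ} (hU : ∀ f ∈ U, (f : ℝ) * r ^ 2 ≤ H ∧ Bin c B (r ^ 2) (l.up ((f : ℝ) * r ^ 2))) (hne : U.Nonempty) :
    (U.card : ℝ) * r ^ 2 ≤ 2 * H ∧ (U.card : ℝ) * r ^ 2 ≤ 3 * c * max (B.u2 ^ 2) (r ^ 2) ∧
      kb B * ((U.card : ℝ) * r ^ 2) ≤ 3 * c ^ 4 * B.u1 := by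
  obtain ⟨a, ha, b, hb', hcard⟩ := card_le_diff hne
  obtain ⟨hu1, hu2, hr1, h12, hu2c, hk2, hkr⟩ := hb
  have hc0 : 0 < c := by linarith
  have hη : 0 < r ^ 2 := by positivity
  obtain ⟨a0, a1, a2, a3, a4, a5⟩ := hU a ha
  obtain ⟨b0, b1, b2, b3, b4, b5⟩ := hU b hb'
  simp only [Ry.up] at a3 a4 a5 b3 b4 b5
  have hc4 : c ≤ c ^ 4 := by
    calc c = c ^ 1 := (pow_one c).symm
      _ ≤ c ^ 4 := pow_le_pow_right₀ hc (by norm_num)
  have hk0 := kb_nonneg B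
  have hX : ((b : ℝ) - a) * r ^ 2 ≤ 2 * c * max (B.u2 ^ 2) (r ^ 2) := by
    rw [abs_le] at a3 b3
    linarith [a3.1, b3.2]
  have hκ : |B.κ| * (((b : ℝ) - a) * r ^ 2) ≤ 2 * c * B.u1 := by
    rw [abs_le] at a4 b4
    rcases le_total 0 B.κ with h | h
    · rw [abs_of_nonneg h]; linarith [a4.1, b4.2]
    · rw [abs_of_nonpos h]; linarith [a4.2, b4.1]
  have hα : |B.α| * (((b : ℝ) - a) * r ^ 2) ≤ 2 * c * B.u1 := by
    rw [abs_le] at a5 b5
    have h0 : 0 ≤ c * B.u1 := by positivity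
    rcases le_total 0 B.α with h | h
    · rw [abs_of_nonneg h]; linarith [a5.1, b5.2]
    · rw [abs_of_nonpos h]; linarith [a5.2, b5.1]
  have hkb : kb B * (((b : ℝ) - a) * r ^ 2) ≤ 2 * c * B.u1 := by
    unfold kb
    rcases le_total |B.κ| |B.α| with h | h
    · rw [max_eq_right h]; exact hα
    · rw [max_eq_left h]; exact hκ
  have hcη : (U.card : ℝ) * r ^ 2 ≤ ((b : ℝ) - a) * r ^ 2 + r ^ 2 := by
    calc (U.card : ℝ) * r ^ 2 ≤ ((b : ℝ) - a + 1) * r ^ 2 := mul_le_mul_of_nonneg_right hcard hη.le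
      _ = ((b : ℝ) - a) * r ^ 2 + r ^ 2 := by ring
  have hm : r ^ 2 ≤ max (B.u2 ^ 2) (r ^ 2) := le_max_right _ _
  have hm0 : 0 < max (B.u2 ^ 2) (r ^ 2) := hη.trans_le hm
  have ha' : 0 ≤ (a : ℝ) * r ^ 2 := by positivity
  refine ⟨?_, ?_, ?_⟩
  · nlinarith
  · have : 1 * max (B.u2 ^ 2) (r ^ 2) ≤ c * max (B.u2 ^ 2) (r ^ 2) := mul_le_mul_of_nonneg_right hc hm0.le
    linarith
  · calc kb B * ((U.card : ℝ) * r ^ 2) ≤ kb B * (((b : ℝ) - a) * r ^ 2 + r ^ 2) := mul_le_mul_of_nonneg_left hcη hk0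
      _ = kb B * (((b : ℝ) - a) * r ^ 2) + kb B * r ^ 2 := by ring
      _ ≤ 2 * c * B.u1 + c ^ 4 * B.u1 := add_le_add hkb hkr
      _ ≤ 3 * c ^ 4 * B.u1 := by nlinarith

/-- volumes -/
theorem vol_cmp {c k u1 u2 v t η H : ℝ} (hc : 1 ≤ c) (hu1 : 0 < u1) (hη : 0 < η) (hH : 0 < H)
    (h1 : t * η ≤ 2 * H) (h2 : t * η ≤ 3 * c * max (u2 ^ 2) η) (h3 : k * (t * η) ≤ 3 * c ^ 4 * u1)
    (hv : v = max u1 (k * min H (u2 ^ 2))) :
    t * (v * max 1 (u2 ^ 2 / H)) ≤ 3 * c ^ 4 * (u1 * max 1 (u2 ^ 2 / η)) := by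
  have hc4 : c ≤ c ^ 4 := by
    calc c = c ^ 1 := (pow_one c).symm
      _ ≤ c ^ 4 := pow_le_pow_right₀ hc (by norm_num)
  have hq : 0 ≤ u2 ^ 2 := sq_nonneg u2
  have hc40 : (1 : ℝ) ≤ c ^ 4 := one_le_pow₀ hc
  have hkt : k * t ≤ 3 * c ^ 4 * u1 / η := by
    rw [le_div_iff₀ hη]; linarith
  have hR1 : u1 * (u2 ^ 2 / η) ≤ u1 * max 1 (u2 ^ 2 / η) := mul_le_mul_of_nonneg_left (le_max_right _ _) hu1.le
  have hR2 : 3 * c ^ 4 * (u1 * (u2 ^ 2 / η)) ≤ 3 * c ^ 4 * (u1 * max 1 (u2 ^ 2 / η)) :=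
    mul_le_mul_of_nonneg_left hR1 (by positivity)
  rcases le_total H (u2 ^ 2) with h | h
  · have e1 : max 1 (u2 ^ 2 / H) = u2 ^ 2 / H := max_eq_right (by rw [le_div_iff₀ hH]; linarith)
    rw [min_eq_left h] at hv
    rw [e1]
    rcases le_total u1 (k * H) with h4 | h4
    · rw [max_eq_right h4] at hv
      rw [hv]
      calc t * (k * H * (u2 ^ 2 / H)) = (k * t) * u2 ^ 2 := by field_simp
        _ ≤ (3 * c ^ 4 * u1 / η) * u2 ^ 2 := mul_le_mul_of_nonneg_right hkt hq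
        _ = 3 * c ^ 4 * (u1 * (u2 ^ 2 / η)) := by ring
        _ ≤ _ := hR2
    · rw [max_eq_left h4] at hv
      rw [hv]
      have h5 : t / H ≤ 2 / η := by
        rw [div_le_div_iff₀ hH hη]; linarith
      calc t * (u1 * (u2 ^ 2 / H)) = (t / H) * (u1 * u2 ^ 2) := by ring
        _ ≤ (2 / η) * (u1 * u2 ^ 2) := mul_le_mul_of_nonneg_right h5 (by positivity)
        _ = 2 * (u1 * (u2 ^ 2 / η)) := by ring
        _ ≤ 3 * c ^ 4 * (u1 * (u2 ^ 2 / η)) := mul_le_mul_of_nonneg_right (by linarith) (by positivity)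
        _ ≤ _ := hR2
  · have e1 : max 1 (u2 ^ 2 / H) = 1 := max_eq_left (by rw [div_le_one hH]; exact h)
    rw [min_eq_right h] at hv
    rw [e1, mul_one]
    rcases le_total u1 (k * u2 ^ 2) with h4 | h4
    · rw [max_eq_right h4] at hv
      rw [hv]
      calc t * (k * u2 ^ 2) = (k * t) * u2 ^ 2 := by ring
        _ ≤ (3 * c ^ 4 * u1 / η) * u2 ^ 2 := mul_le_mul_of_nonneg_right hkt hq
        _ = 3 * c ^ 4 * (u1 * (u2 ^ 2 / η)) := by ring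
        _ ≤ _ := hR2
    · rw [max_eq_left h4] at hv
      rw [hv]
      have h5 : t ≤ 3 * c * max 1 (u2 ^ 2 / η) := by
        have e2 : max 1 (u2 ^ 2 / η) = max (u2 ^ 2) η / η := by
          rw [max_comm, ← max_div_div_right hη.le, div_self hη.ne']
        rw [e2, ← mul_div_assoc, le_div_iff₀ hη]
        exact h2
      have h6 : 0 ≤ u1 * max 1 (u2 ^ 2 / η) := mul_nonneg hu1.le (le_max_of_le_left zero_le_one)
      calc t * u1 ≤ (3 * c * max 1 (u2 ^ 2 / η)) * u1 := mul_le_mul_of_nonneg_right h5 hu1.le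
        _ = 3 * c * (u1 * max 1 (u2 ^ 2 / η)) := by ring
        _ ≤ 3 * c ^ 4 * (u1 * max 1 (u2 ^ 2 / η)) := mul_le_mul_of_nonneg_right (by linarith) h6

theorem thk_u1 (H : ℝ) (B : Cbx) : (thkB H B).u1 = max B.u1 (kb B * min H (B.u2 ^ 2)) := by
  unfold thkB
  split_ifs with h
  · rw [min_eq_left h]
  · rw [min_eq_right (not_le.1 h).le]

theorem thk_u2 (H : ℝ) (B : Cbx) : (thkB H B).u2 = B.u2 := by
  unfold thkB
  split_ifs <;> rfl

/-- **count** : the number of thin planks times the volume of the thickened box -/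
theorem count_vol {c : ℝ} (hc : 1 ≤ c) {B : Cbx} {r H : ℝ} (hr : 0 < r) (hb : Bas c B r) (hrH : r ^ 2 ≤ H) {l : Ry}
    {U : Finset ℕ} (hU : ∀ f ∈ U, (f : ℝ) * r ^ 2 ≤ H ∧ Bin c B (r ^ 2) (l.up ((f : ℝ) * r ^ 2))) :
    (U.card : ℝ) * (thkB H B).vol r H ≤ 3 * c ^ 4 * B.vol r (r ^ 2) := by
  have hη : 0 < r ^ 2 := by positivity
  have hH : 0 < H := hη.trans_le hrH
  rcases U.eq_empty_or_nonempty with h | hne
  · rw [h, Finset.card_empty, Nat.cast_zero, zero_mul]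
    unfold Cbx.vol
    have h1 := hb.u1
    have h2 := hb.u2
    positivity
  · obtain ⟨h1, h2, h3⟩ := count hc hr hb hrH hU hne
    have h4 := vol_cmp hc hb.u1 hη hH h1 h2 h3 (thk_u1 H B)
    unfold Cbx.vol
    rw [thk_u2]
    have h5 : 0 ≤ B.u2 / r ^ 2 := div_nonneg hb.u2.le hη.le
    calc (U.card : ℝ) * ((thkB H B).u1 * B.u2 / r ^ 2 * max 1 (B.u2 ^ 2 / H))
        = (B.u2 / r ^ 2) * ((U.card : ℝ) * ((thkB H B).u1 * max 1 (B.u2 ^ 2 / H))) := by ring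
      _ ≤ (B.u2 / r ^ 2) * (3 * c ^ 4 * (B.u1 * max 1 (B.u2 ^ 2 / r ^ 2))) := mul_le_mul_of_nonneg_left h4 h5
      _ = 3 * c ^ 4 * (B.u1 * B.u2 / r ^ 2 * max 1 (B.u2 ^ 2 / r ^ 2)) := by ring

end Thk

open Thk

/-- **thick planks** -/
theorem thk_of (hcst : PCst) : PThk := by
  intro c hc
  obtain ⟨m, C1, hm, hC1, hcst⟩ := hcst (12 * c ^ 5) (by linarith [(c_aux hc).2.2])
  refine ⟨Real.log m + Real.log C1 + Real.log (3 * c ^ 4), ?_⟩
  intro Ω _ α γ P X Z l f n q W hW hX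
  obtain ⟨r, hr⟩ : ∃ r : ℝ, r = (1 / 2 : ℝ) ^ n := ⟨_, rfl⟩
  have hr0 : 0 < r := by rw [hr]; positivity
  have hr1 : r ≤ 1 := by rw [hr]; exact pow_le_one₀ (by norm_num) (by norm_num)
  have hη : (1 / 2 : ℝ) ^ (2 * n) = r ^ 2 := by rw [hr, ← pow_mul, mul_comm]
  have h2n : (1 : ℝ) / 2 ^ (2 * n) = r ^ 2 := by rw [← hη, one_div_pow]
  obtain ⟨H, hH⟩ : ∃ H : ℝ, H = 2 ^ q / 2 ^ (2 * n) := ⟨_, rfl⟩
  have hHq : H = 2 ^ q * r ^ 2 := by rw [hH, ← h2n]; ring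
  have hH0 : 0 < H := by rw [hH]; positivity
  have hrH : r ^ 2 ≤ H := by
    rw [hHq]
    exact le_mul_of_one_le_left (by positivity) (one_le_pow₀ (by norm_num))
  obtain ⟨idx, ref, href⟩ := hcst r H hr0 hr1 hH0
  rw [← hH, ← hr, hη]
  have hup : ∀ ω, ((f ω : ℝ) / 2 ^ (2 * n)) = (f ω : ℝ) * r ^ 2 := fun ω => by rw [← h2n]; ring
  have hbas : ∀ ω, 0 < P.w ω → Bas c (W ω) r := fun ω hω => bas hc hr0 (by rw [hr]; exact (hW ω hω).2.1)
  have hfH : ∀ ω, 0 < P.w ω → (f ω : ℝ) * r ^ 2 ≤ H := fun ω hω => by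
    rw [hHq]
    exact mul_le_mul_of_nonneg_right (by exact_mod_cast (hW ω hω).1.le) (by positivity)
  have hbin : ∀ ω, 0 < P.w ω → Bin c (W ω) (r ^ 2) ((l ω).up ((f ω : ℝ) * r ^ 2)) := fun ω hω => by
    have := (hW ω hω).2.2
    rwa [hη, hup] at this
  -- the thickened box
  have hok : ∀ ω, 0 < P.w ω → Boh (12 * c ^ 5) (thkB H (W ω)) r H := fun ω hω => thk_ok hc hH0 (hbas ω hω)
  have hin : ∀ ω, 0 < P.w ω → Bin (12 * c ^ 5) (thkB H (W ω)) H (l ω) := fun ω hω =>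
    thk_in hc hH0 (hbas ω hω) hrH (by positivity) (hfH ω hω) (hbin ω hω)
  let W₂ : Ω → Cbx := fun ω => ref (thkB H (W ω)) (idx (thkB H (W ω)) (l ω))
  have hW2 : ∀ ω, 0 < P.w ω → (W₂ ω).ok (1 / 8) r H ∧ (W₂ ω).In H (l ω).y (l ω).s (l ω).z ∧
      (W₂ ω).vol r H ≤ C1 * (thkB H (W ω)).vol r H := fun ω hω => href _ _ (hok ω hω) (hin ω hω)
  refine ⟨W₂, fun ω hω => ⟨(hW2 ω hω).1, (hW2 ω hω).2.1⟩, ?_⟩
  -- positive volumes
  have vpos : ∀ (B : Cbx) (K : ℝ), 0 < B.u1 → 0 < B.u2 → 0 < B.vol r K := fun B K h1 h2 => by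
    unfold Cbx.vol
    have : (0 : ℝ) < max 1 (B.u2 ^ 2 / K) := lt_max_of_lt_left one_pos
    positivity
  have v1 : ∀ ω, 0 < P.w ω → 0 < (W ω).vol r (r ^ 2) := fun ω hω => vpos _ _ (hbas ω hω).u1 (hbas ω hω).u2
  have v2 : ∀ ω, 0 < P.w ω → 0 < (thkB H (W ω)).vol r H := fun ω hω =>
    vpos _ _ (hok ω hω).1.1 (by rw [thk_u2]; exact (hbas ω hω).u2)
  have v3 : ∀ ω, 0 < P.w ω → 0 < (W₂ ω).vol r H := fun ω hω =>
    vpos _ _ (lt_of_lt_of_le hr0 (hW2 ω hω).1.r1) (lt_of_lt_of_le (lt_of_lt_of_le hr0 (hW2 ω hω).1.r1) (hW2 ω hω).1.u12)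
  have hc4 : (0 : ℝ) < 3 * c ^ 4 := by positivity
  -- entropy of `f`
  have hf : Stk.hc P f (fun ω => (X ω, (W ω, Z ω))) ≤
      P.ex fun ω => Real.log (3 * c ^ 4 * (W ω).vol r (r ^ 2) / (thkB H (W ω)).vol r H) := by
    refine R.E3.hc_le_exlog P f _ _ fun ω hω U hU => ?_
    rw [le_div_iff₀ (v2 ω hω)]
    refine count_vol hc hr0 (hbas ω hω) hrH (l := l ω) fun g hg => ?_
    obtain ⟨ω', hω', e, rfl⟩ := hU g hg
    simp only [Prod.mk.injEq] at e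
    have hl := hX ω' ω hω' hω e.1
    refine ⟨hfH ω' hω', ?_⟩
    have := hbin ω' hω'
    rwa [hl, e.2.1] at this
  have hf2 : (P.ex fun ω => Real.log (3 * c ^ 4 * (W ω).vol r (r ^ 2) / (thkB H (W ω)).vol r H)) =
      Real.log (3 * c ^ 4) + (P.ex fun ω => Real.log ((W ω).vol r (r ^ 2))) -
        P.ex fun ω => Real.log ((thkB H (W ω)).vol r H) := by
    rw [← P.ex_const (Real.log (3 * c ^ 4)), ← P.ex_add, ← P.ex_sub]
    refine P.ex_congr fun ω hω => ?_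
    rw [Real.log_div (mul_pos hc4 (v1 ω hω)).ne' (v2 ω hω).ne', Real.log_mul hc4.ne' (v1 ω hω).ne']
  have hv : (P.ex fun ω => Real.log ((W₂ ω).vol r H)) ≤ Real.log C1 + P.ex fun ω => Real.log ((thkB H (W ω)).vol r H) := by
    rw [← P.ex_const (Real.log C1), ← P.ex_add]
    refine P.ex_mono fun ω hω => ?_
    rw [← Real.log_mul (by linarith) (v2 ω hω).ne']
    exact Real.log_le_log (v3 ω hω) (hW2 ω hω).2.2
  -- entropy of `X`
  have hx : Stk.hc P X (fun ω => (W ω, Z ω)) ≤ Stk.hc P X (fun ω => (W₂ ω, Z ω)) + Real.log m := by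
    have h1 := Stk.hc_le_add' P X (fun ω => idx (thkB H (W ω)) (l ω)) (fun ω => (W ω, Z ω))
    have h2 : Stk.hc P (fun ω => idx (thkB H (W ω)) (l ω)) (fun ω => (W ω, Z ω)) ≤ Real.log m := by
      refine (Stk.hc_le_H P _ _).trans ?_
      have := P.H_le_log_card (fun ω => idx (thkB H (W ω)) (l ω))
      rwa [Fintype.card_fin] at this
    have h3 : Stk.hc P X (fun ω => (idx (thkB H (W ω)) (l ω), (W ω, Z ω))) ≤ Stk.hc P X (fun ω => (W₂ ω, Z ω)) := by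
      refine Stk.hc_mono_right P X fun ω ω' _ _ e => ?_
      simp only [Prod.mk.injEq] at e
      simp only [Prod.mk.injEq, W₂]
      refine ⟨?_, e.2.2⟩
      rw [e.1, e.2.1]
    linarith
  have hpair := Stk.hc_pair P X f (fun ω => (W ω, Z ω))
  rw [hpair]
  linarith

/-- **thick planks** -/
theorem pThk : PThk := thk_of W.pCst

end Vale.Agent.P106.K
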