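import Vale.Agent.P106.K.Blocks

/-!
# P106 / K : translations of rays and boxes (helper357)
-/

set_option autoImplicit false

namespace Vale.Agent.P106.K

open Vale.Agent.P127 Vale.Agent.P127.Stk Vale.Agent.P127.U
open Vale.Agent.P106.W (Cbx hh)
open Vale.Agent.P122.C2 (fn Z2)

variable (l : Ry) (B : Cbx) (b : Fin 2 → ℝ) (b₀ : ℝ)

theorem tr_z' : (l.tr b b₀).z + ∑ k, (l.tr b b₀).y k * ((l.tr b b₀).s k - (trB B b b₀).v k) - (trB B b b₀).ω =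
    l.z + ∑ k, l.y k * (l.s k - B.v k) - B.ω := by
  simp only [Ry.tr, trB, Fin.sum_univ_two]
  ring

theorem tr_z'' : (l.tr b b₀).z + ∑ k, (trB B b b₀).p k * ((l.tr b b₀).s k - (trB B b b₀).v k) - (trB B b b₀).ω =
    l.z + ∑ k, B.p k * (l.s k - B.v k) - B.ω := by
  simp only [Ry.tr, trB, Fin.sum_univ_two]
  ring

theorem tr_y (k : Fin 2) : (l.tr b b₀).y k - (trB B b b₀).p k = l.y k - B.p k := by
  simp only [Ry.tr, trB]
  ring

theorem tr_y' : (l.tr b b₀).y - (trB B b b₀).p = l.y - B.p := by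
  funext k
  exact tr_y l B b b₀ k

theorem trB_in (H : ℝ) : (trB B b b₀).In H (l.tr b b₀).y (l.tr b b₀).s (l.tr b b₀).z ↔ B.In H l.y l.s l.z := by
  unfold Cbx.In
  rw [tr_z', tr_z'', tr_y']
  simp only [tr_y]
  rfl

theorem trB_bin (c H : ℝ) : Bin c (trB B b b₀) H (l.tr b b₀) ↔ Bin c B H l := by
  unfold Bin
  rw [tr_z', tr_z'', tr_y']
  simp only [tr_y]
  rfl

theorem trB_ok (c r H : ℝ) : (trB B b b₀).ok c r H ↔ B.ok c r H :=
  ⟨fun h => ⟨h.r1, h.u12, h.u2, h.α2, h.κ2, h.αH, h.κH⟩, fun h => ⟨h.r1, h.u12, h.u2, h.α2, h.κ2, h.αH, h.κH⟩⟩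

theorem trB_bok (c r : ℝ) : Bok c (trB B b b₀) r ↔ Bok c B r := Iff.rfl

theorem trB_vol (r H : ℝ) : (trB B b b₀).vol r H = B.vol r H := rfl

theorem bl_tr (a : ℕ) (t : ℝ) : bl a (l.tr b b₀) t = (bl a l t).tr (fun k => 2 ^ a * b k) (2 ^ a * b₀) := by
  unfold bl Ry.tr Ry.pos
  simp only [Ry.mk.injEq]
  refine ⟨?_, trivial, ?_⟩
  · funext k
    ring
  · simp only [Fin.sum_univ_two]
    ring

theorem tr_tr_neg : (l.tr b b₀).tr (fun k => -b k) (-b₀) = l := by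
  unfold Ry.tr
  cases l
  simp only [Ry.mk.injEq]
  refine ⟨?_, trivial, ?_⟩
  · funext k
    ring
  · simp only [Fin.sum_univ_two]
    ring

/-- the ray in the coordinates of its cell is normalised -/
theorem loc_ok (hs : ∀ k, |l.s k| ≤ 1) : RyOk l.loc := by
  have hy : ∀ k, 0 ≤ l.loc.y k ∧ l.loc.y k < 1 := by
    intro k
    have h1 := Int.floor_le (l.y k)
    have h2 := Int.lt_floor_add_one (l.y k)
    show 0 ≤ l.y k - (⌊l.y k⌋ : ℝ) ∧ l.y k - (⌊l.y k⌋ : ℝ) < 1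
    constructor <;> linarith
  refine ⟨fun k => ?_, fun k => hs k, ?_⟩
  · rw [abs_of_nonneg (hy k).1]
    exact (hy k).2.le
  · have h1 := Int.floor_le (l.z + ∑ k, l.y k * l.s k)
    have h2 := Int.lt_floor_add_one (l.z + ∑ k, l.y k * l.s k)
    have h3 : l.loc.z = (l.z + ∑ k, l.y k * l.s k - (⌊l.z + ∑ k, l.y k * l.s k⌋ : ℝ)) - ∑ k, l.loc.y k * l.s k := by
      show l.z + ∑ k, (⌊l.y k⌋ : ℝ) * l.s k - (⌊l.z + ∑ k, l.y k * l.s k⌋ : ℝ) =
        _ - ∑ k, (l.y k - (⌊l.y k⌋ : ℝ)) * l.s k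
      simp only [Fin.sum_univ_two]
      ring
    have h4 : ∀ k, |l.loc.y k * l.s k| ≤ 1 := by
      intro k
      rw [abs_mul, abs_of_nonneg (hy k).1]
      exact mul_le_one₀ (hy k).2.le (abs_nonneg _) (hs k)
    have h5 := abs_le.1 (h4 0)
    have h6 := abs_le.1 (h4 1)
    have h7 : ∑ k, l.loc.y k * l.s k = l.loc.y 0 * l.s 0 + l.loc.y 1 * l.s 1 := Fin.sum_univ_two _
    rw [h3, h7]
    rw [abs_le]
    constructor <;> linarith [h5.1, h5.2, h6.1, h6.2]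

theorem tb_mem (a : ℕ) (T : ℤ) : 0 ≤ tb a T ∧ tb a T ≤ 1 := by
  unfold tb
  have h1 : 0 ≤ T % 2 ^ a := Int.emod_nonneg _ (by positivity)
  have h2 : T % 2 ^ a < 2 ^ a := Int.emod_lt_of_pos _ (by positivity)
  have h1' : (0 : ℝ) ≤ ((T % 2 ^ a : ℤ) : ℝ) := by exact_mod_cast h1
  have h2' : ((T % 2 ^ a : ℤ) : ℝ) ≤ 2 ^ a := by exact_mod_cast h2.le
  refine ⟨by positivity, ?_⟩
  rw [div_le_one (by positivity)]
  exact h2'

theorem fl1_tb (a : ℕ) (T : ℤ) : fl1 a (tb a T) = T % 2 ^ a := by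
  unfold fl1 tb
  rw [mul_div_cancel₀ _ (by positivity), Int.floor_intCast]

end Vale.Agent.P106.K
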