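import Vale.Agent.P106.K.E4Ent
import Vale.Agent.P106.K.E4Vol
import Vale.Agent.P106.K.Tr
import Vale.Agent.P106.K.Cnd
import Vale.Agent.P106.K.Thk
import Vale.Agent.P106.K.Bij
import Vale.Agent.P106.K.Pce

/-!
# P106 / K : finite step of the composition `StK106 N → R.E.E4 N` (helper357)

`fin_of : 0 ≤ N → StK106 N → PFin N`.
-/

set_option autoImplicit false

namespace Vale.Agent.P106.K

open Finset Vale.Agent.P127 Vale.Agent.P127.Stk Vale.Agent.P127.U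
open Vale.Agent.P106.W (Cbx hh)
open Vale.Agent.P122.C2 (fn Z2 Cap)
open Vale.Agent.P106.R.C2 (Nd Sl coneSl)
open Vale.Agent.P127.S (copyLaw copyLaw_fst copyLaw_snd copy_supp copy_indep copy_hc_snd copy_ex_snd)

/-- the ray of the thin plank -/
noncomputable def fr (m h d : ℕ) (S : Nd) (f : ℕ) : Ry := (ray (coneSl m h) m d S).up (f / 2 ^ (2 * (d * m)))

theorem fr_s {m d : ℕ} {S : Nd} (hS : Cap m d S.τ) (h f : ℕ) (k : Fin 2) : |(fr m h d S f).s k| ≤ 1 := by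
  show |(S.τ k : ℝ) / 2 ^ (d * m)| ≤ 1
  have h1 : (0:ℝ) ≤ S.τ k := by exact_mod_cast (hS k).1
  have h2 : (S.τ k : ℝ) ≤ 2 ^ (d * m) := by exact_mod_cast (hS k).2.le
  rw [abs_of_nonneg (by positivity), div_le_one (by positivity)]
  exact h2

/-- finite step after the copies -/
theorem fin3 {N c₀ : ℝ} (hN : 0 ≤ N) (hc₀ : 1 ≤ c₀) (hJ : ∀ β : ℝ, 0 < β → JK c₀ N β) {A ε : ℝ} (hA : 1 ≤ A) (hε : 0 < ε) :
    ∃ Kc : ℝ, ∀ (Ω : Type) [Fintype Ω] (P : Law Ω) (m h c d : ℕ) (S : Ω → Nd) (f : Ω → ℕ) (T : Ω → ℤ) (W' : Ω → Cbx)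
      (l' : Ω → Ry), c ≤ d → d ≤ 2 * c → 2 * (d - c) ≤ h →
    (∀ ω, 0 < P.w ω → Cap m d (S ω).τ) →
    (∀ ω, 0 < P.w ω → (S ω).T = T ω / 2 ^ (2 * (d - c) * m)) →
    (∀ ω, 0 < P.w ω → f ω < 2 ^ (h * m)) →
    (∀ ω, 0 < P.w ω →
      let l := bl (2 * (d - c) * m) (fr m h d (S ω) (f ω)) (tb (2 * (d - c) * m) (T ω))
      (∀ k, |l.y k - (l' ω).y k| ≤ A * (2 ^ (d * m) / 2 ^ (2 * c * m))) ∧
      (∀ k, |l.s k - (l' ω).s k| ≤ A * (2 ^ (d * m) / 2 ^ (2 * c * m))) ∧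
      |l.z + ∑ k, l.y k * (l.s k - (l' ω).s k) - (l' ω).z| ≤ A * hh m h c) →
    (∀ ω, 0 < P.w ω → (W' ω).ok (1 / 8) (2 ^ (d * m) / 2 ^ (2 * c * m)) (hh m h c) ∧
      (W' ω).In (hh m h c) (l' ω).y (l' ω).s (l' ω).z) →
    ∃ (Ω' : Type) (_ : Fintype Ω') (P' : Law Ω') (π : Ω' → Ω) (W₂ : Ω' → Cbx),
      (∀ ω, P'.pr π ω = P.w ω) ∧
      (∀ ω, 0 < P'.w ω → (W₂ ω).ok (1 / 8) (2 ^ (d * m) / 2 ^ (2 * d * m)) (hh m h d) ∧
        (W₂ ω).In (hh m h d) (ray (coneSl m h) m d (S (π ω))).y (ray (coneSl m h) m d (S (π ω))).s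
          (ray (coneSl m h) m d (S (π ω))).z) ∧
      Stk.hc P (fun ω => (S ω, f ω)) (fun ω => (W' ω, T ω)) + ((2 * (d - c) * m : ℕ) : ℝ) * Real.log 2 -
          ((h * m : ℕ) : ℝ) * Real.log 2 -
          P.ex (fun ω => Real.log ((W' ω).vol ((1 / 2 : ℝ) ^ (c * m)) (hh m h c))) ≤
        ε * ((d * m : ℕ) : ℝ) * Real.log 2 + Kc +
        (Stk.hc P' (fun ω => S (π ω)) (fun ω => (W₂ ω, (S (π ω)).T)) -
          P'.ex (fun ω => Real.log ((W₂ ω).vol ((1 / 2 : ℝ) ^ (d * m)) (hh m h d)))) +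
        N * (((2 * (d - c) * m : ℕ) : ℝ) * Real.log 2 -
          Stk.hc P (fun ω => T ω % 2 ^ (2 * (d - c) * m)) (fun ω => (S ω, f ω))) := by
  obtain ⟨mk, C1, hmk, hC1, hpce⟩ := pPce A hA
  obtain ⟨C2, hthk⟩ := pThk c₀ hc₀
  obtain ⟨M, hM⟩ := pLoc
  obtain ⟨K, hcnd⟩ := pCnd c₀ N (ε / 2) hc₀ hN (hJ (ε / 2) (half_pos hε)) (ε / 2) (half_pos hε)
  refine ⟨K + C2 + Real.log M + Real.log (3 * mk * (C1 * C1)), ?_⟩
  intro Ω _ P m h c d S f T W' l' hcd hd2 hh2 hcap hST hf hgeo hW'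
  -- abbreviations
  set a := 2 * (d - c) * m with ha
  set n := d * m with hn
  have han : a ≤ n := by
    rw [ha, hn]
    exact Nat.mul_le_mul_right m (by omega)
  have hr : (2 : ℝ) ^ a / 2 ^ n = 2 ^ n / 2 ^ (2 * c * m) := exp_r hcd
  set r : ℝ := 2 ^ n / 2 ^ (2 * c * m) with hr'
  set H : ℝ := hh m h c with hH
  set H' : ℝ := 2 ^ a / 2 ^ (2 * n) with hH'
  have hr0 : 0 < r := by positivity
  have hr1 : r ≤ 1 := by
    rw [hr', div_le_one (by positivity)]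
    exact pow_le_pow_right₀ (by norm_num) (Nat.mul_le_mul_right m hd2)
  have hH0 : 0 < H := by
    rw [hH]
    unfold hh
    positivity
  have hH'0 : 0 < H' := by positivity
  have hH'1 : H' ≤ 1 := by
    rw [hH', div_le_one (by positivity)]
    exact pow_le_pow_right₀ (by norm_num) (by omega)
  have hH'r : H' ≤ r ^ 2 := by
    rw [hH', exp_H hcd, hr', div_pow, ← pow_mul, ← pow_mul, div_le_div_iff₀ (by positivity) (by positivity), one_mul, ← pow_add]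
    refine pow_le_pow_right₀ (by norm_num) ?_
    have : c * m ≤ n := by rw [hn]; exact Nat.mul_le_mul_right m hcd
    nlinarith
  have hrH : r ^ 2 ≤ H := by
    rw [hr', hH]
    unfold hh
    rw [div_pow, ← pow_mul, ← pow_mul, div_le_div_iff₀ (by positivity) (by positivity), ← pow_add, ← pow_add]
    refine pow_le_pow_right₀ (by norm_num) ?_
    have h1 : 2 * (d - c) * m ≤ h * m := Nat.mul_le_mul_right m hh2
    have h2 := exp_add (m := m) hcd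
    have h3 : 2 * c * m * 2 = 2 * c * m + 2 * c * m := by ring
    rw [hn, h3]
    omega
  obtain ⟨key, ff, hkf⟩ := hpce r H H' hH'0 hH'r hrH hr0 hr1
  -- variables
  set ln : Ω → Ry := fun ω => fr m h d (S ω) (f ω) with hln
  set lc : Ω → Ry := fun ω => bl a (ln ω) (tb a (T ω)) with hlc
  set kk : Ω → ℤ × Fin mk := fun ω => key (W' ω) (lc ω) with hkk
  set W2 : Ω → Cbx := fun ω => ff (W' ω) (kk ω) with hW2
  set cell : Ω → Z2 × ℤ := fun ω => (ln ω).cell with hcell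
  set Wl : Ω → Cbx := fun ω => trB (W2 ω) (fun k => 2 ^ a * ((cell ω).1 k : ℝ)) (2 ^ a * ((cell ω).2 : ℝ)) with hWl
  set C : Ω → ℤ × (Z2 × ℤ) := fun ω => ((S ω).T, cell ω) with hC
  have hslope : ∀ ω, 0 < P.w ω → ∀ k, |(ln ω).s k| ≤ 1 := fun ω hω k => fr_s (hcap ω hω) h (f ω) k
  have hprop : ∀ ω, 0 < P.w ω → (W2 ω).ok (1 / 8) r H' ∧ (W2 ω).In H' (lc ω).y (lc ω).s (lc ω).z ∧
      |((kk ω).1 : ℝ)| ≤ C1 * max 1 (H / (W' ω).u2 ^ 2) ∧
      (W2 ω).vol r H' ≤ C1 * ((W' ω).u1 * (W' ω).u2 ^ 3 / (r ^ 2 * H')) := by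
    intro ω hω
    obtain ⟨g1, g2, g3⟩ := hgeo ω hω
    obtain ⟨o1, o2⟩ := hW' ω hω
    exact hkf (W' ω) (lc ω) (l' ω) o1 o2 g1 g2 g3
  -- conditional inequality
  obtain ⟨Ω', fΩ', P', π, W₁, hπ, hW₁, hineq⟩ := hcnd Ω (ℤ × (Z2 × ℤ)) P (fun ω => (ln ω).loc) (fun ω => tb a (T ω)) Wl C a n
    han (by
      intro ω hω
      obtain ⟨p1, p2, -, -⟩ := hprop ω hω
      refine ⟨loc_ok _ (hslope ω hω), (tb_mem a (T ω)).1, (tb_mem a (T ω)).2, ?_, ?_⟩
      · rw [hr]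
        exact (trB_ok _ _ _ _ _ _).2 p1
      · show (Wl ω).In H' (bl a ((ln ω).tr (fun k => ((ln ω).cell.1 k : ℝ)) (ln ω).cell.2) (tb a (T ω))).y _ _
        rw [show (ln ω).loc = (ln ω).tr (fun k => ((ln ω).cell.1 k : ℝ)) (ln ω).cell.2 from rfl, bl_tr]
        exact (trB_in _ _ _ _ _).2 p2)
  -- back to absolute coordinates
  set Wa : Ω' → Cbx := fun ω => trB (W₁ ω) (fun k => -((cell (π ω)).1 k : ℝ)) (-((cell (π ω)).2 : ℝ)) with hWa
  have hsup : ∀ ω, 0 < P'.w ω → 0 < P.w (π ω) := by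
    intro ω hω
    rw [← hπ]
    exact P'.pr_pos π hω
  obtain ⟨W₂, hW₂, hineq2⟩ := hthk Ω' Nd ℤ P' (fun ω => S (π ω)) (fun ω => (S (π ω)).T)
    (fun ω => ray (coneSl m h) m d (S (π ω))) (fun ω => f (π ω)) n (h * m) Wa (by
      intro ω hω
      obtain ⟨b1, b2⟩ := hW₁ ω hω
      refine ⟨hf _ (hsup ω hω), b1, ?_⟩
      have b3 := (trB_bin (ln (π ω)).loc (W₁ ω) (fun k => -((cell (π ω)).1 k : ℝ)) (-((cell (π ω)).2 : ℝ)) c₀
        ((1 / 2 : ℝ) ^ (2 * n))).2 b2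
      have b4 : (ln (π ω)).loc.tr (fun k => -((cell (π ω)).1 k : ℝ)) (-((cell (π ω)).2 : ℝ)) = ln (π ω) :=
        tr_tr_neg (ln (π ω)) (fun k => ((cell (π ω)).1 k : ℝ)) ((cell (π ω)).2 : ℝ)
      rw [b4] at b3
      exact b3) (by
      intro ω ω' _ _ e
      show ray (coneSl m h) m d (S (π ω)) = ray (coneSl m h) m d (S (π ω'))
      rw [show S (π ω) = S (π ω') from e])
  have hHd : (2 : ℝ) ^ (h * m) / 2 ^ (2 * n) = hh m h d := by
    unfold hh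
    rw [hn, show 2 * (d * m) = 2 * d * m by ring]
  have hrd : (1 / 2 : ℝ) ^ n = 2 ^ n / 2 ^ (2 * d * m) := by
    have : 2 * d * m = n + n := by rw [hn]; ring
    rw [this, pow_add, one_div, inv_pow]
    field_simp
  rw [hHd] at hW₂ hineq2
  refine ⟨Ω', fΩ', P', π, W₂, hπ, ?_, ?_⟩
  · intro ω hω
    obtain ⟨w1, w2⟩ := hW₂ ω hω
    rw [hrd] at w1
    exact ⟨w1, w2⟩
  -- entropies
  have i1 := ent_key P (fun ω => (S ω, f ω)) W' T kk W2 cell (by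
    intro ω ω' _ _ e
    have e1 : kk ω = kk ω' := congrArg Prod.fst e
    have e2 : W' ω = W' ω' := congrArg Prod.snd e
    show ff (W' ω) (kk ω) = ff (W' ω') (kk ω')
    rw [e1, e2])
  have i2 : Stk.hc P cell (fun ω => (W2 ω, T ω)) ≤ Real.log M := by
    refine hc_le_log P _ _ M fun ω hω => ?_
    obtain ⟨U, hU1, hU2⟩ := hM a (W2 ω) H' (T ω) (hprop ω hω).1.u2 hH'1
    refine ⟨U, hU1, fun ω' hω' e => ?_⟩
    have e1 : W2 ω' = W2 ω := congrArg Prod.fst e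
    have e2 : T ω' = T ω := congrArg Prod.snd e
    refine hU2 (ln ω') (hslope ω' hω') ?_
    have := (hprop ω' hω').2.1
    rw [e1] at this
    rw [← e2]
    exact this
  have i3 := ent_count P kk W' T (fun ω => C1 * max 1 (H / (W' ω).u2 ^ 2))
    (fun ω => one_le_mul_of_one_le_of_one_le hC1 (le_max_left _ _)) (fun ω ω' e => by rw [e])
    (fun ω hω => (hprop ω hω).2.2.1)
  have hfl : ∀ ω, fl1 a (tb a (T ω)) = T ω % 2 ^ a := fun ω => fl1_tb a (T ω)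
  have i4 : Stk.hc P (fun ω => (S ω, f ω)) (fun ω => (cell ω, (W2 ω, T ω))) ≤
      Stk.hc P (fun ω => pl n (ln ω).loc) (fun ω => ((Wl ω, fl1 a (tb a (T ω))), C ω)) := by
    refine (hc_mono_left P (X' := fun ω => pl n (ln ω).loc) ?_).trans (hc_mono_right P _ ?_)
    · intro ω ω' hω hω' e
      have e1 : pl n (ln ω).loc = pl n (ln ω').loc := congrArg Prod.fst e
      have e2 : cell ω = cell ω' := congrArg (fun q => q.2.1) e
      have e3 : T ω = T ω' := congrArg (fun q => q.2.2.2) e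
      have e4 : (S ω).T = (S ω').T := by rw [hST ω hω, hST ω' hω', e3]
      obtain ⟨k1, k2⟩ := pBij m h d (S ω) (S ω') (f ω) (f ω') (hf ω hω) (hf ω' hω') e4 e2 e1
      exact Prod.ext k1 k2
    · intro ω ω' hω hω' e
      have e1 : cell ω = cell ω' := congrArg Prod.fst e
      have e2 : W2 ω = W2 ω' := congrArg (fun q => q.2.1) e
      have e3 : T ω = T ω' := congrArg (fun q => q.2.2) e
      have e4 : (S ω).T = (S ω').T := by rw [hST ω hω, hST ω' hω', e3]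
      show ((trB (W2 ω) (fun k => 2 ^ a * ((cell ω).1 k : ℝ)) (2 ^ a * ((cell ω).2 : ℝ)), fl1 a (tb a (T ω))),
        ((S ω).T, cell ω)) = ((trB (W2 ω') (fun k => 2 ^ a * ((cell ω').1 k : ℝ)) (2 ^ a * ((cell ω').2 : ℝ)),
        fl1 a (tb a (T ω'))), ((S ω').T, cell ω'))
      rw [e1, e2, e3, e4]
  have i5 : Stk.hc P' (fun ω => pl n (ln (π ω)).loc) (fun ω => (W₁ ω, C (π ω))) ≤
      Stk.hc P' (fun ω => (S (π ω), f (π ω))) (fun ω => (Wa ω, (S (π ω)).T)) := by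
    refine (hc_mono_left P' (X' := fun ω => (S (π ω), f (π ω))) ?_).trans (hc_mono_right P' _ ?_)
    · intro ω ω' _ _ e
      have e1 : S (π ω) = S (π ω') := congrArg (fun q => q.1.1) e
      have e2 : f (π ω) = f (π ω') := congrArg (fun q => q.1.2) e
      show pl n (fr m h d (S (π ω)) (f (π ω))).loc = pl n (fr m h d (S (π ω')) (f (π ω'))).loc
      rw [e1, e2]
    · intro ω ω' _ _ e
      have e1 : W₁ ω = W₁ ω' := congrArg Prod.fst e
      have e2 : (S (π ω)).T = (S (π ω')).T := congrArg (fun q => q.2.1) e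
      have e3 : cell (π ω) = cell (π ω') := congrArg (fun q => q.2.2) e
      show (trB (W₁ ω) (fun k => -((cell (π ω)).1 k : ℝ)) (-((cell (π ω)).2 : ℝ)), (S (π ω)).T) =
        (trB (W₁ ω') (fun k => -((cell (π ω')).1 k : ℝ)) (-((cell (π ω')).2 : ℝ)), (S (π ω')).T)
      rw [e1, e2, e3]
  have i6 : Stk.hc P (fun ω => T ω % 2 ^ a) (fun ω => (S ω, f ω)) ≤
      Stk.hc P (fun ω => fl1 a (tb a (T ω))) (fun ω => (pl n (ln ω).loc, C ω)) := by
    simp only [hfl]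
    refine hc_mono_right P _ ?_
    intro ω ω' _ _ e
    have e1 : S ω = S ω' := congrArg Prod.fst e
    have e2 : f ω = f ω' := congrArg Prod.snd e
    show (pl n (fr m h d (S ω) (f ω)).loc, ((S ω).T, (fr m h d (S ω) (f ω)).cell)) =
      (pl n (fr m h d (S ω') (f ω')).loc, ((S ω').T, (fr m h d (S ω') (f ω')).cell))
    rw [e1, e2]
  -- volumes
  have i7 : P.ex (fun ω => Real.log (3 * mk * (C1 * max 1 (H / (W' ω).u2 ^ 2)))) +
      P.ex (fun ω => Real.log ((Wl ω).vol (2 ^ a / 2 ^ n) (2 ^ a / 2 ^ (2 * n)))) ≤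
      Real.log (3 * mk * (C1 * C1)) + P.ex (fun ω => Real.log ((W' ω).vol ((1 / 2 : ℝ) ^ (c * m)) (hh m h c))) +
        (((h * m : ℕ) : ℝ) * Real.log 2 - (a : ℝ) * Real.log 2) := by
    rw [← P.ex_add]
    have e0 : Real.log (3 * mk * (C1 * C1)) + P.ex (fun ω => Real.log ((W' ω).vol ((1 / 2 : ℝ) ^ (c * m)) (hh m h c))) +
        (((h * m : ℕ) : ℝ) * Real.log 2 - (a : ℝ) * Real.log 2) =
        P.ex (fun ω => (Real.log (3 * mk * (C1 * C1)) + (((h * m : ℕ) : ℝ) * Real.log 2 - (a : ℝ) * Real.log 2)) +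
          Real.log ((W' ω).vol ((1 / 2 : ℝ) ^ (c * m)) (hh m h c))) := by
      rw [P.ex_add, P.ex_const]
      ring
    rw [e0]
    refine P.ex_mono fun ω hω => ?_
    obtain ⟨o1, -⟩ := hW' ω hω
    obtain ⟨p1, p2, p3, p4⟩ := hprop ω hω
    have u1 : 0 < (W' ω).u1 := hr0.trans_le o1.r1
    have u2 : 0 < (W' ω).u2 := u1.trans_le o1.u12
    have hmk' : (0 : ℝ) < mk := by exact_mod_cast hmk
    have hC0 : (0 : ℝ) < C1 := by linarith
    have v1 : 0 < (W' ω).vol ((1 / 2 : ℝ) ^ (c * m)) (hh m h c) := by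
      unfold Cbx.vol
      have : (0:ℝ) < max 1 ((W' ω).u2 ^ 2 / hh m h c) := lt_of_lt_of_le one_pos (le_max_left _ _)
      positivity
    have v2 : 0 < (Wl ω).vol r H' := by
      show 0 < (W2 ω).vol r H'
      have w1 : 0 < (W2 ω).u1 := hr0.trans_le p1.r1
      have w2 : 0 < (W2 ω).u2 := w1.trans_le p1.u12
      unfold Cbx.vol
      have : (0:ℝ) < max 1 ((W2 ω).u2 ^ 2 / H') := lt_of_lt_of_le one_pos (le_max_left _ _)
      positivity
    have v3 : (Wl ω).vol (2 ^ a / 2 ^ n) (2 ^ a / 2 ^ (2 * n)) ≤ C1 * ((W' ω).u1 * (W' ω).u2 ^ 3 / (r ^ 2 * H')) := by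
      rw [hr]
      exact p4
    have v4 : 0 < (Wl ω).vol (2 ^ a / 2 ^ n) (2 ^ a / 2 ^ (2 * n)) := by
      rw [hr]
      exact v2
    have v5 : (0:ℝ) < max 1 (H / (W' ω).u2 ^ 2) := lt_of_lt_of_le one_pos (le_max_left _ _)
    have v6 : (0:ℝ) < (W' ω).u1 * (W' ω).u2 ^ 3 / (r ^ 2 * H') := by positivity
    have key1 : max 1 (H / (W' ω).u2 ^ 2) * ((W' ω).u1 * (W' ω).u2 ^ 3 / (r ^ 2 * H')) * 2 ^ a =
        (W' ω).vol ((1 / 2 : ℝ) ^ (c * m)) (hh m h c) * 2 ^ (h * m) := vol_id (h := h) hcd (W' ω) u1 u2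
    have key2 : Real.log (max 1 (H / (W' ω).u2 ^ 2)) + Real.log ((W' ω).u1 * (W' ω).u2 ^ 3 / (r ^ 2 * H')) +
        (a : ℝ) * Real.log 2 =
        Real.log ((W' ω).vol ((1 / 2 : ℝ) ^ (c * m)) (hh m h c)) + ((h * m : ℕ) : ℝ) * Real.log 2 := by
      have := congrArg Real.log key1
      rw [Real.log_mul (by positivity) (by positivity), Real.log_mul v5.ne' v6.ne', Real.log_pow,
        Real.log_mul v1.ne' (by positivity), Real.log_pow] at this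
      exact this
    have l1 := Real.log_le_log v4 v3
    rw [Real.log_mul hC0.ne' v6.ne'] at l1
    have l2 : Real.log (3 * mk * (C1 * max 1 (H / (W' ω).u2 ^ 2))) =
        Real.log (3 * mk) + Real.log C1 + Real.log (max 1 (H / (W' ω).u2 ^ 2)) := by
      rw [Real.log_mul (by positivity) (by positivity), Real.log_mul hC0.ne' v5.ne']
      ring
    have l3 : Real.log (3 * mk * (C1 * C1)) = Real.log (3 * mk) + Real.log C1 + Real.log C1 := by
      rw [Real.log_mul (by positivity) (by positivity), Real.log_mul hC0.ne' hC0.ne']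
      ring
    rw [l2, l3]
    linarith
  have i8 : (ε / 2 + ε / 2) * (n : ℝ) * Real.log 2 = ε * (n : ℝ) * Real.log 2 := by ring
  have i9 := mul_le_mul_of_nonneg_left i6 hN
  have i10 : N * ((a : ℝ) * Real.log 2 - Stk.hc P (fun ω => fl1 a (tb a (T ω))) (fun ω => (pl n (ln ω).loc, C ω))) ≤
      N * ((a : ℝ) * Real.log 2 - Stk.hc P (fun ω => T ω % 2 ^ a) (fun ω => (S ω, f ω))) :=
    mul_le_mul_of_nonneg_left (by linarith) hN
  have i11 : P'.ex (fun ω => Real.log ((Wa ω).vol ((1 / 2 : ℝ) ^ n) ((1 / 2 : ℝ) ^ (2 * n)))) =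
      P'.ex (fun ω => Real.log ((W₁ ω).vol ((1 / 2 : ℝ) ^ n) ((1 / 2 : ℝ) ^ (2 * n)))) := rfl
  rw [i8] at hineq
  rw [i11] at hineq2
  linarith

/-- **finite step** -/
theorem fin_of {N : ℝ} (hN : 0 ≤ N) (hS : StK106 N) : PFin N := by
  obtain ⟨c₀, hc₀, hJ⟩ := hS
  intro A ε hA hε
  obtain ⟨Kc, h3⟩ := fin3 hN hc₀ hJ hA hε
  refine ⟨Kc, ?_⟩
  intro Ω _ P m h c d S T sg W' l' hcd hd2 hh2 hcap hST hTs hgeo hW'
  have hM : 0 < 2 ^ (h * m) := by positivity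
  have hsup : ∀ p : (Ω × Ω) × Fin (2 ^ (h * m)), 0 < (Bs.pu (copyLaw P sg) (2 ^ (h * m)) hM).w p →
      0 < P.w p.1.1 ∧ 0 < P.w p.1.2 ∧ sg p.1.2 = sg p.1.1 := fun p hp =>
    copy_supp P sg ((Bs.pu_pos _ _ _).1 hp)
  obtain ⟨Ω', fΩ', P', π, W₂, hπ, hW₂, hineq⟩ := h3 ((Ω × Ω) × Fin (2 ^ (h * m))) (Bs.pu (copyLaw P sg) (2 ^ (h * m)) hM)
    m h c d (fun p => S p.1.1) (fun p => (p.2 : ℕ)) (fun p => T p.1.1) (fun p => W' p.1.2) (fun p => l' p.1.2) hcd hd2 hh2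
    (fun p hp => hcap _ (hsup p hp).1) (fun p hp => hST _ (hsup p hp).1) (fun p _ => p.2.2) (by
      intro p hp
      refine hgeo p.1.1 p.1.2 (hsup p hp).1 (hsup p hp).2.1 (hsup p hp).2.2.symm ((p.2 : ℕ) / 2 ^ (2 * (d * m))) (by positivity) ?_
      unfold hh
      rw [show 2 * (d * m) = 2 * d * m by ring]
      refine div_le_div_of_nonneg_right ?_ (by positivity)
      have := p.2.2.le
      exact_mod_cast this)
    (fun p hp => hW' _ (hsup p hp).2.1)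
  have hlaw1 : ∀ q : Ω × Ω, (Bs.pu (copyLaw P sg) (2 ^ (h * m)) hM).pr (fun p => p.1) q = (copyLaw P sg).w q := by
    intro q
    rw [Bs.pu_pr_fst (copyLaw P sg) (2 ^ (h * m)) hM (fun x => x) q]
    exact pr_id _ q
  refine ⟨Ω', fΩ', P', fun ω => (π ω).1.1, W₂, ?_, hW₂, ?_⟩
  · intro ω
    have e1 := pr_law_aux P' (Bs.pu (copyLaw P sg) (2 ^ (h * m)) hM) π hπ (fun p => p.1.1) ω
    have e2 := pr_law_aux (Bs.pu (copyLaw P sg) (2 ^ (h * m)) hM) (copyLaw P sg) (fun p => p.1) hlaw1 (fun q => q.1) ω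
    have e3 := copyLaw_fst P sg ω
    rw [← e3]
    exact e1.trans e2
  have j1 := ent_copy P S sg T W' hTs
  have j2 := ent_unif (copyLaw P sg) (2 ^ (h * m)) hM (fun q => S q.1) (fun q => (W' q.2, T q.1))
  have j3 : (Bs.pu (copyLaw P sg) (2 ^ (h * m)) hM).ex (fun p => Real.log ((W' p.1.2).vol ((1 / 2 : ℝ) ^ (c * m)) (hh m h c))) =
      P.ex (fun ω => Real.log ((W' ω).vol ((1 / 2 : ℝ) ^ (c * m)) (hh m h c))) := by
    rw [Bs.pu_ex_fst (copyLaw P sg) (2 ^ (h * m)) hM (fun q => Real.log ((W' q.2).vol ((1 / 2 : ℝ) ^ (c * m)) (hh m h c)))]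
    exact copy_ex_snd P sg (fun ω => Real.log ((W' ω).vol ((1 / 2 : ℝ) ^ (c * m)) (hh m h c)))
  have j4 : Stk.hc P T S ≤ Stk.hc (Bs.pu (copyLaw P sg) (2 ^ (h * m)) hM) (fun p => T p.1.1 % 2 ^ (2 * (d - c) * m))
      (fun p => (S p.1.1, (p.2 : ℕ))) := by
    rw [ent_unif' (copyLaw P sg) (2 ^ (h * m)) hM (fun q => T q.1 % 2 ^ (2 * (d - c) * m)) (fun q => S q.1)]
    have k1 : Stk.hc (copyLaw P sg) (fun q => T q.1 % 2 ^ (2 * (d - c) * m)) (fun q => S q.1) =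
        Stk.hc P (fun ω => T ω % 2 ^ (2 * (d - c) * m)) S :=
      hc_of_law (copyLaw P sg) P Prod.fst (copyLaw_fst P sg) (fun ω => T ω % 2 ^ (2 * (d - c) * m)) S
    rw [k1]
    refine hc_mono_left P ?_
    intro ω ω' hω hω' e
    have e1 : T ω % 2 ^ (2 * (d - c) * m) = T ω' % 2 ^ (2 * (d - c) * m) := congrArg Prod.fst e
    have e2 : S ω = S ω' := congrArg Prod.snd e
    have e3 : T ω / 2 ^ (2 * (d - c) * m) = T ω' / 2 ^ (2 * (d - c) * m) := by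
      rw [← hST ω hω, ← hST ω' hω', e2]
    rw [← Int.emod_add_mul_ediv (T ω) (2 ^ (2 * (d - c) * m)), ← Int.emod_add_mul_ediv (T ω') (2 ^ (2 * (d - c) * m)), e1, e3]
  have j5 : Real.log ((2 ^ (h * m) : ℕ) : ℝ) = ((h * m : ℕ) : ℝ) * Real.log 2 := by
    push_cast
    rw [Real.log_pow]
    push_cast
    ring
  rw [j5] at j2
  rw [j3] at hineq
  have j6 : N * (((2 * (d - c) * m : ℕ) : ℝ) * Real.log 2 -
      Stk.hc (Bs.pu (copyLaw P sg) (2 ^ (h * m)) hM) (fun p => T p.1.1 % 2 ^ (2 * (d - c) * m))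
      (fun p => (S p.1.1, (p.2 : ℕ)))) ≤ N * (((2 * (d - c) * m : ℕ) : ℝ) * Real.log 2 - Stk.hc P T S) :=
    mul_le_mul_of_nonneg_left (by linarith) hN
  linarith

end Vale.Agent.P106.K
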