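import Vale.Agent.P106.K.E4
import Vale.Agent.P106.K.E4Fin

/-! # P106 / K : `StK106 N → R.E.E4 N` (helper357, helper471) -/

set_option autoImplicit false

namespace Vale.Agent.P106.K

/-- **Kakeya input of the wave side** -/
theorem e4_of_k {N : ℝ} (hN : 0 ≤ N) (h : StK106 N) : R.E.E4 N := e4_of_fin (fin_of hN h)

end Vale.Agent.P106.K
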