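import Vale.Agent.P106.R.SIG.Sig
import Vale.Agent.P106.R.H518.E12
import Vale.Agent.P106.R.E3.E3

/-!
# P106 / K : the planks of a system of flags are tame (helper265)

`tame_N` : every node `F.N c` has entropy `O(L)`, for every system of flags (no counts).
`exc_bdd` : the set in the definition of `F.exc c` is bounded above (by the entropy of the node).
-/

set_option autoImplicit false

namespace Vale.Agent.P106.K

open Filter Topology Finset Vale.Agent.P127 Vale.Agent.P127.Stk Vale.Agent.P127.U Vale.Agent.P127.U.Sys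
  Vale.Agent.P106.R.C2 Vale.Agent.P106.R.E Vale.Agent.P106.R.SIG
open Vale.Agent.P106.W (Cbx)
open Vale.Agent.P122.H474 (Chn tm ps)

section

variable {K : ℕ} (F : Flg K)

/-- constant of the offset of the starting cell -/
noncomputable def rA (C : ℝ) (K : ℕ) : ℝ := C + 1 + (C + 2) * K

/-- constant of the index of the starting cell -/
noncomputable def rB (C : ℝ) (K : ℕ) : ℝ :=
  C + 2 * rA C K + 1 + (1 + 2 * ((C + 2) * K * C + C + C ^ 2)) * K

/-- offset of the starting cell -/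
theorem root_o {i : ℕ} {ω : F.S.Ω i} (hω : 0 < (F.S.P i).w ω) (k : Fin 2) :
    |((F.N 0 i ω).o k : ℝ)| ≤ rA F.C K * 2 ^ (2 * K * F.n i) := by
  have hc := (cn F i ω hω).chn
  have hs := slp' (F.slp i)
  have hC := Chn.C_nonneg hs
  have h1 := hc.posn hs (Nat.zero_le K) le_rfl k
  have h3 := hc.tm_sub_nonneg (Nat.zero_le K) le_rfl
  have h4 := hc.tm_sub_le (Nat.zero_le K) le_rfl
  have h5 : |(F.s i).f K (bb (F.N K i ω)).τ k| ≤ 1 := (F.slp i).bd K _ k le_rfl ((cn F i ω hω).cap K le_rfl)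
  have h6 := (F.top i ω hω).1 k
  set n := F.n i with hn
  have e0 : ps n 0 (bb (F.N 0 i ω)) k = ((F.N 0 i ω).o k : ℝ) := by
    simp [ps, bb]
  have eK : ps n K (bb (F.N K i ω)) k = 2 ^ (K * n) * ((F.N K i ω).o k : ℝ) := rfl
  rw [e0, eK] at h1
  set o0 : ℝ := ((F.N 0 i ω).o k : ℝ) with ho0
  set oK : ℝ := ((F.N K i ω).o k : ℝ) with hoK
  set dt : ℝ := tm n 0 (bb (F.N 0 i ω)) - tm n K (bb (F.N K i ω)) with hdt
  set sK : ℝ := (F.s i).f K (bb (F.N K i ω)).τ k with hsK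
  have e2 : (2:ℝ) ^ (2 * K * n) = 2 ^ (K * n) * 2 ^ (K * n) := by
    rw [← pow_add]
    congr 1
    ring
  have e1 : (2:ℝ) ^ (K * n) ≤ 2 ^ (2 * K * n) := pow_le_pow_right₀ (by norm_num) (by nlinarith [Nat.zero_le (K * n)])
  have g1 : |2 ^ (K * n) * oK| ≤ F.C * 2 ^ (2 * K * n) := by
    rw [abs_mul, abs_of_pos (by positivity : (0:ℝ) < 2 ^ (K * n)), e2]
    calc (2:ℝ) ^ (K * n) * |oK| ≤ 2 ^ (K * n) * (F.C * 2 ^ (K * n)) := mul_le_mul_of_nonneg_left h6 (by positivity)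
      _ = F.C * (2 ^ (K * n) * 2 ^ (K * n)) := by ring
  have g2 : |dt * sK| ≤ 2 ^ (2 * K * n) := by
    rw [abs_mul, abs_of_nonneg h3]
    have : (0:ℝ) < 2 ^ (2 * 0 * n) := by positivity
    have h7 : dt ≤ 2 ^ (2 * K * n) := by
      rw [hdt]
      linarith
    calc dt * |sK| ≤ 2 ^ (2 * K * n) * 1 := mul_le_mul h7 h5 (abs_nonneg _) (by positivity)
      _ = 2 ^ (2 * K * n) := mul_one _
  have g3 : (F.C + 2) * ((K:ℝ) - (0:ℕ)) * 2 ^ (K * n) ≤ (F.C + 2) * K * 2 ^ (2 * K * n) := by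
    rw [Nat.cast_zero, sub_zero]
    exact mul_le_mul_of_nonneg_left e1 (by positivity)
  have g4 : o0 = (o0 - (2 ^ (K * n) * oK + dt * sK)) + (2 ^ (K * n) * oK + dt * sK) := by ring
  have g5 := (abs_add_le (o0 - (2 ^ (K * n) * oK + dt * sK)) (2 ^ (K * n) * oK + dt * sK)).trans
    (add_le_add (h1.trans g3) ((abs_add_le _ _).trans (add_le_add g1 g2)))
  rw [← g4] at g5
  refine g5.trans (le_of_eq ?_)
  unfold rA
  ring

/-- index of the starting cell -/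
theorem root_w {i : ℕ} {ω : F.S.Ω i} (hω : 0 < (F.S.P i).w ω) :
    |((F.N 0 i ω).w : ℝ)| ≤ rB F.C K * 2 ^ (2 * K * F.n i) := by
  have hc := cn F i ω hω
  have hs := slp' (F.slp i)
  have hC := Chn.C_nonneg hs
  have h1 := hc.zz_near (F.slp i) (one_le_sh F i) le_rfl (Nat.zero_le K) le_rfl
  have h2 := (F.top i ω hω).2
  have hr := F.root i ω hω
  have ho := root_o F hω
  have hsl : ∀ k, |W.s0 (F.n i) K (F.N K i ω).τ k| ≤ 1 := by
    intro k
    have h5 := (F.slp i).bd K (F.N K i ω).τ k le_rfl (hc.cap K le_rfl)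
    rwa [show (F.s i) K (F.N K i ω).τ k = W.s0 (F.n i) K (F.N K i ω).τ k from cone_s (F.slp i) K _ k] at h5
  have hhK : (F.s i).h ≤ K := by
    rw [F.hs i]
    exact F.hK
  have hh : F.h = (F.s i).h := (F.hs i).symm
  rw [hh] at h2
  set n := F.n i with hn
  set h := (F.s i).h with hh'
  have e1 : (2:ℝ) ^ (h * n) ≤ 2 ^ (2 * K * n) :=
    pow_le_pow_right₀ (by norm_num) (Nat.mul_le_mul_right n (by omega))
  have e2 : (1:ℝ) ≤ 2 ^ (h * n) := one_le_pow₀ (by norm_num)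
  have ey : ∀ k, ps n 0 (bb (F.N 0 i ω)) k = ((F.N 0 i ω).o k : ℝ) := by
    intro k
    simp [ps, bb]
  have et : tm n 0 (bb (F.N 0 i ω)) = ((F.N 0 i ω).T : ℝ) := by
    simp [tm, bb]
  have ez : zz n h 0 (ps n 0 (bb (F.N 0 i ω))) (tm n 0 (bb (F.N 0 i ω))) (F.N 0 i ω) =
      ((F.N 0 i ω).w : ℝ) * 2 ^ (h * n) := by
    unfold zz W.s0
    rw [hr.1]
    simp
  rw [ez] at h1
  set w0 : ℝ := ((F.N 0 i ω).w : ℝ) with hw0
  set wK : ℝ := ((F.N K i ω).w : ℝ) with hwK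
  have hT : |((F.N 0 i ω).T : ℝ)| ≤ 2 ^ (2 * K * n) := by
    rw [abs_of_nonneg (by exact_mod_cast hr.2.1)]
    exact_mod_cast hr.2.2.le
  have hzK : |zz n h K (ps n 0 (bb (F.N 0 i ω))) (tm n 0 (bb (F.N 0 i ω))) (F.N K i ω)| ≤
      (F.C + 2 * rA F.C K + 1) * 2 ^ (2 * K * n) := by
    unfold zz
    rw [et]
    simp only [Fin.sum_univ_two, ey]
    have a0 := mul_le_mul (ho 0) (hsl 0) (abs_nonneg _) (by
      have := abs_nonneg ((F.N 0 i ω).o 0 : ℝ)
      linarith [ho 0])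
    have a1 := mul_le_mul (ho 1) (hsl 1) (abs_nonneg _) (by
      have := abs_nonneg ((F.N 0 i ω).o 1 : ℝ)
      linarith [ho 1])
    rw [← abs_mul, mul_one] at a0 a1
    have b0 : W.s0 n K (F.N K i ω).τ 0 ^ 2 ≤ 1 := (sq_le_one_iff_abs_le_one _).2 (hsl 0)
    have b1 : W.s0 n K (F.N K i ω).τ 1 ^ 2 ≤ 1 := (sq_le_one_iff_abs_le_one _).2 (hsl 1)
    have c1 : |((F.N 0 i ω).T : ℝ) * ((W.s0 n K (F.N K i ω).τ 0 ^ 2 + W.s0 n K (F.N K i ω).τ 1 ^ 2) / 2)| ≤
        2 ^ (2 * K * n) := by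
      rw [abs_mul]
      have : |(W.s0 n K (F.N K i ω).τ 0 ^ 2 + W.s0 n K (F.N K i ω).τ 1 ^ 2) / 2| ≤ 1 := by
        rw [abs_of_nonneg (by positivity)]
        linarith
      calc _ ≤ (2:ℝ) ^ (2 * K * n) * 1 := mul_le_mul hT this (abs_nonneg _) (by positivity)
        _ = _ := mul_one _
    have c2 : |wK * 2 ^ (h * n)| ≤ F.C * 2 ^ (2 * K * n) := by
      rw [abs_mul, abs_of_pos (by positivity : (0:ℝ) < 2 ^ (h * n))]
      exact h2
    have c3 := (abs_sub (wK * 2 ^ (h * n) + (((F.N 0 i ω).o 0 : ℝ) * W.s0 n K (F.N K i ω).τ 0 +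
      ((F.N 0 i ω).o 1 : ℝ) * W.s0 n K (F.N K i ω).τ 1))
        (((F.N 0 i ω).T : ℝ) * ((W.s0 n K (F.N K i ω).τ 0 ^ 2 + W.s0 n K (F.N K i ω).τ 1 ^ 2) / 2))).trans
      (add_le_add ((abs_add_le _ _).trans (add_le_add c2 ((abs_add_le _ _).trans (add_le_add a0 a1)))) c1)
    rw [mul_div_assoc]
    refine c3.trans (le_of_eq ?_)
    ring
  have h3 : |w0 * 2 ^ (h * n)| ≤ rB F.C K * 2 ^ (2 * K * n) := by
    have g1 := abs_sub_comm (zz n h K (ps n 0 (bb (F.N 0 i ω))) (tm n 0 (bb (F.N 0 i ω))) (F.N K i ω)) (w0 * 2 ^ (h * n))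
    rw [g1] at h1
    have g2 : (1 + 2 * ((F.C + 2) * K * F.C + F.C + F.C ^ 2)) * ((K:ℝ) - (0:ℕ)) * 2 ^ (h * n) ≤
        (1 + 2 * ((F.C + 2) * K * F.C + F.C + F.C ^ 2)) * K * 2 ^ (2 * K * n) := by
      rw [Nat.cast_zero, sub_zero]
      exact mul_le_mul_of_nonneg_left e1 (by positivity)
    have g3 := abs_sub_abs_le_abs_sub (w0 * 2 ^ (h * n))
      (zz n h K (ps n 0 (bb (F.N 0 i ω))) (tm n 0 (bb (F.N 0 i ω))) (F.N K i ω))
    unfold rB
    linarith
  refine le_trans ?_ h3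
  rw [abs_mul, abs_of_pos (by positivity : (0:ℝ) < 2 ^ (h * n))]
  exact le_mul_of_one_le_right (abs_nonneg _) e2

/-- entropy of a variable with few values -/
theorem tame_of_card {S : Sys} {α : Type*} (X : S.RV α) (D : ℕ) (r : ℕ)
    (h : ∀ i, ∃ U : Finset α, (U.card : ℝ) ≤ D * 2 ^ (r * S.L i) ∧ ∀ ω, 0 < (S.P i).w ω → X i ω ∈ U) : Tame X := by
  refine Vale.Agent.P106.R.H518.cnt_tame (r := r) fun ε hε => ?_
  have h1 : Tendsto (fun i => ε * (S.L i : ℝ)) (uf : Filter ℕ) atTop :=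
    (tendsto_natCast_atTop_atTop.comp S.Ltop).const_mul_atTop hε
  filter_upwards [h1.eventually_ge_atTop (Real.logb 2 (D + 1))] with i hi ω hω
  obtain ⟨U, hU, hX⟩ := h i
  refine ⟨U, hU.trans ?_, fun ω' hω' _ => hX ω' hω'⟩
  have h2 : (D:ℝ) ≤ 2 ^ (ε * (S.L i : ℝ)) := by
    have h3 : (2:ℝ) ^ (Real.logb 2 (D + 1)) ≤ 2 ^ (ε * (S.L i : ℝ)) :=
      Real.rpow_le_rpow_of_exponent_le (by norm_num) hi
    rw [Real.rpow_logb (by norm_num) (by norm_num) (by positivity)] at h3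
    linarith
  calc (D:ℝ) * 2 ^ (r * S.L i) ≤ 2 ^ (ε * (S.L i : ℝ)) * 2 ^ (r * S.L i) := mul_le_mul_of_nonneg_right h2 (by positivity)
    _ = (2:ℝ) ^ (((r : ℝ) + ε) * S.L i) := by
        rw [← Real.rpow_natCast, ← Real.rpow_add (by norm_num)]
        congr 1
        push_cast
        ring

/-- the starting cell is tame -/
theorem tame_root : Tame (F.N 0) := by
  classical
  obtain ⟨A, hA⟩ := exists_nat_ge (rA F.C K)
  obtain ⟨B, hB⟩ := exists_nat_ge (rB F.C K)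
  refine tame_of_card (F.N 0) ((2 * A + 1) ^ 2 * (2 * B + 1)) 8 fun i => ?_
  set M : ℕ := 2 ^ (2 * K * F.n i) with hM
  have hMr : (2:ℝ) ^ (2 * K * F.n i) = (M:ℝ) := by
    rw [hM]
    push_cast
    rfl
  have hM1 : 1 ≤ M := Nat.one_le_two_pow
  refine ⟨((Finset.Ico (0:ℤ) M ×ˢ (Fintype.piFinset fun _ : Fin 2 => Finset.Icc (-((A * M : ℕ) : ℤ)) ((A * M : ℕ) : ℤ))) ×ˢ
    Finset.Icc (-((B * M : ℕ) : ℤ)) ((B * M : ℕ) : ℤ)).image fun p => (⟨0, p.1.2, p.1.1, p.2⟩ : Nd), ?_, ?_⟩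
  · have h1 : ∀ a : ℕ, (Finset.Icc (-(a : ℤ)) (a : ℤ)).card = 2 * a + 1 := by
      intro a
      rw [Int.card_Icc]
      omega
    have h2 : (Finset.Ico (0:ℤ) M).card = M := by
      rw [Int.card_Ico]
      simp
    have h3 : (((Finset.Ico (0:ℤ) M ×ˢ (Fintype.piFinset fun _ : Fin 2 => Finset.Icc (-((A * M : ℕ) : ℤ)) ((A * M : ℕ) : ℤ))) ×ˢ
      Finset.Icc (-((B * M : ℕ) : ℤ)) ((B * M : ℕ) : ℤ)).image fun p => (⟨0, p.1.2, p.1.1, p.2⟩ : Nd)).card ≤
        ((2 * A + 1) ^ 2 * (2 * B + 1)) * M ^ 4 := by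
      refine Finset.card_image_le.trans ?_
      rw [Finset.card_product, Finset.card_product, Fintype.card_piFinset]
      simp only [h1, h2, Finset.prod_const, Finset.card_univ, Fintype.card_fin]
      have a1 : 2 * (A * M) + 1 ≤ (2 * A + 1) * M := by nlinarith
      have b1 : 2 * (B * M) + 1 ≤ (2 * B + 1) * M := by nlinarith
      calc M * (2 * (A * M) + 1) ^ 2 * (2 * (B * M) + 1) ≤ M * ((2 * A + 1) * M) ^ 2 * ((2 * B + 1) * M) := by gcongr
        _ = ((2 * A + 1) ^ 2 * (2 * B + 1)) * M ^ 4 := by ring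
    have h4 : (2:ℝ) ^ (8 * F.S.L i) = (M:ℝ) ^ 4 := by
      rw [← hMr, ← pow_mul, F.L_eq i]
      congr 1
      ring
    rw [h4]
    exact_mod_cast h3
  · intro ω hω
    have hr := F.root i ω hω
    have ho := root_o F hω
    have hw := root_w F hω
    rw [hMr] at ho hw
    rw [Finset.mem_image]
    refine ⟨(((F.N 0 i ω).T, (F.N 0 i ω).o), (F.N 0 i ω).w), ?_, ?_⟩
    · rw [Finset.mem_product, Finset.mem_product, Fintype.mem_piFinset, Finset.mem_Ico]
      refine ⟨⟨⟨hr.2.1, ?_⟩, fun k => ?_⟩, ?_⟩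
      · have := hr.2.2
        rw [hM]
        exact_mod_cast this
      · have h5 : |((F.N 0 i ω).o k : ℝ)| ≤ ((A * M : ℕ) : ℝ) := by
          push_cast
          exact (ho k).trans (mul_le_mul_of_nonneg_right hA (Nat.cast_nonneg _))
        have h6 : |(F.N 0 i ω).o k| ≤ ((A * M : ℕ) : ℤ) := by exact_mod_cast h5
        rw [Finset.mem_Icc]
        exact abs_le.1 h6
      · have h5 : |((F.N 0 i ω).w : ℝ)| ≤ ((B * M : ℕ) : ℝ) := by
          push_cast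
          exact hw.trans (mul_le_mul_of_nonneg_right hB (Nat.cast_nonneg _))
        have h6 : |(F.N 0 i ω).w| ≤ ((B * M : ℕ) : ℤ) := by exact_mod_cast h5
        rw [Finset.mem_Icc]
        exact abs_le.1 h6
    · rw [← hr.1]

/-- the caps are tame -/
theorem tame_Y {c : ℕ} (hc : c ≤ K) : Tame (F.Y c) := by
  classical
  refine tame_of_card (F.Y c) 1 2 fun i => ?_
  refine ⟨Fintype.piFinset fun _ : Fin 2 => Finset.Ico (0:ℤ) (2 ^ (c * F.n i)), ?_, fun ω hω => ?_⟩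
  · rw [Fintype.card_piFinset]
    have h1 : (Finset.Ico (0:ℤ) (2 ^ (c * F.n i))).card = 2 ^ (c * F.n i) := by
      rw [Int.card_Ico, sub_zero]
      have : (2:ℤ) ^ (c * F.n i) = ((2 ^ (c * F.n i) : ℕ) : ℤ) := by
        push_cast
        rfl
      rw [this, Int.toNat_natCast]
    simp only [h1, Finset.prod_const, Finset.card_univ, Fintype.card_fin]
    push_cast
    rw [one_mul, ← pow_mul]
    refine pow_le_pow_right₀ (by norm_num) ?_
    rw [F.L_eq i, mul_comm 2]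
    exact Nat.mul_le_mul_right 2 (Nat.mul_le_mul_right _ hc)
  · rw [Fintype.mem_piFinset]
    intro k
    rw [Finset.mem_Ico]
    exact (cn F i ω hω).cap c hc k

/-- the node is a function of the starting cell and of the cap -/
theorem N_eq {i : ℕ} {ω ω' : F.S.Ω i} (hω : 0 < (F.S.P i).w ω) (hω' : 0 < (F.S.P i).w ω')
    (e0 : F.N 0 i ω = F.N 0 i ω') : ∀ c, c ≤ K → (F.N c i ω).τ = (F.N c i ω').τ → F.N c i ω = F.N c i ω' := by
  intro c
  induction c with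
  | zero => exact fun _ _ => e0
  | succ c ih =>
    intro hc e
    have h1 : (F.N c i ω).τ = (F.N c i ω').τ := by
      funext k
      rw [Vale.Agent.P106.R.H518.kids_div (F.step i ω hω c hc).1 k, Vale.Agent.P106.R.H518.kids_div (F.step i ω' hω' c hc).1 k, e]
    have h2 := ih (by omega) h1
    rw [(F.step i ω hω c hc).2, (F.step i ω' hω' c hc).2, h2, e]

/-- **every node of a system of flags is tame** -/
theorem tame_N {K : ℕ} (F : Flg K) {c : ℕ} (_hK : 1 ≤ K) (hc : c ≤ K) : Sys.Tame (F.N c) := by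
  refine ((tame_root F).pr (tame_Y F hc)).mono (Eventually.of_forall fun i ω ω' hω hω' e => ?_)
  exact N_eq F hω hω' (congrArg Prod.fst e) c hc (congrArg Prod.snd e)

/-- **the set of the excess is bounded** -/
theorem exc_bdd {K : ℕ} (F : Flg K) {c : ℕ} (hK : 1 ≤ K) (hc : c ≤ K) :
    BddAbove {v | ∃ (S' : Sys) (ex : Ext S' F.S) (W : S'.RV Cbx), F.InW ex c c W ∧
      v = S'.hc (ex.pull (F.N c)) (Sys.pr W (ex.pull (F.ball c))) - S'.av (F.lv c W)} := by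
  refine ⟨F.S.h (F.N c), ?_⟩
  rintro v ⟨S', ex, W, hW, rfl⟩
  have tN := tame_N F hK hc
  have h1 := hc_le_h (ex.tame tN) (Sys.pr W (ex.pull (F.ball c)))
  rw [ex.h] at h1
  have h2 : 0 ≤ S'.av (F.lv c W) := by
    refine const_le_ulim (UB.av (Vale.Agent.P106.R.E3.lv_OL F hc ex W hW)) ?_
    filter_upwards [Vale.Agent.P106.R.E3.lv_bd F hc ex W hW] with i hi
    refine div_nonneg ?_ (Nat.cast_nonneg _)
    have h3 := (S'.P i).ex_mono (f := fun _ => (0:ℝ)) (g := F.lv c W i) fun ω hω => (hi ω hω).1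
    rwa [(S'.P i).ex_const] at h3
  linarith

end

end Vale.Agent.P106.K
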