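import Vale.Agent.P106.K.E4Fin
import Vale.Agent.P106.K.E4

/-!
# P106 / K : the Kakeya step `E4 N` of the wave side from `StK106 N` (helper357, helper471)
-/

set_option autoImplicit false

namespace Vale.Agent.P106.K

/-- **E4** -/
theorem e4_of {N : ℝ} (hN : 0 ≤ N) (h : StK106 N) : R.E.E4 N := e4_of_fin (fin_of hN h)

end Vale.Agent.P106.K
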